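import Vale.Agent.P165.SP.Density

/-!
# P165, Sp4 route: a dense representation has frames; the integer points
-/

namespace Vale.Agent.P165.SP

open Matrix
open scoped Matrix.Norms.Frobenius

/-- The pairing of two bivectors of the five-dimensional part through a symplectic matrix. -/
theorem dot_rep2 {g : M4} {u : I2 → ℝ} (hu : IsLag u) (r : I2 → ℝ) :
    r ⬝ᵥ (rep2 g *ᵥ u) = ∑ a : I2, ∑ b : I2, r a * u b *
      ((g a.1 b.1 * g a.2 b.2 - g a.1 b.2 * g a.2 b.1) / 2) := by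
  rw [rep2, sub_mulVec, smul_mulVec, vecMulVec_mulVec, hu.2]
  simp [dotProduct, mulVec, minors, Finset.mul_sum]
  exact Finset.sum_congr rfl fun a _ => Finset.sum_congr rfl fun b _ => by ring

/-- A single condition on bivectors is met in the family. -/
theorem exists_cell_lag {r u : I2 → ℝ} (hr : IsLag r) (hu : IsLag u) (hr0 : r ≠ 0) (hu0 : u ≠ 0) :
    ∃ x, r ⬝ᵥ (rep2 (cell x) *ᵥ u) ≠ 0 := by
  have hom : ∀ w : I2 → ℝ, omega ⬝ᵥ w = w (0, 3) + w (1, 2) - w (2, 1) - w (3, 0) := fun w => by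
    simp [omega, J4, dotProduct, Fintype.sum_prod_type, Fin.sum_univ_four]; ring
  have hru : r (1, 2) = -r (0, 3) := by
    have h := hr.2
    rw [hom, hr.1 1 2, hr.1 0 3] at h
    linarith
  let S : M4 := Matrix.of fun i j => u (i, j)
  have hS : Sᵀ = -S := by ext i j; simpa [S] using hu.1 i j
  have hS03 : S 0 3 + S 1 2 = 0 := by
    have h := hu.2
    rw [hom, hu.1 1 2, hu.1 0 3] at h
    simp [S]; linarith
  have hS0 : S ≠ 0 := fun h => hu0 (funext fun a => congrFun (congrFun h a.1) a.2)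
  have hd : ∀ i, r (i, i) = 0 := fun i => by linarith [hr.1 i i]
  obtain ⟨x, hx⟩ := exists_cell_wedge hS hS03 hS0
    (r := ![r (0, 1), r (0, 2), 2 * r (0, 3), r (1, 3), r (2, 3)]) (fun h => hr0 (by
      have e0 := congrFun h 0
      have e1 := congrFun h 1
      have e2 := congrFun h 2
      have e3 := congrFun h 3
      have e4 := congrFun h 4
      simp at e0 e1 e2 e3 e4
      funext ⟨i, j⟩
      fin_cases i <;> fin_cases j <;>
        simp [hd, e0, e1, e2, e3, e4, hr.1 0 1, hr.1 0 2, hr.1 0 3, hr.1 1 2, hr.1 1 3, hr.1 2 3,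
          hru]))
  refine ⟨x, fun h => hx ?_⟩
  set g := cell x
  set T := g * S * gᵀ with hT
  have hmin : minors g *ᵥ u = fun a => T a.1 a.2 := by
    funext ⟨i, j⟩
    simp [hT, S, mulVec, dotProduct, minors, Matrix.mul_apply, Fintype.sum_prod_type,
      Fin.sum_univ_four, hu.1 0 1, hu.1 0 2, hu.1 0 3, hu.1 1 2, hu.1 1 3, hu.1 2 3,
      (fun k => by linarith [hu.1 k k] : ∀ k, u (k, k) = 0)]
    ring
  have hrep : rep2 g *ᵥ u = fun a => T a.1 a.2 := by
    rw [rep2, sub_mulVec, smul_mulVec, vecMulVec_mulVec, hu.2, hmin]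
    simp
  have hTs : ∀ i j, T j i = -T i j := by
    have hneg : Tᵀ = -T := by
      rw [hT, transpose_mul, transpose_mul, transpose_transpose, hS, ← Matrix.mul_assoc,
        Matrix.mul_neg, Matrix.neg_mul]
    exact fun i j => by simpa using congrFun (congrFun hneg i) j
  have hT12 : T 1 2 = -T 0 3 := by
    have : omega ⬝ᵥ (minors g *ᵥ u) = 0 := by
      rw [dotProduct_mulVec, omega_minors (cell_isSymp x), hu.2]
    rw [hmin, hom, hTs 1 2, hTs 0 3] at this
    linarith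
  rw [hrep] at h
  simp [dotProduct, Fintype.sum_prod_type, Fin.sum_univ_four, hd, hr.1 0 1, hr.1 0 2, hr.1 0 3,
    hr.1 1 2, hr.1 1 3, hr.1 2 3, hru, hTs 0 1, hTs 0 2, hTs 0 3, hTs 1 2, hTs 1 3, hTs 2 3,
    hT12] at h
  simp [crd, dotProduct, Fin.sum_univ_five]
  linarith

/-- A dense set meets finitely many conditions of both kinds at once. -/
theorem generic_both {S : Set M4} (hS : ZariskiDense S) {κ : Type} [Fintype κ]
    (r u : κ → Fin 4 → ℝ) (r' u' : κ → I2 → ℝ) (hr : ∀ i, r i ≠ 0) (hu : ∀ i, u i ≠ 0)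
    (hr' : ∀ i, IsLag (r' i) ∧ r' i ≠ 0) (hu' : ∀ i, IsLag (u' i) ∧ u' i ≠ 0) :
    ∃ g ∈ S, ∀ i, r i ⬝ᵥ (g *ᵥ u i) ≠ 0 ∧ r' i ⬝ᵥ (rep2 g *ᵥ u' i) ≠ 0 := by
  let f : κ ⊕ κ → MvPolynomial (Fin 4 × Fin 4) ℝ := Sum.elim
    (fun i => ∑ a, ∑ b, MvPolynomial.C (r i a * u i b) * MvPolynomial.X (a, b))
    (fun i => ∑ a : I2, ∑ b : I2, MvPolynomial.C (r' i a * u' i b / 2) *
      (MvPolynomial.X (a.1, b.1) * MvPolynomial.X (a.2, b.2) -
        MvPolynomial.X (a.1, b.2) * MvPolynomial.X (a.2, b.1)))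
  have e1 : ∀ (g : M4) i, MvPolynomial.eval (fun q => g q.1 q.2) (f (Sum.inl i)) =
      r i ⬝ᵥ (g *ᵥ u i) := by
    intro g i
    simp [f, dotProduct, mulVec, Finset.mul_sum]
    exact Finset.sum_congr rfl fun a _ => Finset.sum_congr rfl fun b _ => by ring
  have e2 : ∀ (g : M4) i, MvPolynomial.eval (fun q => g q.1 q.2) (f (Sum.inr i)) =
      r' i ⬝ᵥ (rep2 g *ᵥ u' i) := by
    intro g i
    rw [dot_rep2 (hu' i).1]
    simp [f]
    exact Finset.sum_congr rfl fun a _ => Finset.sum_congr rfl fun b _ => by ring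
  obtain ⟨g, hg, hgood⟩ := generic_of_dense hS f (fun k => by
    cases k with
    | inl i => simpa only [e1] using exists_cell_dot (hr i) (hu i)
    | inr i => simpa only [e2] using exists_cell_lag (hr' i).1 (hu' i).1 (hr' i).2 (hu' i).2)
  exact ⟨g, hg, fun i => ⟨e1 g i ▸ hgood (Sum.inl i), e2 g i ▸ hgood (Sum.inr i)⟩⟩

/-- Uniformity by compactness. -/
theorem exists_uniform {β X κ : Type} [TopologicalSpace X] [Fintype κ] {K : Set X}
    (hK : IsCompact K) (S : Set β) (f : β → X → κ → ℝ)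
    (hc : ∀ g i, Continuous fun x => f g x i)
    (h : ∀ x ∈ K, ∃ g ∈ S, ∀ i, 0 < f g x i) :
    ∃ (F : Finset β) (c : ℝ), 0 < c ∧ (F : Set β) ⊆ S ∧
      ∀ x ∈ K, ∃ g ∈ F, ∀ i, c ≤ f g x i := by
  classical
  let U : β × ℕ → Set X := fun gn => {x | gn.1 ∈ S ∧ ∀ i, 1 / ((gn.2 : ℝ) + 1) < f gn.1 x i}
  have hUo : ∀ gn, IsOpen (U gn) := fun gn => by
    by_cases h : gn.1 ∈ S
    · simp only [U, h, true_and, Set.ofPred_forall]
      exact isOpen_iInter_of_finite fun i => isOpen_lt continuous_const (hc _ i)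
    · simp [U, h]
  have hcov : K ⊆ ⋃ gn, U gn := fun x hx => by
    obtain ⟨g, hg, hpos⟩ := h x hx
    choose m hm using fun i => exists_nat_one_div_lt (hpos i)
    refine Set.mem_iUnion.2 ⟨(g, Finset.univ.sup m), hg, fun i => lt_of_le_of_lt ?_ (hm i)⟩
    gcongr
    exact Finset.le_sup (f := m) (Finset.mem_univ i)
  obtain ⟨T, hT⟩ := hK.elim_finite_subcover U hUo hcov
  refine ⟨(T.filter fun gn => gn.1 ∈ S).image Prod.fst, 1 / (((T.image Prod.snd).sup id : ℕ) + 1),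
    by positivity, ?_, fun x hx => ?_⟩
  · intro g hg
    simp only [Finset.coe_image, Finset.coe_filter, Set.mem_image, Set.mem_ofPred_eq] at hg
    obtain ⟨gn, ⟨-, h⟩, rfl⟩ := hg
    exact h
  obtain ⟨gn, hgn, hS', hbd⟩ := Set.mem_iUnion₂.1 (hT hx)
  refine ⟨gn.1, Finset.mem_image.2 ⟨gn, Finset.mem_filter.2 ⟨hgn, hS'⟩, rfl⟩, fun i => ?_⟩
  refine le_trans ?_ (hbd i).le
  gcongr
  exact Finset.le_sup (f := id) (Finset.mem_image_of_mem Prod.snd hgn)

/-- A matrix is small if its entries are. -/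
theorem norm_le_card {n : Type} [Fintype n] {A : Matrix n n ℝ} {R : ℝ} (hR : 0 ≤ R)
    (h : ∀ i j, |A i j| ≤ R) : ‖A‖ ≤ Fintype.card n * R := by
  rw [frobenius_norm_def, ← Real.sqrt_eq_rpow]
  refine (Real.sqrt_le_sqrt (y := ((Fintype.card n : ℝ) * R) ^ 2) ?_).trans_eq
    (Real.sqrt_sq (by positivity))
  simp only [Real.rpow_two, Real.norm_eq_abs, sq_abs]
  refine (Finset.sum_le_sum fun i _ => Finset.sum_le_sum fun j _ =>
    (sq_le_sq' (abs_le.1 (h i j)).1 (abs_le.1 (h i j)).2)).trans_eq ?_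
  simp; ring

/-- An entry is at most the norm. -/
theorem abs_entry_le {n : Type} [Fintype n] (A : Matrix n n ℝ) (i j : n) : |A i j| ≤ ‖A‖ := by
  rw [frobenius_norm_def, ← Real.sqrt_eq_rpow, ← Real.sqrt_sq_eq_abs]
  refine Real.sqrt_le_sqrt ?_
  simp only [Real.rpow_two, Real.norm_eq_abs, sq_abs]
  exact (Finset.single_le_sum (f := fun j => A i j ^ 2) (fun j _ => sq_nonneg _)
    (Finset.mem_univ j)).trans (Finset.single_le_sum (f := fun i => ∑ j, A i j ^ 2)
      (fun i _ => Finset.sum_nonneg fun j _ => sq_nonneg _) (Finset.mem_univ i))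

/-- Unit vectors of a space closed under scalars, with every member a multiple of one of them. -/
theorem exists_unit {n : Type} [Fintype n] {p : (n → ℝ) → Prop}
    (hp : ∀ (c : ℝ) v, p v → p (c • v)) {e : n → ℝ} (he : p e) (he0 : e ≠ 0) {v : n → ℝ}
    (hv : p v) : ∃ w, (‖w‖ = 1 ∧ p w) ∧ v = ‖v‖ • w := by
  by_cases h : v = 0
  · exact ⟨‖e‖⁻¹ • e, ⟨by simp [norm_smul, he0], hp _ _ he⟩, by simp [h]⟩
  · exact ⟨‖v‖⁻¹ • v, ⟨by simp [norm_smul, h], hp _ _ hv⟩, by simp [smul_smul, h]⟩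

theorem isLag_smul (c : ℝ) (v : I2 → ℝ) (h : IsLag v) : IsLag (c • v) :=
  ⟨fun i j => by simp [h.1 i j], by rw [dotProduct_smul, h.2, smul_zero]⟩

/-- A dense representation has frames. -/
theorem frames_ok {Γ : Type} [Group Γ] (ρ : Γ →* M4) (symp : ∀ g, IsSymp (ρ g)) (hρ : Dense ρ) :
    FramesOK ρ := by
  classical
  have hS : ZariskiDense (Set.range fun g => ρ g) := fun f hf a ha =>
    hρ f (fun g => hf _ ⟨g, rfl⟩) a ha
  let A : Set (Fin 4 → ℝ) := Metric.sphere 0 1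
  let B : Set (I2 → ℝ) := Metric.sphere 0 1 ∩ {v | IsLag v}
  have hB : IsCompact B := by
    refine (isCompact_sphere 0 1).inter_right ?_
    have : IsClosed {v : I2 → ℝ | (∀ i j, v (j, i) = -v (i, j)) ∧ omega ⬝ᵥ v = 0} := by
      rw [Set.ofPred_and]
      refine IsClosed.inter ?_ ?_
      · simp only [Set.ofPred_forall]
        refine isClosed_iInter fun i => isClosed_iInter fun j => ?_
        exact isClosed_eq (continuous_apply _) (continuous_apply _).neg
      · exact isClosed_eq (Continuous.dotProduct continuous_const continuous_id) continuous_const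
    exact this
  let K := ((Set.univ.pi fun _ : Fin 4 => A) ×ˢ (Set.univ.pi fun _ : Fin 4 => A)) ×ˢ
    ((Set.univ.pi fun _ : Fin 4 => B) ×ˢ (Set.univ.pi fun _ : Fin 4 => B))
  have hK : IsCompact K :=
    (((isCompact_univ_pi fun _ => isCompact_sphere 0 1).prod
      (isCompact_univ_pi fun _ => isCompact_sphere 0 1))).prod
      ((isCompact_univ_pi fun _ => hB).prod (isCompact_univ_pi fun _ => hB))
  let f : M4 → ((Fin 4 → Fin 4 → ℝ) × (Fin 4 → Fin 4 → ℝ)) ×
      ((Fin 4 → I2 → ℝ) × (Fin 4 → I2 → ℝ)) → Fin 4 ⊕ Fin 4 → ℝ := fun g x k =>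
    Sum.elim (fun i => |x.1.1 i ⬝ᵥ (g *ᵥ x.1.2 i)|)
      (fun i => |x.2.1 i ⬝ᵥ (rep2 g *ᵥ x.2.2 i)|) k
  obtain ⟨F, c, hc, hFS, hF⟩ := exists_uniform hK (Set.range fun g => ρ g) f
    (fun g k => by
      cases k <;> simp only [f, Sum.elim_inl, Sum.elim_inr, dotProduct, mulVec] <;> fun_prop)
    (fun x hx => by
      simp only [K, A, B, Set.mem_prod, Set.mem_univ_pi, mem_sphere_zero_iff_norm,
        Set.mem_inter_iff, Set.mem_ofPred_eq] at hx
      obtain ⟨⟨h1, h2⟩, h3, h4⟩ := hx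
      have ne : ∀ {n : Type} [Fintype n] {v : n → ℝ}, ‖v‖ = 1 → v ≠ 0 := fun h h' => by
        simp [h'] at h
      obtain ⟨g, hg, hgood⟩ := generic_both hS x.1.1 x.1.2 x.2.1 x.2.2 (fun i => ne (h1 i))
        (fun i => ne (h2 i)) (fun i => ⟨(h3 i).2, ne (h3 i).1⟩) (fun i => ⟨(h4 i).2, ne (h4 i).1⟩)
      refine ⟨g, hg, fun k => ?_⟩
      cases k with
      | inl i => exact abs_pos.2 (hgood i).1
      | inr i => exact abs_pos.2 (hgood i).2)
  choose pre hpre using fun g : F => hFS g.2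
  refine ⟨Finset.univ.image pre, c / 256, by positivity, fun Q Q' z h => ?_⟩
  -- the largest row of each left factor and the largest column of each right factor
  let X : Fin 4 → M4 := fun i => Q i * ρ z
  let X' : Fin 4 → M16 := fun i => Q' i * rep2 (ρ z)
  choose a ha using fun i => Finite.exists_max fun a => ‖(fun b => X i a b : Fin 4 → ℝ)‖
  choose a' ha' using fun i => Finite.exists_max fun a => ‖(fun b => X' i a b : I2 → ℝ)‖
  obtain ⟨b, hb⟩ := Finite.exists_max fun b => ‖(fun a => ρ h a b : Fin 4 → ℝ)‖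
  obtain ⟨b', hb'⟩ := Finite.exists_max fun b => ‖(fun a => rep2 (ρ h) a b : I2 → ℝ)‖
  have e0 : bs 0 ≠ 0 := fun h => by simpa [bs] using congrFun h 0
  have l0 : IsLag (fun r => rep2 1 r (0, 1)) := isLag_col isSymp_one _
  have l0' : (fun r => rep2 1 r (0, 1)) ≠ (0 : I2 → ℝ) := fun h => by
    have := congrFun h (0, 1)
    simp [rep2, minors, omega, J4, vecMulVec_apply] at this
  have unit4 := fun v : Fin 4 → ℝ =>
    exists_unit (p := fun _ => True) (fun _ _ _ => trivial) trivial e0 (v := v) trivial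
  choose R hR using fun i => unit4 fun k => X i (a i) k
  choose R' hR' using fun i =>
    exists_unit isLag_smul l0 l0' (isLag_row (symp z) (Q' i) (a' i))
  obtain ⟨U, hU⟩ := unit4 fun k => ρ h k b
  obtain ⟨U', hU'⟩ := exists_unit isLag_smul l0 l0' (isLag_col (symp h) b')
  obtain ⟨g, hg, hbd⟩ := hF ((R, fun _ => U), (R', fun _ => U')) (by
    simp only [K, A, B, Set.mem_prod, Set.mem_univ_pi, mem_sphere_zero_iff_norm,
      Set.mem_inter_iff, Set.mem_ofPred_eq]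
    exact ⟨⟨fun i => (hR i).1.1, fun _ => hU.1.1⟩, fun i => (hR' i).1, fun _ => hU'.1⟩)
  have hp : ρ (pre ⟨g, hg⟩) = g := hpre ⟨g, hg⟩
  refine ⟨pre ⟨g, hg⟩, Finset.mem_image_of_mem _ (Finset.mem_univ _), fun i => ⟨?_, ?_⟩⟩
  · set r : Fin 4 → ℝ := fun k => X i (a i) k
    set u : Fin 4 → ℝ := fun k => ρ h k b
    have hX : ‖X i‖ ≤ 4 * ‖r‖ := (norm_le_card (norm_nonneg _) fun k l =>
      (norm_le_pi_norm (fun b => X i k b : Fin 4 → ℝ) l).trans (ha i k)).trans_eq (by simp; rfl)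
    have hY : ‖ρ h‖ ≤ 4 * ‖u‖ := (norm_le_card (norm_nonneg _) fun k l =>
      (norm_le_pi_norm (fun a => ρ h a l : Fin 4 → ℝ) k).trans (hb l)).trans_eq (by simp)
    have hentry : r ⬝ᵥ (g *ᵥ u) = (X i * (g * ρ h)) (a i) b := rfl
    have hs : r ⬝ᵥ (g *ᵥ u) = ‖r‖ * ‖u‖ * (R i ⬝ᵥ (g *ᵥ U)) := by
      have er : r = ‖r‖ • R i := (hR i).2
      have eu : u = ‖u‖ • U := hU.2
      conv_lhs => rw [er, eu]
      rw [mulVec_smul, smul_dotProduct, dotProduct_smul, smul_eq_mul, smul_eq_mul]; ring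
    calc c / 256 * (‖X i‖ * ‖ρ h‖) ≤ c / 256 * ((4 * ‖r‖) * (4 * ‖u‖)) :=
          mul_le_mul_of_nonneg_left (mul_le_mul hX hY (norm_nonneg _) (by positivity))
            (by positivity)
      _ ≤ c * (‖r‖ * ‖u‖) := by
          nlinarith [mul_nonneg hc.le (mul_nonneg (norm_nonneg r) (norm_nonneg u))]
      _ ≤ |r ⬝ᵥ (g *ᵥ u)| := by
          rw [hs, abs_mul, abs_of_nonneg (by positivity : 0 ≤ ‖r‖ * ‖u‖), mul_comm c]
          exact mul_le_mul_of_nonneg_left (hbd (Sum.inl i)) (by positivity)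
      _ ≤ ‖X i * (g * ρ h)‖ := hentry ▸ abs_entry_le _ _ _
      _ = ‖Q i * ρ (z * pre ⟨g, hg⟩ * h)‖ := by
          rw [map_mul, map_mul, hp]; simp only [X, Matrix.mul_assoc]
  · set r : I2 → ℝ := fun k => X' i (a' i) k
    set u : I2 → ℝ := fun k => rep2 (ρ h) k b'
    have hX : ‖X' i‖ ≤ 16 * ‖r‖ := (norm_le_card (norm_nonneg _) fun k l =>
      (norm_le_pi_norm (fun b => X' i k b : I2 → ℝ) l).trans (ha' i k)).trans_eq (by simp; rfl)
    have hY : ‖rep2 (ρ h)‖ ≤ 16 * ‖u‖ := (norm_le_card (norm_nonneg _) fun k l =>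
      (norm_le_pi_norm (fun a => rep2 (ρ h) a l : I2 → ℝ) k).trans (hb' l)).trans_eq (by simp)
    have hentry : r ⬝ᵥ (rep2 g *ᵥ u) = (X' i * (rep2 g * rep2 (ρ h))) (a' i) b' := rfl
    have hs : r ⬝ᵥ (rep2 g *ᵥ u) = ‖r‖ * ‖u‖ * (R' i ⬝ᵥ (rep2 g *ᵥ U')) := by
      have er : r = ‖r‖ • R' i := (hR' i).2
      have eu : u = ‖u‖ • U' := hU'.2
      conv_lhs => rw [er, eu]
      rw [mulVec_smul, smul_dotProduct, dotProduct_smul, smul_eq_mul, smul_eq_mul]; ring
    calc c / 256 * (‖X' i‖ * ‖rep2 (ρ h)‖) ≤ c / 256 * ((16 * ‖r‖) * (16 * ‖u‖)) :=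
          mul_le_mul_of_nonneg_left (mul_le_mul hX hY (norm_nonneg _) (by positivity))
            (by positivity)
      _ = c * (‖r‖ * ‖u‖) := by ring
      _ ≤ |r ⬝ᵥ (rep2 g *ᵥ u)| := by
          rw [hs, abs_mul, abs_of_nonneg (by positivity : 0 ≤ ‖r‖ * ‖u‖), mul_comm c]
          exact mul_le_mul_of_nonneg_left (hbd (Sum.inr i)) (by positivity)
      _ ≤ ‖X' i * (rep2 g * rep2 (ρ h))‖ := hentry ▸ abs_entry_le _ _ _
      _ = ‖Q' i * rep2 (ρ (z * pre ⟨g, hg⟩ * h))‖ := by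
          have hgs : IsSymp g := hp ▸ symp _
          rw [map_mul, map_mul, hp, rep2_mul ((symp z).mul hgs) (symp h), rep2_mul (symp z) hgs]
          simp only [X', Matrix.mul_assoc]

/-- A dense representation has infinite image. -/
theorem infinite_of_dense {Γ : Type} [Group Γ] (ρ : Γ →* M4) (hρ : Dense ρ) : Infinite Γ := by
  classical
  refine not_finite_iff_infinite.1 fun hfin => ?_
  have := Fintype.ofFinite Γ
  let f : MvPolynomial (Fin 4 × Fin 4) ℝ :=
    ∏ g : Γ, (MvPolynomial.X (0, 3) - MvPolynomial.C (ρ g 0 3))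
  have hev : ∀ g, MvPolynomial.eval (fun k => ρ g k.1 k.2) f = 0 := fun g => by
    rw [map_prod]
    exact Finset.prod_eq_zero (Finset.mem_univ g) (by simp)
  obtain ⟨t, ht⟩ := (Finset.univ.image fun g : Γ => ρ g 0 3).exists_notMem
  have h := hρ f hev (upU 0 t 0) (upU_isSymp _ _ _)
  rw [map_prod, Finset.prod_eq_zero_iff] at h
  obtain ⟨g, -, hg⟩ := h
  simp [upU] at hg
  exact ht (Finset.mem_image.2 ⟨g, Finset.mem_univ g, by linarith⟩)

/-! ### The integer symplectic group -/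

/-- The integer matrix of the form. -/
def J4Z : Matrix (Fin 4) (Fin 4) ℤ := !![0, 0, 0, 1; 0, 0, 1, 0; 0, -1, 0, 0; -1, 0, 0, 0]

/-- The group of integer symplectic matrices of degree four. -/
def intSp : Subgroup (Matrix (Fin 4) (Fin 4) ℤ)ˣ where
  carrier := {u | (u : Matrix (Fin 4) (Fin 4) ℤ)ᵀ * J4Z * (u : Matrix (Fin 4) (Fin 4) ℤ) = J4Z}
  one_mem' := by simp
  mul_mem' := fun {u v} hu hv => by
    simp only [Set.mem_ofPred_eq, Units.val_mul, transpose_mul] at *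
    calc (↑v : Matrix (Fin 4) (Fin 4) ℤ)ᵀ * (↑u)ᵀ * J4Z * (↑u * ↑v)
        = (↑v)ᵀ * ((↑u)ᵀ * J4Z * ↑u) * ↑v := by simp only [Matrix.mul_assoc]
      _ = J4Z := by rw [hu, hv]
  inv_mem' := fun {u} hu => by
    simp only [Set.mem_ofPred_eq] at *
    have e : (u : Matrix (Fin 4) (Fin 4) ℤ) * (↑u⁻¹ : Matrix (Fin 4) (Fin 4) ℤ) = 1 := u.mul_inv
    conv_lhs => arg 1; arg 2; rw [← hu]
    calc (↑u⁻¹ : Matrix (Fin 4) (Fin 4) ℤ)ᵀ * ((↑u)ᵀ * J4Z * ↑u) * ↑u⁻¹
        = ((↑u : Matrix (Fin 4) (Fin 4) ℤ) * ↑u⁻¹)ᵀ * J4Z * (↑u * ↑u⁻¹) := by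
          simp only [transpose_mul, Matrix.mul_assoc]
      _ = J4Z := by rw [e, transpose_one, Matrix.one_mul, Matrix.mul_one]

/-- The real points of the integer symplectic group. -/
noncomputable def intHom : intSp →* M4 :=
  ((Int.castRingHom ℝ).mapMatrix.toMonoidHom.comp (Units.coeHom _)).comp intSp.subtype

theorem intHom_apply (u : intSp) (i j : Fin 4) :
    intHom u i j = (((u.1 : Matrix (Fin 4) (Fin 4) ℤ) i j : ℤ) : ℝ) := rfl

theorem intHom_symp (u : intSp) : IsSymp (intHom u) := by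
  have hJ : (Int.castRingHom ℝ).mapMatrix J4Z = J4 := by
    ext i j
    fin_cases i <;> fin_cases j <;> simp [J4Z, J4]
  have h := congrArg (Int.castRingHom ℝ).mapMatrix u.2
  rw [map_mul, map_mul, hJ] at h
  rw [IsSymp]
  exact h

theorem intHom_injective : Function.Injective intHom := fun u v h => by
  refine Subtype.ext (Units.ext (Matrix.ext fun i j => ?_))
  have h' := congrFun (congrFun h i) j
  simp only [intHom_apply] at h'
  exact_mod_cast h'

theorem intHom_discrete (R : ℝ) : {g | ∀ i j, |intHom g i j| ≤ R}.Finite := by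
  have hf : (Set.pi Set.univ fun _ : Fin 4 => Set.pi Set.univ
      fun _ : Fin 4 => Set.Icc (-⌈R⌉) ⌈R⌉).Finite :=
    Set.Finite.pi fun _ => Set.Finite.pi fun _ => Set.finite_Icc _ _
  refine (hf.preimage (f := fun u : intSp => fun i j => (u.1 : Matrix (Fin 4) (Fin 4) ℤ) i j)
    (fun a _ b _ h => Subtype.ext (Units.ext h))).subset fun u hu i _ j _ => ?_
  have h := abs_le.1 (hu i j)
  rw [intHom_apply] at h
  have h2 := Int.le_ceil R
  refine ⟨?_, ?_⟩
  · show -⌈R⌉ ≤ (u.1 : Matrix (Fin 4) (Fin 4) ℤ) i j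
    refine (Int.cast_le (R := ℝ)).1 ?_
    push_cast
    linarith [h.1]
  · show (u.1 : Matrix (Fin 4) (Fin 4) ℤ) i j ≤ ⌈R⌉
    exact (Int.cast_le (R := ℝ)).1 (h.2.trans h2)

theorem intHom_dense : Dense intHom := by
  intro f hf a ha
  refine zariskiDense_of_stable (S := Set.range fun u => intHom u) ⟨1, map_one _⟩ ?_ f
    (fun g ⟨u, hu⟩ => hu ▸ hf u) a ha
  rintro _ ⟨u, rfl⟩ v t
  have hm : ∀ s : ℤ, (Int.castRingHom ℝ).mapMatrix (tv v s) =
      tv (fun i => (v i : ℝ)) (s : ℝ) := fun s => by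
    ext i j
    fin_cases i <;> fin_cases j <;> simp [tv]
  have hinj : Function.Injective
      ((Int.castRingHom ℝ).mapMatrix : Matrix (Fin 4) (Fin 4) ℤ →+* M4) :=
    fun A B h => Matrix.ext fun i j => by
      have h' := congrFun (congrFun h i) j
      simp at h'
      exact h'
  have hone : ∀ s : ℤ, tv v (-s) * tv v s = 1 := fun s => hinj (by
    rw [map_mul, map_one, hm, hm]; push_cast; exact tv_mul_neg _ _)
  let e : (Matrix (Fin 4) (Fin 4) ℤ)ˣ :=
    ⟨tv v t, tv v (-t), by simpa using hone (-t), hone t⟩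
  have he : e ∈ intSp := hinj (by
    have hJ : (Int.castRingHom ℝ).mapMatrix J4Z = J4 := by
      ext i j
      fin_cases i <;> fin_cases j <;> simp [J4Z, J4]
    rw [map_mul, map_mul, hJ]
    have h := tv_isSymp (fun i => (v i : ℝ)) (t : ℝ)
    rw [IsSymp, ← hm t] at h
    exact h)
  exact ⟨⟨e, he⟩ * u, by show intHom (⟨e, he⟩ * u) = _; rw [map_mul]; congr 1; exact hm t⟩

theorem intHom_infinite : Infinite intSp := infinite_of_dense intHom intHom_dense

end Vale.Agent.P165.SP
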