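import Vale.Agent.P165.SP.Cartan
import Vale.Agent.P165.QT.Threshold
import Vale.Agent.P165.FQ.Threshold

/-!
# Discrete images in `Sp(4, ℝ)`: setting and statements of the steps

The two representations are the four-dimensional one and the five-dimensional part of the bivectors
orthogonal to the form, written in matrices indexed by pairs. All sizes are Frobenius norms of the
two images and of their products with fixed test matrices. The cocycle of a unit vector `v` is the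
size of the image of the covector `J v`; its cells are the point `v` and the Lagrangian planes
through `v`.
-/

namespace Vale.Agent.P165.SP

open Finset FF Matrix
open scoped Matrix.Norms.Frobenius

/-- Pairs of coordinates. -/
abbrev I2 : Type := Fin 4 × Fin 4

/-- Matrices on pairs of coordinates. -/
abbrev M16 : Type := Matrix I2 I2 ℝ

/-- The action on bivectors, in ordered pairs of coordinates. -/
noncomputable def minors (g : M4) : M16 :=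
  Matrix.of fun r c => (g r.1 c.1 * g r.2 c.2 - g r.1 c.2 * g r.2 c.1) / 2

/-- The bivector of the form. -/
def omega : I2 → ℝ := fun r => J4 r.1 r.2

/-- The action on bivectors orthogonal to the form; the rest is sent to zero. -/
noncomputable def rep2 (g : M4) : M16 := minors g - (4 : ℝ)⁻¹ • vecMulVec omega omega

/-- The projection to the five-dimensional part. -/
noncomputable def lag : M16 := rep2 1

/-- A unit vector. -/
def IsUnit4 (v : Fin 4 → ℝ) : Prop := v ⬝ᵥ v = 1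

/-- A unit vector of the five-dimensional part. -/
def IsUnitLag (P : I2 → ℝ) : Prop := P ⬝ᵥ P = 1 ∧ lag *ᵥ P = P

/-- The matrix whose only row is the covector `J v`. -/
noncomputable def rowJ (v : Fin 4 → ℝ) : M4 := vecMulVec (Pi.single 0 1) (J4 *ᵥ v)

/-- The projection away from a unit vector. -/
def testP {n : Type} [DecidableEq n] (v : n → ℝ) : Matrix n n ℝ := 1 - vecMulVec v v

/-- The contraction of bivectors with `v` through the form; a Lagrangian plane is killed if and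
only if it contains `v`. -/
noncomputable def testD (v : Fin 4 → ℝ) : M16 :=
  Matrix.of fun r c => if r.2 = 0 ∧ r.1 = c.1 then (J4 *ᵥ v) c.2 else 0

/-- A graph on copies of a group with a discrete symplectic representation and frames. -/
structure Env (Γ O ι : Type) [Group Γ] [Fintype ι] where
  /-- The graph. -/
  G : SimpleGraph (Γ × O)
  /-- The neighbours of a vertex. -/
  nb : Γ × O → ι → Γ × O
  hl : Labelling G nb
  hinv : Inv G
  conn : G.Connected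
  /-- The type of the anchor. -/
  o₁ : O
  /-- The representation. -/
  ρ : Γ →* M4
  symp : ∀ g, IsSymp (ρ g)
  discrete : ∀ R : ℝ, {g : Γ | ‖ρ g‖ ≤ R}.Finite
  /-- The frames. -/
  F : Finset Γ
  /-- The constant of the frames. -/
  c : ℝ
  c_pos : 0 < c
  frames : ∀ (Q : Fin 4 → M4) (Q' : Fin 4 → M16) (z h : Γ), ∃ σ ∈ F, ∀ i : Fin 4,
    c * (‖Q i * ρ z‖ * ‖ρ h‖) ≤ ‖Q i * ρ (z * σ * h)‖ ∧
      c * (‖Q' i * rep2 (ρ z)‖ * ‖rep2 (ρ h)‖) ≤ ‖Q' i * rep2 (ρ (z * σ * h))‖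

namespace Env

variable {Γ O ι : Type} [Group Γ] [Fintype ι] (E : Env Γ O ι)

/-- The logarithmic size. -/
noncomputable def m (g : Γ) : ℝ := Real.log ‖E.ρ g‖

/-- The logarithmic size on Lagrangian planes. -/
noncomputable def m2 (g : Γ) : ℝ := Real.log ‖rep2 (E.ρ g)‖

/-- The logarithmic defect of a test matrix. -/
noncomputable def L (Q : M4) (g : Γ) : ℝ := Real.log (‖E.ρ g‖ / ‖Q * E.ρ g‖)

/-- The logarithmic defect of a test matrix on Lagrangian planes. -/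
noncomputable def L2 (Q : M16) (g : Γ) : ℝ :=
  Real.log (‖rep2 (E.ρ g)‖ / ‖Q * rep2 (E.ρ g)‖)

/-- The short simple root. -/
noncomputable def ra (g : Γ) : ℝ := 2 * E.m g - E.m2 g

/-- The long simple root. -/
noncomputable def rb (g : Γ) : ℝ := 2 * (E.m2 g - E.m g)

/-- The defect of a point as a covector. -/
noncomputable def jv (v : Fin 4 → ℝ) (g : Γ) : ℝ := E.L (rowJ v) g

/-- The depth in the cell of a point. -/
noncomputable def pv (v : Fin 4 → ℝ) (g : Γ) : ℝ := E.L (testP v) g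

/-- The depth in the cell of the planes through a point. -/
noncomputable def dv (v : Fin 4 → ℝ) (g : Γ) : ℝ := E.L2 (testD v) g

/-- The depth in the cell of a plane. -/
noncomputable def cP (P : I2 → ℝ) (g : Γ) : ℝ := E.L2 (testP P) g

/-- The exponent of the weight. -/
noncomputable def En (v : Fin 4 → ℝ) (g : Γ) : ℝ := E.m g - E.jv v g

/-- The weight. -/
noncomputable def Wt (β : ℝ) (v : Fin 4 → ℝ) (g : Γ) : ℝ := Real.exp (-(β * E.En v g))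

/-- The elements at which the sizes of a product along a frame add up. -/
def Cand (A : ℝ) (y z : Γ) : Prop :=
  ∃ h : Γ, (∃ σ ∈ E.F, z * σ * h = y) ∧
    |E.m y - E.m z - E.m h| ≤ A ∧ |E.m2 y - E.m2 z - E.m2 h| ≤ A

/-! ### Linear algebra -/

/-- The estimates on one element and on one frame. -/
structure Est (C : ℝ) : Prop where
  nonneg : 0 ≤ C
  frame : ∀ (Q : Fin 3 → M4) (Q' : Fin 3 → M16) (z h : Γ), ∃ σ ∈ E.F,
    |E.m (z * σ * h) - E.m z - E.m h| ≤ C ∧ |E.m2 (z * σ * h) - E.m2 z - E.m2 h| ≤ C ∧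
      ∀ i, (Q i ≠ 0 → |E.L (Q i) (z * σ * h) - E.L (Q i) z| ≤ C) ∧
        (Q' i * lag ≠ 0 → |E.L2 (Q' i) (z * σ * h) - E.L2 (Q' i) z| ≤ C)
  root_nonneg : ∀ g, -C ≤ E.ra g ∧ -C ≤ E.rb g
  cell_p : ∀ v, IsUnit4 v → ∀ g, -C ≤ E.pv v g ∧ E.pv v g ≤ E.ra g + C
  cell_d : ∀ v, IsUnit4 v → ∀ g, E.pv v g ≤ E.dv v g + C ∧
    E.dv v g ≤ E.rb g + E.pv v g + C
  cell_c : ∀ P, IsUnitLag P → ∀ g, E.cP P g ≤ E.rb g + C
  row : ∀ v, IsUnit4 v → ∀ g, E.jv v g ≤ E.ra g + E.dv v g + C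
  one : ∀ v, IsUnit4 v → E.pv v 1 ≤ C ∧ E.dv v 1 ≤ C
  step_p : ∀ v, IsUnit4 v → ∀ (g : Γ) (o : O) (i : ι),
    |E.pv v (g * (E.nb (1, o) i).1) - E.pv v g| ≤ C * Real.exp (E.pv v g - E.ra g)
  step_d : ∀ v, IsUnit4 v → ∀ (g : Γ) (o : O) (i : ι),
    |E.dv v (g * (E.nb (1, o) i).1) - E.dv v g| ≤
      C * Real.exp (E.dv v g - E.pv v g - E.rb g)

/-- The estimates hold with some constant. -/
def EstOK : Prop := ∃ C, E.Est C

/-- The incidences used to find a good scale. -/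
structure Geo (C : ℝ) : Prop where
  nonneg : 0 ≤ C
  close_p : ∀ w w', IsUnit4 w → IsUnit4 w' → ∀ (y y' : Γ) (n : ℝ),
    n ≤ E.pv w y → n ≤ E.pv w' y → n ≤ E.pv w' y' → n - C ≤ E.pv w y'
  close_d : ∀ w w', IsUnit4 w → IsUnit4 w' → ∀ (y y' : Γ) (n : ℝ),
    n ≤ E.pv w y → n ≤ E.pv w' y → n ≤ E.dv w' y' → n - C ≤ E.dv w y'
  close_c : ∀ P P', IsUnitLag P → IsUnitLag P' → ∀ (y y' : Γ) (n : ℝ),
    n ≤ E.cP P y → n ≤ E.cP P' y → n ≤ E.cP P' y' → n - C ≤ E.cP P y'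
  /-- Three points that are pairwise in one plane: two planes agree or a witness serves all. -/
  tri : ∀ w₀ w₁ w₂, IsUnit4 w₀ → IsUnit4 w₁ → IsUnit4 w₂ → ∀ (y₁ y₂ y : Γ) (n k : ℝ),
    k ≤ E.rb y₁ → k ≤ E.rb y₂ → n ≤ E.dv w₀ y₁ → n ≤ E.dv w₁ y₁ → n ≤ E.dv w₀ y₂ →
      n ≤ E.dv w₂ y₂ → n ≤ E.dv w₁ y → n ≤ E.dv w₂ y →
      (∃ P, IsUnitLag P ∧ k - C ≤ E.cP P y₁ ∧ k - C ≤ E.cP P y₂) ∨
        (n - k) / 2 - C ≤ E.dv w₀ y
  /-- A plane through two separate points is known. -/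
  plane : ∀ v w, IsUnit4 v → IsUnit4 w → ∀ (y y' : Γ) (n l : ℝ),
    E.pv v y ≤ l → l + C ≤ E.pv w y → n ≤ E.dv v y → n ≤ E.dv w y → n ≤ E.dv v y' →
      n ≤ E.dv w y' → n ≤ E.rb y + l → n ≤ E.rb y' + l →
      ∃ P, IsUnitLag P ∧ n - l - C ≤ E.cP P y ∧ n - l - C ≤ E.cP P y'

/-- The incidences hold with some constant. -/
def GeoOK : Prop := ∃ C, E.Geo C

/-- The weight is a cocycle on points. -/
def CocycleOK : Prop :=
  ∀ v, IsUnit4 v → ∀ g : Γ, ∃ v', IsUnit4 v' ∧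
    ∀ (β : ℝ) (h : Γ), E.Wt β v (g * h) = E.Wt β v g * E.Wt β v' h

/-- Boundedly many candidates of one element have given sizes. -/
def PackOK : Prop :=
  ∀ A : ℝ, ∃ N : ℕ, ∀ (y : Γ) (M M' : ℝ) (Z : Finset Γ),
    (∀ z ∈ Z, E.Cand A y z ∧ |E.m z - M| ≤ A ∧ |E.m2 z - M'| ≤ A) → Z.card ≤ N

/-- Weighted candidates: two independent linear coordinates of the sizes give two geometric sums. -/
def CountOK : Prop :=
  ∀ (A a a' b b' : ℝ), a * b' - a' * b ≠ 0 →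
    ∃ N : ℝ, 0 ≤ N ∧ ∀ (y : Γ) (a₀ b₀ α γ : ℝ), 0 < α → α ≤ 1 → 0 < γ → γ ≤ 1 →
      ∀ Z : Finset Γ,
        (∀ z ∈ Z, E.Cand A y z ∧ 0 ≤ a * E.m z + a' * E.m2 z + a₀ ∧
          0 ≤ b * E.m z + b' * E.m2 z + b₀) →
        ∑ z ∈ Z, Real.exp (-(α * (a * E.m z + a' * E.m2 z + a₀)) -
            γ * (b * E.m z + b' * E.m2 z + b₀)) ≤ N / (α * γ)

/-- One scale at which both kinds of cells, less the deeper ones, are small. -/
def ScaleOK : Prop :=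
  ∀ A : ℝ, 0 ≤ A → ∀ ε : ℝ, 0 < ε → ∀ N₀ : ℕ, ∃ N₁ : ℕ, ∀ (U : Finset Γ) (μ : Γ → ℝ),
    (∀ y, 0 ≤ μ y) → ∃ N : ℕ, N₀ ≤ N ∧ N ≤ N₁ ∧ ∀ v, IsUnit4 v →
      (∃ w, IsUnit4 w ∧ ∀ U' ⊆ U,
        (∀ y ∈ U', (N : ℝ) - A ≤ E.pv v y ∧ E.pv w y ≤ 3 * N + A) →
        ∑ y ∈ U', μ y ≤ ε * ∑ y ∈ U, μ y) ∧
      ∃ w P, IsUnit4 w ∧ IsUnitLag P ∧ ∀ U' ⊆ U,
        (∀ y ∈ U', 5 * (N : ℝ) - A ≤ E.dv v y ∧ E.dv v y ≤ 10 * N + A ∧
          E.pv v y ≤ 2 * N + A ∧ E.dv w y - E.pv w y ≤ 11 * N + A ∧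
          E.cP P y ≤ 11 * N + A) →
        ∑ y ∈ U', μ y ≤ ε * ∑ y ∈ U, μ y

/-! ### Percolation -/

variable [DecidableEq Γ] [DecidableEq O]

/-- The connection probability of the anchor with its translate. -/
noncomputable def anc (p : ℝ) (g : Γ) : ℝ := T E.nb p ((1 : Γ), E.o₁) (g, E.o₁)

/-- The chance of at most `K` open steps from `a` to `y`. -/
noncomputable def tau (p : ℝ) (K : ℕ) (a y : Γ × O) : ℝ :=
  FQ.tauW E.nb (QT.wball E.nb a K) p a y K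

/-- The weighted branch bound against one finite set carrying most of the susceptibility. -/
def BranchAt (q C : ℝ) : Prop :=
  ∀ η : ℝ, 0 < η → ∃ U : Finset Γ, 0 < ∑ g ∈ U, E.anc q g ∧
    ∀ (Z : Finset Γ) (w : Γ → ℝ) (R : Γ → Γ → Γ) (N δ : ℝ), 0 ≤ N → (∀ z, 0 ≤ w z) →
      (∀ z h, R z h ∈ E.F) →
      (∀ y, ∀ Z' ⊆ Z, (∀ z ∈ Z', ∃ h, z * R z h * h = y) → ∑ z ∈ Z', w z ≤ N) →
      (∀ U' ⊆ U, (∀ y ∈ U', ∃ z ∈ Z, ∃ h, z * R z h * h = y) →
        ∑ y ∈ U', E.anc q y ≤ δ * ∑ y ∈ U, E.anc q y) →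
      ∑ z ∈ Z, w z * E.anc q z ≤ C * N * (δ + η)

/-- Above half of such a parameter the branch bound is uniform, and vertices compare with the
anchors. -/
def BranchOK (p : ℝ) : Prop :=
  ∃ C, 0 ≤ C ∧ ∀ q, p / 2 ≤ q → q < p → E.BranchAt q C ∧
    ∀ (K : ℕ) (a y : Γ × O), E.tau q K a y ≤ C * E.anc q (a.1⁻¹ * y.1)

/-- A bound on the weighted row sums of all points. -/
def RowBound (p β : ℝ) (K : ℕ) (B : ℝ) : Prop :=
  ∀ v, IsUnit4 v → ∀ (o : O) (S : Finset (Γ × O)),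
    ∑ y ∈ S, E.tau p K ((1 : Γ), o) y * E.Wt β v y.1 ≤ B

/-- A finite window has some bound. -/
def InitOK : Prop :=
  ∀ (p β : ℝ) (K : ℕ), 0 ≤ p → p ≤ 1 → 0 ≤ β → ∃ B, 0 ≤ B ∧ E.RowBound p β K B

/-- Splitting at the last entrance into a set. -/
def SplitOK : Prop :=
  ∀ (p β B : ℝ) (K : ℕ) (C : Set Γ), 0 ≤ p → p ≤ 1 → 0 ≤ B → (1 : Γ) ∉ C → E.RowBound p β K B →
    ∀ v, IsUnit4 v → ∀ (o : O) (S : Finset (Γ × O)), ∃ S' Z : Finset (Γ × O),
      (∀ y ∈ S', y.1 ∉ C) ∧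
      (∀ z ∈ Z, z ∈ QT.wball E.nb ((1 : Γ), o) K ∧ z.1 ∈ C ∧
        ∃ (o' : O) (i : ι), z.1 * (E.nb ((1 : Γ), o') i).1 ∉ C) ∧
      ∑ y ∈ S, E.tau p K ((1 : Γ), o) y * E.Wt β v y.1 ≤
        ∑ y ∈ S', E.tau p K ((1 : Γ), o) y * E.Wt β v y.1 +
          B * ∑ z ∈ Z, E.tau p K ((1 : Γ), o) z * E.Wt β v z.1

/-- A small form just below a parameter passes to it. -/
def LimitOK : Prop :=
  ∀ (p η : ℝ) (n : ℕ), 0 < p → p ≤ 1 →
    (∀ q, p / 2 ≤ q → q < p → FQ.FormSmall E.nb (fun x => QT.wball E.nb x n) n q η) →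
    FQ.FormSmall E.nb (fun x => QT.wball E.nb x n) n p η

/-- Schur's test. -/
def SchurOK : Prop :=
  ∀ (p β B : ℝ) (n : ℕ), 0 ≤ p → p ≤ 1 → E.RowBound p β n B → 4 * B ≤ n →
    FQ.FormSmall E.nb (fun x => QT.wball E.nb x n) n p (1 / 4)

/-- The recursion closes below every parameter with exit certificates. -/
def ClosedAt (p : ℝ) : Prop :=
  ∃ B : ℝ, ∀ (K : ℕ) (q : ℝ), p / 2 ≤ q → q < p → ∃ β : ℝ, 0 ≤ β ∧ E.RowBound q β K B

end Env

/-- No polynomial in the entries vanishes on the image without vanishing on all of `Sp(4, ℝ)`. -/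
def Dense {Γ : Type} [Group Γ] (ρ : Γ →* M4) : Prop :=
  ∀ f : MvPolynomial (Fin 4 × Fin 4) ℝ,
    (∀ g, MvPolynomial.eval (fun k => ρ g k.1 k.2) f = 0) →
      ∀ a : M4, IsSymp a → MvPolynomial.eval (fun k => a k.1 k.2) f = 0

/-- A representation has frames. -/
def FramesOK {Γ : Type} [Group Γ] (ρ : Γ →* M4) : Prop :=
  ∃ (F : Finset Γ) (c : ℝ), 0 < c ∧ ∀ (Q : Fin 4 → M4) (Q' : Fin 4 → M16) (z h : Γ),
    ∃ σ ∈ F, ∀ i : Fin 4,
      c * (‖Q i * ρ z‖ * ‖ρ h‖) ≤ ‖Q i * ρ (z * σ * h)‖ ∧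
        c * (‖Q' i * rep2 (ρ z)‖ * ‖rep2 (ρ h)‖) ≤ ‖Q' i * rep2 (ρ (z * σ * h))‖

end Vale.Agent.P165.SP
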