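import Mathlib

/-!
# The Cartan decomposition of `Sp(4, ℝ)`

The symplectic form pairs the first coordinate with the last and the second with the third. Every
symplectic matrix is the product of an orthogonal symplectic matrix, a diagonal one with entries
`s₁ ≥ s₂ ≥ 1`, `1 / s₂`, `1 / s₁`, and an orthogonal symplectic matrix.
-/

namespace Vale.Agent.P165.SP

open Matrix Finset

/-- Real matrices of degree four. -/
abbrev M4 : Type := Matrix (Fin 4) (Fin 4) ℝ

/-- The matrix of the symplectic form. -/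
def J4 : M4 := !![0, 0, 0, 1; 0, 0, 1, 0; 0, -1, 0, 0; -1, 0, 0, 0]

/-- A symplectic matrix. -/
def IsSymp (g : M4) : Prop := gᵀ * J4 * g = J4

/-- An orthogonal symplectic matrix. -/
def IsK (k : M4) : Prop := kᵀ * k = 1 ∧ IsSymp k

/-- The diagonal matrix of a Cartan projection. -/
noncomputable def diag4 (s₁ s₂ : ℝ) : M4 := diagonal ![s₁, s₂, s₂⁻¹, s₁⁻¹]

theorem J4_mul_J4 : J4 * J4 = -1 := by
  ext i j
  fin_cases i <;> fin_cases j <;> simp [J4, mul_apply, Fin.sum_univ_four]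

theorem J4_transpose : J4ᵀ = -J4 := by
  ext i j
  fin_cases i <;> fin_cases j <;> simp [J4]

theorem isSymp_one : IsSymp 1 := by simp [IsSymp]

theorem IsSymp.mul {g h : M4} (hg : IsSymp g) (hh : IsSymp h) : IsSymp (g * h) := by
  rw [IsSymp, transpose_mul]
  calc hᵀ * gᵀ * J4 * (g * h) = hᵀ * (gᵀ * J4 * g) * h := by simp only [Matrix.mul_assoc]
    _ = J4 := by rw [hg]; exact hh

theorem IsSymp.inv_mul {g : M4} (hg : IsSymp g) : -(J4 * gᵀ * J4) * g = 1 := by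
  rw [IsSymp] at hg
  calc -(J4 * gᵀ * J4) * g = -(J4 * (gᵀ * J4 * g)) := by simp only [Matrix.mul_assoc, Matrix.neg_mul]
    _ = 1 := by rw [hg, J4_mul_J4, neg_neg]

theorem IsSymp.transpose {g : M4} (hg : IsSymp g) : IsSymp gᵀ := by
  have h : g * -(J4 * gᵀ * J4) = 1 := mul_eq_one_comm.1 hg.inv_mul
  have h2 : g * J4 * gᵀ * J4 = -1 := by
    rw [Matrix.mul_neg, neg_eq_iff_eq_neg] at h
    simpa only [Matrix.mul_assoc] using h
  have h3 := congrArg (· * J4) h2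
  simp only [Matrix.mul_assoc, J4_mul_J4, Matrix.mul_neg, Matrix.mul_one, Matrix.neg_mul,
    Matrix.one_mul, neg_inj] at h3
  rw [IsSymp, transpose_transpose, Matrix.mul_assoc]
  exact h3

/-- The left multiplication by a quaternion, in coordinates adapted to the form. -/
def frame (u : Fin 4 → ℝ) : M4 :=
  !![u 0, -u 1, -u 2, -u 3; u 1, u 0, u 3, -u 2; u 2, -u 3, u 0, u 1; u 3, u 2, -u 1, u 0]

theorem frame_isK {u : Fin 4 → ℝ} (h : u ⬝ᵥ u = 1) : IsK (frame u) := by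
  simp only [dotProduct, Fin.sum_univ_four] at h
  constructor
  · ext i j
    fin_cases i <;> fin_cases j <;>
      simp [frame, mul_apply, Fin.sum_univ_four, one_apply] <;> linarith
  · rw [IsSymp]
    ext i j
    fin_cases i <;> fin_cases j <;>
      simp [frame, J4, mul_apply, Fin.sum_univ_four] <;> linarith

/-- The rotation of the two middle coordinates. -/
def rot (c s : ℝ) : M4 := !![1, 0, 0, 0; 0, c, -s, 0; 0, s, c, 0; 0, 0, 0, 1]

theorem rot_isK {c s : ℝ} (h : c ^ 2 + s ^ 2 = 1) : IsK (rot c s) := by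
  constructor
  · ext i j
    fin_cases i <;> fin_cases j <;>
      simp [rot, mul_apply, Fin.sum_univ_four, one_apply] <;> linarith
  · rw [IsSymp]
    ext i j
    fin_cases i <;> fin_cases j <;> simp [rot, J4, mul_apply, Fin.sum_univ_four] <;> linarith

theorem IsK.mul {k l : M4} (hk : IsK k) (hl : IsK l) : IsK (k * l) := by
  refine ⟨?_, hk.2.mul hl.2⟩
  rw [transpose_mul]
  calc lᵀ * kᵀ * (k * l) = lᵀ * (kᵀ * k) * l := by simp only [Matrix.mul_assoc]
    _ = 1 := by rw [hk.1, Matrix.mul_one]; exact hl.1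

/-- A symmetric `2 × 2` matrix is diagonalised by a rotation, with the larger entry first. -/
theorem exists_rot (p q r : ℝ) : ∃ c s : ℝ, c ^ 2 + s ^ 2 = 1 ∧
    (r - p) * (c * s) + q * (c ^ 2 - s ^ 2) = 0 ∧
    r * c ^ 2 - 2 * q * (c * s) + p * s ^ 2 ≤ p * c ^ 2 + 2 * q * (c * s) + r * s ^ 2 := by
  let f : ℝ → ℝ := fun θ => (r - p) * (Real.cos θ * Real.sin θ) +
    q * (Real.cos θ ^ 2 - Real.sin θ ^ 2)
  have h0 : f 0 = q := by simp [f]
  have h1 : f (Real.pi / 2) = -q := by simp [f]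
  obtain ⟨θ, -, hθ⟩ : ∃ θ ∈ Set.uIcc 0 (Real.pi / 2), f θ = 0 := by
    refine intermediate_value_uIcc (by fun_prop : Continuous f).continuousOn ?_
    rw [h0, h1, Set.mem_uIcc]
    rcases le_total q 0 with h | h
    · exact Or.inl ⟨h, by linarith⟩
    · exact Or.inr ⟨by linarith, h⟩
  simp only [f] at hθ
  have h := Real.cos_sq_add_sin_sq θ
  rcases le_total (r * Real.cos θ ^ 2 - 2 * q * (Real.cos θ * Real.sin θ) + p * Real.sin θ ^ 2)
      (p * Real.cos θ ^ 2 + 2 * q * (Real.cos θ * Real.sin θ) + r * Real.sin θ ^ 2) with hle | hle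
  · exact ⟨_, _, h, hθ, hle⟩
  · refine ⟨-Real.sin θ, Real.cos θ, by linarith, by linarith, ?_⟩
    linarith

theorem eigen_le {M : M4} (hM : M.IsHermitian) {v : Fin 4 → ℝ} (hv : v ≠ 0) {μ : ℝ}
    (h : M *ᵥ v = μ • v) : ∃ i, μ = hM.eigenvalues i := by
  have : μ ∈ spectrum ℝ M := by
    rw [← spectrum_toLin', ← Module.End.hasEigenvalue_iff_mem_spectrum]
    exact Module.End.hasEigenvalue_of_hasEigenvector
      ⟨Module.End.mem_eigenspace_iff.2 (by rw [toLin'_apply]; exact h), hv⟩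
  rw [hM.spectrum_real_eq_range_eigenvalues] at this
  obtain ⟨i, hi⟩ := this
  exact ⟨i, hi.symm⟩

/-- A unit top eigenvector of `g gᵀ`. -/
theorem exists_top (g : M4) : ∃ (u : Fin 4 → ℝ) (l : ℝ), u ⬝ᵥ u = 1 ∧
    (g * gᵀ) *ᵥ u = l • u ∧ ∀ (v : Fin 4 → ℝ) (μ : ℝ), v ≠ 0 → (g * gᵀ) *ᵥ v = μ • v → μ ≤ l := by
  have hM : (g * gᵀ).IsHermitian := by
    simpa using isHermitian_mul_conjTranspose_self g
  obtain ⟨i, -, hi⟩ := exists_max_image univ hM.eigenvalues univ_nonempty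
  refine ⟨hM.eigenvectorBasis i, hM.eigenvalues i, ?_, hM.mulVec_eigenvectorBasis i,
    fun v μ hv h => ?_⟩
  · have h1 := hM.eigenvectorBasis.orthonormal.1 i
    have h2 : ‖hM.eigenvectorBasis i‖ ^ 2 = 1 := by rw [h1, one_pow]
    rw [EuclideanSpace.norm_sq_eq] at h2
    rw [← h2, dotProduct]
    exact sum_congr rfl fun k _ => by rw [Real.norm_eq_abs, sq_abs, sq]
  · obtain ⟨j, rfl⟩ := eigen_le hM hv h
    exact hi j (mem_univ j)

theorem frame_mulVec_zero (u : Fin 4 → ℝ) : frame u *ᵥ Pi.single 0 1 = u := by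
  ext i
  fin_cases i <;> simp [frame, mulVec_single]

theorem frame_mulVec_three (u : Fin 4 → ℝ) : frame u *ᵥ Pi.single 3 1 = -(J4 *ᵥ u) := by
  ext i
  fin_cases i <;> simp [frame, J4, mulVec, dotProduct, Fin.sum_univ_four]

/-- **Cartan decomposition.** -/
theorem cartan {g : M4} (hg : IsSymp g) : ∃ (k k' : M4) (s₁ s₂ : ℝ), IsK k ∧ IsK k' ∧
    1 ≤ s₂ ∧ s₂ ≤ s₁ ∧ g = k * diag4 s₁ s₂ * k' := by
  obtain ⟨u, l, hu, hl, htop⟩ := exists_top g
  obtain ⟨M, hM⟩ : ∃ M, M = g * gᵀ := ⟨_, rfl⟩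
  simp only [← hM] at hl htop
  have hMJ : M * J4 * M = J4 := by
    have h1 : g * J4 * gᵀ = J4 := by simpa [IsSymp] using hg.transpose
    calc M * J4 * M = g * (gᵀ * J4 * g) * gᵀ := by simp only [hM, Matrix.mul_assoc]
      _ = J4 := by rw [hg, h1]
  have hu0 : u ≠ 0 := fun h => by simp [h] at hu
  have hJu : l • M *ᵥ (J4 *ᵥ u) = J4 *ᵥ u := by
    rw [← mulVec_smul, ← mulVec_smul, ← hl, mulVec_mulVec, mulVec_mulVec, hMJ]
  have hl0 : l ≠ 0 := by
    rintro rfl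
    rw [zero_smul] at hJu
    refine hu0 ?_
    have := congrArg (J4 *ᵥ ·) hJu.symm
    simpa [mulVec_mulVec, J4_mul_J4, neg_mulVec] using this
  have hk := frame_isK hu
  obtain ⟨k₁, hk₁⟩ : ∃ k₁, k₁ = frame u := ⟨_, rfl⟩
  rw [← hk₁] at hk
  have hc0 : k₁ *ᵥ Pi.single 0 1 = u := by rw [hk₁, frame_mulVec_zero]
  have hc3 : k₁ *ᵥ Pi.single 3 1 = -(J4 *ᵥ u) := by rw [hk₁, frame_mulVec_three]
  set N := k₁ᵀ * M * k₁ with hN
  have hsym : ∀ i j, N i j = N j i := by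
    have : Nᵀ = N := by simp [hN, hM, transpose_mul, Matrix.mul_assoc]
    exact fun i j => congrFun (congrFun this.symm i) j
  have hN0 : N *ᵥ Pi.single 0 1 = l • Pi.single 0 1 := by
    rw [hN, ← mulVec_mulVec, hc0, ← mulVec_mulVec, hl, mulVec_smul, ← hc0, mulVec_mulVec, hk.1,
      one_mulVec]
  have hN3 : N *ᵥ Pi.single 3 1 = l⁻¹ • Pi.single 3 1 := by
    have h3 : M *ᵥ (k₁ *ᵥ Pi.single 3 1) = l⁻¹ • (k₁ *ᵥ Pi.single 3 1) := by
      rw [hc3, mulVec_neg, smul_neg]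
      nth_rw 2 [← hJu]
      rw [smul_smul, inv_mul_cancel₀ hl0, one_smul]
    rw [hN, ← mulVec_mulVec, ← mulVec_mulVec, h3, mulVec_smul, mulVec_mulVec, hk.1, one_mulVec]
  have e0 := fun i => congrFun hN0 i
  have e3 := fun i => congrFun hN3 i
  simp only [mulVec_single_one, col_apply, Pi.smul_apply, smul_eq_mul] at e0 e3
  have hNJ : N * J4 * N = J4 := by
    have hs : IsSymp k₁ᵀ := hk.2.transpose
    rw [IsSymp, transpose_transpose] at hs
    calc N * J4 * N = k₁ᵀ * (M * (k₁ * J4 * k₁ᵀ) * M) * k₁ := by simp only [hN, Matrix.mul_assoc]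
      _ = J4 := by rw [hs, hMJ]; exact hk.2
  have h00 : N 0 0 = l := by simpa using e0 0
  have h10 : N 1 0 = 0 := by simpa using e0 1
  have h20 : N 2 0 = 0 := by simpa using e0 2
  have h30 : N 3 0 = 0 := by simpa using e0 3
  have h13 : N 1 3 = 0 := by simpa using e3 1
  have h23 : N 2 3 = 0 := by simpa using e3 2
  have h33 : N 3 3 = l⁻¹ := by simpa using e3 3
  obtain ⟨p, hp⟩ : ∃ p, N 1 1 = p := ⟨_, rfl⟩
  obtain ⟨q, hq⟩ : ∃ q, N 1 2 = q := ⟨_, rfl⟩
  obtain ⟨r, hr⟩ : ∃ r, N 2 2 = r := ⟨_, rfl⟩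
  have hform : N = !![l, 0, 0, 0; 0, p, q, 0; 0, q, r, 0; 0, 0, 0, l⁻¹] := by
    ext i j
    fin_cases i <;> fin_cases j <;>
      simp [h00, h10, h20, h30, h13, h23, h33, hp, hq, hr, hsym 0 1, hsym 0 2, hsym 0 3, hsym 2 1,
        hsym 3 1, hsym 3 2]
  have hdet : p * r - q * q = 1 := by
    have := congrFun (congrFun hNJ 1) 2
    rw [hform] at this
    simp [J4, mul_apply, Fin.sum_univ_four] at this
    linarith
  have hdiag : ∀ i, 0 ≤ N i i := fun i => by
    have hgram : N = (gᵀ * k₁)ᵀ * (gᵀ * k₁) := by simp [hN, hM, transpose_mul, Matrix.mul_assoc]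
    rw [hgram, mul_apply]
    exact sum_nonneg fun k _ => by rw [transpose_apply]; exact mul_self_nonneg _
  obtain ⟨c, s, hcs, hoff, hord⟩ := exists_rot p q r
  have hrot := rot_isK hcs
  set k := k₁ * rot c s with hkk
  have hk' : IsK k := hk.mul hrot
  obtain ⟨μ, hμ⟩ : ∃ μ, p * c ^ 2 + 2 * q * (c * s) + r * s ^ 2 = μ := ⟨_, rfl⟩
  obtain ⟨ν, hν⟩ : ∃ ν, r * c ^ 2 - 2 * q * (c * s) + p * s ^ 2 = ν := ⟨_, rfl⟩
  rw [hμ, hν] at hord
  have hμν : μ * ν = 1 := by
    rw [← hμ, ← hν]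
    linear_combination (c ^ 2 + s ^ 2) ^ 2 * hdet +
      ((r - p) * (c * s) + q * (c ^ 2 - s ^ 2)) * hoff + (c ^ 2 + s ^ 2 + 1) * hcs
  have hp0 : 0 ≤ p := hp ▸ hdiag 1
  have hr0 : 0 ≤ r := hr ▸ hdiag 2
  have hsum : μ + ν = p + r := by rw [← hμ, ← hν]; linear_combination (p + r) * hcs
  have hμ1 : 1 ≤ μ := by
    have hμ0 : 0 ≤ μ := by linarith
    by_contra hcon
    nlinarith
  have hMk : kᵀ * M * k = diagonal ![l, μ, ν, l⁻¹] := by
    have hrN : kᵀ * M * k = (rot c s)ᵀ * N * rot c s := by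
      simp only [hkk, hN, transpose_mul, Matrix.mul_assoc]
    rw [hrN, hform]
    ext i j
    fin_cases i <;> fin_cases j <;>
      simp [rot, mul_apply, Fin.sum_univ_four] <;> linarith
  have hμl : μ ≤ l := by
    refine htop (k *ᵥ Pi.single 1 1) μ (fun h => ?_) ?_
    · have := congrArg (kᵀ *ᵥ ·) h
      simp only [mulVec_mulVec, hk'.1, one_mulVec, mulVec_zero] at this
      simpa using congrFun this 1
    · have hkk' : k * kᵀ = 1 := mul_eq_one_comm.1 hk'.1
      have h1 : M * k = k * diagonal ![l, μ, ν, l⁻¹] := by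
        rw [← hMk]
        calc M * k = k * kᵀ * (M * k) := by rw [hkk', Matrix.one_mul]
          _ = k * (kᵀ * M * k) := by simp only [Matrix.mul_assoc]
      rw [mulVec_mulVec, h1, ← mulVec_mulVec, ← mulVec_smul]
      congr 1
      ext i
      fin_cases i <;> simp [mulVec_single]
  have hs1 : 0 < Real.sqrt l := Real.sqrt_pos.2 (by linarith)
  have hs2 : 0 < Real.sqrt μ := Real.sqrt_pos.2 (by linarith)
  have hν' : ν = μ⁻¹ := (inv_eq_of_mul_eq_one_right hμν).symm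
  set D := diag4 (Real.sqrt l) (Real.sqrt μ) with hD
  set Di := diag4 (Real.sqrt l)⁻¹ (Real.sqrt μ)⁻¹ with hDi
  have hDD : D * Di = 1 := by
    ext i j
    fin_cases i <;> fin_cases j <;>
      simp [hD, hDi, diag4, hs1.ne', hs2.ne']
  have hDM : Di * (kᵀ * M * k) * Di = 1 := by
    rw [hMk]
    ext i j
    fin_cases i <;> fin_cases j <;> simp [hDi, diag4, hν', one_apply]
    all_goals
      field_simp
      rw [Real.sq_sqrt]
      linarith
  have hDisymp : IsSymp Di := by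
    rw [IsSymp]
    ext i j
    fin_cases i <;> fin_cases j <;>
      simp [hDi, diag4, J4, mul_apply, Fin.sum_univ_four, hs1.ne', hs2.ne']
  refine ⟨k, Di * kᵀ * g, Real.sqrt l, Real.sqrt μ, hk', ⟨?_, ?_⟩, Real.one_le_sqrt.2 hμ1,
    Real.sqrt_le_sqrt hμl, ?_⟩
  · refine mul_eq_one_comm.1 ?_
    calc Di * kᵀ * g * (Di * kᵀ * g)ᵀ = Di * (kᵀ * M * k) * Diᵀ := by
          simp only [transpose_mul, transpose_transpose, hM, Matrix.mul_assoc]
      _ = 1 := by rw [show Diᵀ = Di by simp [hDi, diag4], hDM]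
  · exact (hDisymp.mul hk'.2.transpose).mul hg
  · calc g = k * (D * Di) * kᵀ * g := by
          rw [hDD, Matrix.mul_one, mul_eq_one_comm.1 hk'.1, Matrix.one_mul]
      _ = k * D * (Di * kᵀ * g) := by simp only [Matrix.mul_assoc]

end Vale.Agent.P165.SP
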