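import Vale.Agent.P165.SP.Frame

/-!
# The cells in a Cartan frame

In the frame of a Cartan decomposition every size is a sum of squares of the two Cartan entries
times squares of the coordinates of the point, so the inequalities between the cells are linear.
-/

namespace Vale.Agent.P165.SP.Cells

open Finset Matrix
open scoped Matrix.Norms.Frobenius

section General

variable {n : Type} [Fintype n] [DecidableEq n]

omit [DecidableEq n] in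
theorem sum_sq_eq_dot (v : n → ℝ) : ∑ i, v i ^ 2 = v ⬝ᵥ v :=
  sum_congr rfl fun i _ => sq (v i)

theorem norm_sq_vecMulVec (u r : n → ℝ) : ‖vecMulVec u r‖ ^ 2 = (u ⬝ᵥ u) * (r ⬝ᵥ r) := by
  rw [norm_sq_eq, ← sum_sq_eq_dot, ← sum_sq_eq_dot, sum_mul_sum]
  simp only [vecMulVec_apply, mul_pow]

theorem testP_col {v : n → ℝ} (hv : v ⬝ᵥ v = 1) (X : Matrix n n ℝ) (j : n) :
    ∑ i, (testP v * X) i j ^ 2 = ∑ i, X i j ^ 2 - (v ᵥ* X) j ^ 2 := by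
  have e : ∀ i, (testP v * X) i j = X i j - v i * (v ᵥ* X) j := fun i => by
    simp only [testP, Matrix.sub_mul, Matrix.one_mul, vecMulVec_mul, Matrix.sub_apply,
      vecMulVec_apply]
  simp only [e, sub_sq, sum_add_distrib, sum_sub_distrib, mul_pow, ← sum_mul, sum_sq_eq_dot, hv]
  have : ∑ i, 2 * X i j * (v i * (v ᵥ* X) j) = 2 * (v ᵥ* X) j ^ 2 := by
    simp only [vecMul, dotProduct, sq, sum_mul, mul_sum]
    rw [sum_comm]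
    exact sum_congr rfl fun i _ => sum_congr rfl fun k _ => by ring
  rw [this]
  ring

/-- The projection away from a unit vector does not increase norms. -/
theorem norm_testP_le {v : n → ℝ} (hv : v ⬝ᵥ v = 1) (X : Matrix n n ℝ) :
    ‖testP v * X‖ ≤ ‖X‖ := by
  refine (sq_le_sq₀ (norm_nonneg _) (norm_nonneg _)).1 ?_
  rw [norm_sq_eq, norm_sq_eq, sum_comm]
  nth_rw 2 [sum_comm]
  refine sum_le_sum fun j _ => ?_
  rw [testP_col hv]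
  linarith [sq_nonneg ((v ᵥ* X) j)]

theorem log_near {a a' d : ℝ} (ha' : 0 < a') (hd : 4 * d ≤ a') (hb1 : -d ≤ a' - a)
    (hb2 : a' - a ≤ d) : |Real.log a' - Real.log a| ≤ 2 * (d / a') := by
  have hap : 0 < a := by linarith
  rw [← Real.log_div ha'.ne' hap.ne', abs_le]
  have l1 := Real.log_le_sub_one_of_pos (div_pos ha' hap)
  have l2 := Real.one_sub_inv_le_log_of_pos (div_pos ha' hap)
  rw [inv_div] at l2
  constructor
  · refine le_trans ?_ l2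
    rw [mul_div_assoc', neg_le_sub_iff_le_add, ← sub_le_iff_le_add', div_sub_one ha'.ne',
      div_le_div_iff_of_pos_right ha']
    linarith
  · refine l1.trans ?_
    rw [mul_div_assoc', div_sub_one hap.ne', div_le_div_iff₀ hap ha']
    nlinarith

theorem log_vecMulVec_sub {u r r' : n → ℝ} (h : ‖vecMulVec u r‖ ≠ 0) (h' : ‖vecMulVec u r'‖ ≠ 0) :
    Real.log ‖vecMulVec u r'‖ - Real.log ‖vecMulVec u r‖ =
      Real.log ‖vecMulVec r r'‖ - Real.log ‖vecMulVec r r‖ := by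
  have e : ∀ a b : n → ℝ, 2 * Real.log ‖vecMulVec a b‖ = Real.log ((a ⬝ᵥ a) * (b ⬝ᵥ b)) :=
    fun a b => by rw [← norm_sq_vecMulVec, Real.log_pow]; norm_num
  have g : (u ⬝ᵥ u) * (r ⬝ᵥ r) ≠ 0 := norm_sq_vecMulVec u r ▸ pow_ne_zero 2 h
  have g' : (u ⬝ᵥ u) * (r' ⬝ᵥ r') ≠ 0 := norm_sq_vecMulVec u r' ▸ pow_ne_zero 2 h'
  have a1 := e u r'
  have a2 := e u r
  have a3 := e r r'
  have a4 := e r r
  rw [Real.log_mul (left_ne_zero_of_mul g') (right_ne_zero_of_mul g')] at a1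
  rw [Real.log_mul (left_ne_zero_of_mul g) (right_ne_zero_of_mul g)] at a2
  rw [Real.log_mul (right_ne_zero_of_mul g) (right_ne_zero_of_mul g')] at a3
  rw [Real.log_mul (right_ne_zero_of_mul g) (right_ne_zero_of_mul g)] at a4
  linarith

/-- Near a rank one matrix a step changes the logarithm of the norm by that of the covector, up
to the relative size of the rest. -/
theorem near_rankOne {u r : n → ℝ} {N τ τ' : Matrix n n ℝ} {M : ℝ} (hM : 1 ≤ M) (hτ : ‖τ‖ ≤ M)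
    (hτ' : ‖τ'‖ ≤ M) (hr : r ᵥ* (τ * τ') = r)
    (hN : N * (τ * τ') = N) (hX : 0 < ‖vecMulVec u r + N‖) :
    |Real.log ‖(vecMulVec u r + N) * τ‖ - Real.log ‖vecMulVec u r + N‖ -
        (Real.log ‖vecMulVec r (r ᵥ* τ)‖ - Real.log ‖vecMulVec r r‖)| ≤
      4 * M ^ 2 * (1 + 2 * Real.log M) * (‖N‖ / ‖vecMulVec u r + N‖) := by
  have hM0 : 0 < M := by linarith
  have hlM : 0 ≤ Real.log M := Real.log_nonneg hM
  have hinv : ∀ a : n → ℝ, vecMulVec a r * τ * τ' = vecMulVec a r := fun a => by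
    rw [Matrix.mul_assoc, vecMulVec_mul, hr]
  have bnd : ∀ Y : Matrix n n ℝ, Y * τ * τ' = Y →
      ‖Y * τ‖ ≤ ‖Y‖ * M ∧ ‖Y‖ ≤ ‖Y * τ‖ * M := fun Y hY =>
    ⟨(norm_mul_le _ _).trans (mul_le_mul_of_nonneg_left hτ (norm_nonneg _)),
      (le_of_eq (congrArg norm hY.symm)).trans
        ((norm_mul_le _ _).trans (mul_le_mul_of_nonneg_left hτ' (norm_nonneg _)))⟩
  have crude : ∀ Y : Matrix n n ℝ, Y * τ * τ' = Y →
      |Real.log ‖Y * τ‖ - Real.log ‖Y‖| ≤ Real.log M := fun Y hY => by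
    rcases eq_or_ne Y 0 with rfl | h0
    · simpa using hlM
    have hY0 : 0 < ‖Y‖ := norm_pos_iff.2 h0
    obtain ⟨b1, b2⟩ := bnd Y hY
    have hYτ : 0 < ‖Y * τ‖ := pos_of_mul_pos_left (hY0.trans_le b2) hM0.le
    have l1 := Real.log_le_log hYτ b1
    have l2 := Real.log_le_log hY0 b2
    rw [Real.log_mul hY0.ne' hM0.ne'] at l1
    rw [Real.log_mul hYτ.ne' hM0.ne'] at l2
    rw [abs_le]
    constructor <;> linarith
  set U := vecMulVec u r with hUdef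
  set X := U + N with hXdef
  have hXinv : X * τ * τ' = X := by
    rw [hXdef, Matrix.add_mul, Matrix.add_mul, hinv u, Matrix.mul_assoc N, hN]
  have k1 := crude _ hXinv
  have k2 := crude _ (hinv r)
  rw [vecMulVec_mul] at k2
  set κ := Real.log ‖vecMulVec r (r ᵥ* τ)‖ - Real.log ‖vecMulVec r r‖ with hκ
  have hρ0 : 0 ≤ ‖N‖ / ‖X‖ := div_nonneg (norm_nonneg _) hX.le
  rcases le_or_gt ‖X‖ (4 * M ^ 2 * ‖N‖) with hbig | hsm
  · have h1 : 1 ≤ 4 * M ^ 2 * (‖N‖ / ‖X‖) := by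
      rw [mul_div_assoc', le_div_iff₀ hX, one_mul]
      exact hbig
    have h2 : 2 * Real.log M ≤ 4 * M ^ 2 * (1 + 2 * Real.log M) * (‖N‖ / ‖X‖) := by
      have := mul_le_mul_of_nonneg_left h1 (show 0 ≤ 2 * Real.log M by linarith)
      nlinarith [mul_nonneg (sq_nonneg M) hρ0]
    rw [abs_le] at k1 k2 ⊢
    constructor <;> linarith
  have hM2 : 1 ≤ M ^ 2 := one_le_pow₀ hM
  have hN0 := norm_nonneg N
  have d0 : |‖X‖ - ‖U‖| ≤ ‖N‖ := by simpa [hXdef] using abs_norm_sub_norm_le X U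
  have d1 : |‖X * τ‖ - ‖U * τ‖| ≤ M * ‖N‖ := by
    refine (abs_norm_sub_norm_le _ _).trans ?_
    rw [← Matrix.sub_mul, hXdef, add_sub_cancel_left, mul_comm M]
    exact (norm_mul_le _ _).trans (mul_le_mul_of_nonneg_left hτ hN0)
  rw [abs_le] at d0 d1
  have hXτ : ‖X‖ ≤ ‖X * τ‖ * M := (bnd X hXinv).2
  have hNX : 4 * ‖N‖ ≤ ‖X‖ := by nlinarith
  have hXτ0 : 0 < ‖X * τ‖ := pos_of_mul_pos_left (hX.trans_le hXτ) hM0.le
  have hNτ : 4 * (M * ‖N‖) ≤ ‖X * τ‖ := by nlinarith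
  have hU0 : 0 < ‖U‖ := by linarith
  have hUτ0 : 0 < ‖U * τ‖ := by linarith
  have e0 := log_near hX hNX d0.1 d0.2
  have e1 := log_near hXτ0 hNτ d1.1 d1.2
  have eU : Real.log ‖U * τ‖ - Real.log ‖U‖ = κ := by
    rw [hκ, hUdef, vecMulVec_mul]
    exact log_vecMulVec_sub (hUdef ▸ hU0.ne') (by rw [← vecMulVec_mul, ← hUdef]; exact hUτ0.ne')
  have h3 : M * ‖N‖ / ‖X * τ‖ ≤ M ^ 2 * (‖N‖ / ‖X‖) := by
    rw [mul_div_assoc', div_le_div_iff₀ hXτ0 hX]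
    nlinarith [mul_le_mul_of_nonneg_left hXτ (mul_nonneg hM0.le hN0)]
  have h4 : ‖N‖ / ‖X‖ ≤ M ^ 2 * (‖N‖ / ‖X‖) := le_mul_of_one_le_left hρ0 hM2
  have h5 : 4 * (M ^ 2 * (‖N‖ / ‖X‖)) ≤ 4 * M ^ 2 * (1 + 2 * Real.log M) * (‖N‖ / ‖X‖) := by
    nlinarith [mul_nonneg (mul_nonneg (sq_nonneg M) hlM) hρ0]
  rw [abs_le] at e0 e1 ⊢
  constructor <;> linarith

/-- A step moves a defect by the two relative sizes of the rest. -/
theorem defect_step {u r : n → ℝ} {X N P τ τ' : Matrix n n ℝ} {M : ℝ} (hM : 1 ≤ M) (hτ : ‖τ‖ ≤ M)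
    (hτ' : ‖τ'‖ ≤ M) (hr : r ᵥ* (τ * τ') = r) (hX : X = vecMulVec u r + N)
    (hXinv : X * (τ * τ') = X) (hPX : 0 < ‖P * X‖) :
    |Real.log (‖X * τ‖ / ‖P * (X * τ)‖) - Real.log (‖X‖ / ‖P * X‖)| ≤
      4 * M ^ 2 * (1 + 2 * Real.log M) * (‖N‖ / ‖X‖ + ‖P * N‖ / ‖P * X‖) := by
  have hX0 : 0 < ‖X‖ := norm_pos_iff.2 fun h => by simp [h] at hPX
  have hN : N * (τ * τ') = N := by
    have h := hXinv
    rw [hX, Matrix.add_mul, vecMulVec_mul, hr] at h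
    exact add_left_cancel h
  have e : P * X = vecMulVec (P *ᵥ u) r + P * N := by rw [hX, Matrix.mul_add, mul_vecMulVec]
  have k1 := near_rankOne (u := u) (N := N) hM hτ hτ' hr hN (hX ▸ hX0)
  have k2 := near_rankOne (u := P *ᵥ u) (N := P * N) hM hτ hτ' hr
    (by rw [Matrix.mul_assoc, hN]) (e ▸ hPX)
  rw [← hX] at k1
  rw [← e] at k2
  rw [← Matrix.mul_assoc P X τ]
  have hXτ : ‖X * τ‖ ≠ 0 := fun h => by
    rw [norm_eq_zero] at h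
    rw [← Matrix.mul_assoc, h, Matrix.zero_mul] at hXinv
    exact norm_pos_iff.1 hX0 hXinv.symm
  have hPXτ : ‖P * X * τ‖ ≠ 0 := fun h => by
    rw [norm_eq_zero] at h
    refine norm_pos_iff.1 hPX ?_
    calc P * X = P * (X * (τ * τ')) := by rw [hXinv]
      _ = P * X * τ * τ' := by simp only [Matrix.mul_assoc]
      _ = 0 := by rw [h, Matrix.zero_mul]
  rw [Real.log_div hXτ hPXτ, Real.log_div hX0.ne' hPX.ne', mul_add]
  rw [abs_le] at k1 k2 ⊢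
  constructor <;> linarith

end General

/-! ### The diagonal -/

theorem norm_sq_diag (s₁ s₂ : ℝ) :
    ‖diag4 s₁ s₂‖ ^ 2 = s₁ ^ 2 + s₂ ^ 2 + (s₂ ^ 2)⁻¹ + (s₁ ^ 2)⁻¹ := by
  rw [norm_sq_eq]
  simp [diag4, diagonal, Fin.sum_univ_four, inv_pow]

theorem norm_sq_testP_diag {c : Fin 4 → ℝ} (hc : IsUnit4 c) (s₁ s₂ : ℝ) :
    ‖testP c * diag4 s₁ s₂‖ ^ 2 = s₁ ^ 2 * (c 1 ^ 2 + c 2 ^ 2 + c 3 ^ 2) +
      s₂ ^ 2 * (c 0 ^ 2 + c 2 ^ 2 + c 3 ^ 2) + (s₂ ^ 2)⁻¹ * (c 0 ^ 2 + c 1 ^ 2 + c 3 ^ 2) +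
      (s₁ ^ 2)⁻¹ * (c 0 ^ 2 + c 1 ^ 2 + c 2 ^ 2) := by
  have h : c 0 ^ 2 + c 1 ^ 2 + c 2 ^ 2 + c 3 ^ 2 = 1 := by
    simpa [IsUnit4, dotProduct, Fin.sum_univ_four, sq] using hc
  rw [norm_sq_eq, sum_comm]
  simp only [testP_col (show c ⬝ᵥ c = 1 from hc)]
  simp [diag4, diagonal, Fin.sum_univ_four, vecMul, dotProduct, mul_pow, inv_pow]
  linear_combination (-(s₁ ^ 2 + s₂ ^ 2 + (s₂ ^ 2)⁻¹ + (s₁ ^ 2)⁻¹)) * h

theorem norm_sq_rowJ_diag (c : Fin 4 → ℝ) (s₁ s₂ : ℝ) :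
    ‖rowJ c * diag4 s₁ s₂‖ ^ 2 = s₁ ^ 2 * c 3 ^ 2 + s₂ ^ 2 * c 2 ^ 2 +
      (s₂ ^ 2)⁻¹ * c 1 ^ 2 + (s₁ ^ 2)⁻¹ * c 0 ^ 2 := by
  rw [norm_sq_eq]
  simp [rowJ, J4, diag4, diagonal, dotProduct, mul_apply, Pi.single_apply,
    Fin.sum_univ_four, mul_pow, inv_pow]
  ring

/-- The top line of the diagonal on bivectors. -/
noncomputable def top (s₁ s₂ : ℝ) : M16 :=
  vecMulVec (wedge (Pi.single 0 1) (Pi.single 1 1))
    ((s₁ * s₂ / 2) • wedge (Pi.single 0 1) (Pi.single 1 1))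

theorem norm_sq_rep2_diag {s₁ s₂ : ℝ} (h₁ : s₁ ≠ 0) (h₂ : s₂ ≠ 0) :
    ‖rep2 (diag4 s₁ s₂)‖ ^ 2 = s₁ ^ 2 * s₂ ^ 2 + s₁ ^ 2 / s₂ ^ 2 + s₂ ^ 2 / s₁ ^ 2 +
      (s₁ ^ 2 * s₂ ^ 2)⁻¹ + 1 := by
  rw [norm_sq_eq]
  simp [rep2, minors, omega, diag4, diagonal, J4, vecMulVec_apply, Fintype.sum_prod_type,
    Fin.sum_univ_four]
  field_simp
  ring

theorem norm_sq_rep2_diag_sub {s₁ s₂ : ℝ} (h₁ : s₁ ≠ 0) (h₂ : s₂ ≠ 0) :
    ‖rep2 (diag4 s₁ s₂) - top s₁ s₂‖ ^ 2 = s₁ ^ 2 / s₂ ^ 2 + s₂ ^ 2 / s₁ ^ 2 +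
      (s₁ ^ 2 * s₂ ^ 2)⁻¹ + 1 := by
  rw [norm_sq_eq]
  simp [rep2, minors, omega, diag4, diagonal, J4, top, wedge, vecMulVec_apply, Pi.single_apply,
    Fintype.sum_prod_type, Fin.sum_univ_four]
  field_simp
  ring

theorem norm_sq_testD_diag {c : Fin 4 → ℝ} (hc : IsUnit4 c) {s₁ s₂ : ℝ} (h₁ : s₁ ≠ 0)
    (h₂ : s₂ ≠ 0) :
    2 * ‖testD c * rep2 (diag4 s₁ s₂)‖ ^ 2 = s₁ ^ 2 * s₂ ^ 2 * (c 2 ^ 2 + c 3 ^ 2) +
      s₁ ^ 2 / s₂ ^ 2 * (c 1 ^ 2 + c 3 ^ 2) + s₂ ^ 2 / s₁ ^ 2 * (c 0 ^ 2 + c 2 ^ 2) +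
      (s₁ ^ 2 * s₂ ^ 2)⁻¹ * (c 0 ^ 2 + c 1 ^ 2) + 1 / 2 := by
  have h : c 0 ^ 2 + c 1 ^ 2 + c 2 ^ 2 + c 3 ^ 2 = 1 := by
    simpa [IsUnit4, dotProduct, Fin.sum_univ_four, sq] using hc
  rw [norm_testD_mul, norm_sq_eq]
  simp [contract, rep2, minors, omega, diag4, diagonal, J4, mulVec, dotProduct, vecMulVec_apply,
    Fintype.sum_prod_type, Fin.sum_univ_four]
  field_simp
  linear_combination (16 * s₁ ^ 2 * s₂ ^ 2) * h

theorem norm_sq_testD_diag_sub {c : Fin 4 → ℝ} (hc : IsUnit4 c) {s₁ s₂ : ℝ} (h₁ : s₁ ≠ 0)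
    (h₂ : s₂ ≠ 0) :
    2 * ‖testD c * (rep2 (diag4 s₁ s₂) - top s₁ s₂)‖ ^ 2 =
      s₁ ^ 2 / s₂ ^ 2 * (c 1 ^ 2 + c 3 ^ 2) + s₂ ^ 2 / s₁ ^ 2 * (c 0 ^ 2 + c 2 ^ 2) +
      (s₁ ^ 2 * s₂ ^ 2)⁻¹ * (c 0 ^ 2 + c 1 ^ 2) + 1 / 2 := by
  have h : c 0 ^ 2 + c 1 ^ 2 + c 2 ^ 2 + c 3 ^ 2 = 1 := by
    simpa [IsUnit4, dotProduct, Fin.sum_univ_four, sq] using hc
  rw [norm_testD_mul, norm_sq_eq]
  simp [contract, rep2, minors, omega, diag4, diagonal, J4, top, wedge, mulVec, dotProduct,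
    vecMulVec_apply, Pi.single_apply, Fintype.sum_prod_type, Fin.sum_univ_four]
  field_simp
  linear_combination (16 * s₁ ^ 2 * s₂ ^ 2) * h

theorem le_norm_sq_testP_rep2 {Q : I2 → ℝ} (hQ : Q ⬝ᵥ Q = 1) {s₁ s₂ : ℝ} (h₂ : 1 ≤ s₂)
    (h₁ : s₂ ≤ s₁) : (s₁ / s₂) ^ 2 ≤ ‖testP Q * rep2 (diag4 s₁ s₂)‖ ^ 2 := by
  set R := rep2 (diag4 s₁ s₂) with hR
  have col : ∀ j, 0 ≤ ∑ i, (testP Q * R) i j ^ 2 := fun j => sum_nonneg fun i _ => sq_nonneg _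
  rw [norm_sq_eq, sum_comm]
  refine le_trans ?_ (sum_le_sum_of_subset_of_nonneg
    (subset_univ ({(0, 1), (1, 0), (0, 2), (2, 0)} : Finset I2)) fun j _ _ => col j)
  rw [sum_insert (by decide), sum_insert (by decide), sum_insert (by decide), sum_singleton,
    testP_col hQ, testP_col hQ, testP_col hQ, testP_col hQ]
  have hb : (Q (0, 1) - Q (1, 0)) ^ 2 + (Q (0, 2) - Q (2, 0)) ^ 2 ≤ 2 := by
    have hs := sum_le_sum_of_subset_of_nonneg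
      (subset_univ ({(0, 1), (1, 0), (0, 2), (2, 0)} : Finset I2))
      fun j (_ : j ∈ (univ : Finset I2)) _ => sq_nonneg (Q j)
    rw [sum_insert (by decide), sum_insert (by decide), sum_insert (by decide), sum_singleton,
      sum_sq_eq_dot, hQ] at hs
    nlinarith [sq_nonneg (Q (0, 1) + Q (1, 0)), sq_nonneg (Q (0, 2) + Q (2, 0))]
  simp [hR, rep2, minors, omega, diag4, diagonal, J4, vecMul, dotProduct, vecMulVec_apply,
    Fintype.sum_prod_type, Fin.sum_univ_four]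
  have hd : (0 : ℝ) < s₂ := by linarith
  have hT : s₁ / s₂ ≤ s₁ * s₂ :=
    (div_le_self (by linarith) h₂).trans (le_mul_of_one_le_right (by linarith) h₂)
  have hT0 : (0 : ℝ) ≤ s₁ / s₂ := div_nonneg (by linarith) hd.le
  have hsq : (s₁ / s₂) ^ 2 ≤ (s₁ * s₂) ^ 2 := pow_le_pow_left₀ hT0 hT 2
  have hA : 0 ≤ 2 - (Q (0, 1) - Q (1, 0)) ^ 2 := by
    linarith [sq_nonneg (Q (0, 2) - Q (2, 0))]
  rw [div_eq_mul_inv] at hsq ⊢
  nlinarith [mul_le_mul_of_nonneg_right hsq hA,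
    mul_le_mul_of_nonneg_left hb (sq_nonneg (s₁ * s₂⁻¹))]

/-! ### Linear inequalities -/

section Linear

variable {X Y a b c d : ℝ}

theorem point_facts (hY : 1 ≤ Y) (hXY : Y ≤ X) (ha : 0 ≤ a) (hb : 0 ≤ b) (hc : 0 ≤ c) (hd : 0 ≤ d)
    (h : a + b + c + d = 1) {P : ℝ}
    (hP : P = X * (b + c + d) + Y * (a + c + d) + Y⁻¹ * (a + b + d) + X⁻¹ * (a + b + c)) :
    X * (b + c + d) ≤ P ∧ Y ≤ P ∧ P ≤ X * (b + c + d) + 3 * Y := by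
  have hY1 : Y⁻¹ ≤ 1 := inv_le_one_of_one_le₀ hY
  have hX1 : X⁻¹ ≤ 1 := inv_le_one_of_one_le₀ (hY.trans hXY)
  have hY0 : 0 ≤ Y⁻¹ := inv_nonneg.2 (by linarith)
  have hX0 : 0 ≤ X⁻¹ := inv_nonneg.2 (by linarith)
  refine ⟨by nlinarith, ?_, ?_⟩
  · nlinarith [mul_le_mul_of_nonneg_right hXY (by linarith : 0 ≤ b + c + d)]
  · nlinarith

theorem plane_facts (hY : 1 ≤ Y) (hXY : Y ≤ X) (ha : 0 ≤ a) (hb : 0 ≤ b) (hc : 0 ≤ c) (hd : 0 ≤ d)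
    (h : a + b + c + d = 1) {D : ℝ}
    (hD : 2 * D = X * Y * (c + d) + X / Y * (b + d) + Y / X * (a + c) + (X * Y)⁻¹ * (a + b) +
      1 / 2) :
    1 / 4 ≤ D ∧ X * Y * (c + d) ≤ 2 * D ∧ X / Y * (b + d) ≤ 2 * D ∧
      2 * D ≤ X * Y * (c + d) + X / Y * (b + d) + 5 / 2 := by
  have hX : 0 < X := by linarith
  have h1 : Y / X ≤ 1 := (div_le_one hX).2 hXY
  have h2 : (X * Y)⁻¹ ≤ 1 :=
    inv_le_one_of_one_le₀ (one_le_mul_of_one_le_of_one_le (hY.trans hXY) hY)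
  have p1 : 0 ≤ X * Y * (c + d) := mul_nonneg (mul_nonneg hX.le (by linarith)) (by linarith)
  have p2 : 0 ≤ X / Y * (b + d) := mul_nonneg (div_nonneg hX.le (by linarith)) (by linarith)
  have p3 : 0 ≤ Y / X * (a + c) := mul_nonneg (div_nonneg (by linarith) hX.le) (by linarith)
  have p4 : 0 ≤ (X * Y)⁻¹ * (a + b) :=
    mul_nonneg (inv_nonneg.2 (mul_nonneg hX.le (by linarith))) (by linarith)
  have q3 := mul_le_mul h1 (by linarith : a + c ≤ 1) (by linarith) zero_le_one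
  have q4 := mul_le_mul h2 (by linarith : a + b ≤ 1) (by linarith) zero_le_one
  refine ⟨by linarith, by linarith, by linarith, by linarith⟩

end Linear

end Vale.Agent.P165.SP.Cells
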