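import Vale.Agent.P165.SP.Pack

/-!
# Boundedly many candidates of given sizes in `Sp(4, ℝ)`, and their weighted count
-/

namespace Vale.Agent.P165.SP

open Finset Matrix
open scoped Matrix.Norms.Frobenius

theorem geom_sum_le {x : ℝ} (hx : 0 < x) (hx1 : x ≤ 1) (T : Finset ℕ) :
    ∑ k ∈ T, Real.exp (-x) ^ k ≤ 2 / x := by
  obtain ⟨K, hK⟩ : ∃ K, T ⊆ range K :=
    ⟨T.sup id + 1, fun k hk => mem_range.2 (Nat.lt_succ_of_le (le_sup (f := id) hk))⟩
  refine (sum_le_sum_of_subset_of_nonneg hK fun k _ _ => by positivity).trans ?_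
  rw [le_div_iff₀ hx]
  have h := geom_sum_mul (Real.exp (-x)) K
  have h0 : 0 ≤ Real.exp (-x) ^ K := by positivity
  have e : Real.exp (-x) * Real.exp x = 1 := by rw [← Real.exp_add]; simp
  have e1 := Real.add_one_le_exp x
  have hS : 0 ≤ ∑ i ∈ range K, Real.exp (-x) ^ i := sum_nonneg fun i _ => by positivity
  have e2 : x / 2 ≤ 1 - Real.exp (-x) := by nlinarith [Real.exp_pos (-x)]
  nlinarith [mul_le_mul_of_nonneg_left e2 hS]

namespace Env

variable {Γ O ι : Type} [Group Γ] [Fintype ι] (E : Env Γ O ι)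

theorem exp_m (g : Γ) : Real.exp (E.m g) = ‖E.ρ g‖ := Real.exp_log (E.norm_rho_pos g)

theorem exp_m2 (g : Γ) : Real.exp (E.m2 g) = ‖rep2 (E.ρ g)‖ := Real.exp_log (E.norm_rep2_pos g)

/-- A candidate fits the element. -/
theorem cand_fits {A C : ℝ} {y z : Γ} (hc : E.Cand A y z)
    (hC : ∀ σ ∈ E.F, (‖E.ρ σ‖ + ‖rep2 (E.ρ σ)‖) * Real.exp A *
      (1 + ‖J4‖ ^ 2 + ‖rep2 J4‖ ^ 2) ≤ C)
    (hC' : 1 + ‖J4‖ ^ 2 + ‖rep2 J4‖ ^ 2 ≤ C) :
    Pack.Fits C (E.ρ y) (E.ρ z) (E.ρ z⁻¹) (E.ρ (z⁻¹ * y)) (E.ρ (y⁻¹ * z)) := by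
  obtain ⟨h, ⟨σ, hσ, rfl⟩, hm, hm2⟩ := hc
  have e : z⁻¹ * (z * σ * h) = σ * h := by group
  have hinv : ∀ g : Γ, ‖E.ρ g⁻¹‖ ≤ ‖J4‖ ^ 2 * ‖E.ρ g‖ ∧
      ‖rep2 (E.ρ g⁻¹)‖ ≤ ‖rep2 J4‖ ^ 2 * ‖rep2 (E.ρ g)‖ := fun g =>
    ⟨norm_inv_le (E.symp g) (E.rho_mul_inv g), norm_rep2_inv_le (E.symp g) (E.rho_mul_inv g)⟩
  have hz : ‖E.ρ z‖ * ‖E.ρ h‖ ≤ Real.exp A * ‖E.ρ (z * σ * h)‖ := by
    rw [← exp_m, ← exp_m, ← exp_m, ← Real.exp_add, ← Real.exp_add]
    exact Real.exp_le_exp.2 (by linarith [(abs_le.1 hm).1])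
  have hz2 : ‖rep2 (E.ρ z)‖ * ‖rep2 (E.ρ h)‖ ≤ Real.exp A * ‖rep2 (E.ρ (z * σ * h))‖ := by
    rw [← exp_m2, ← exp_m2, ← exp_m2, ← Real.exp_add, ← Real.exp_add]
    exact Real.exp_le_exp.2 (by linarith [(abs_le.1 hm2).1])
  have hx : ‖E.ρ (σ * h)‖ ≤ ‖E.ρ σ‖ * ‖E.ρ h‖ := by rw [map_mul]; exact norm_mul_le _ _
  have hx2 : ‖rep2 (E.ρ (σ * h))‖ ≤ ‖rep2 (E.ρ σ)‖ * ‖rep2 (E.ρ h)‖ := by
    rw [rep2_rho_mul]; exact norm_mul_le _ _
  set J := ‖J4‖ ^ 2
  set J' := ‖rep2 J4‖ ^ 2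
  have hJ : 0 ≤ J := sq_nonneg _
  have hJ' : 0 ≤ J' := sq_nonneg _
  have hS0 : 0 ≤ ‖E.ρ σ‖ + ‖rep2 (E.ρ σ)‖ := by positivity
  have hCσ := hC σ hσ
  -- one product bound, used four times
  have key : ∀ {w a s b Y t : ℝ}, 0 ≤ w → 0 ≤ b → 0 ≤ Y → 0 ≤ s →
      s ≤ ‖E.ρ σ‖ + ‖rep2 (E.ρ σ)‖ → 0 ≤ t → t ≤ 1 + J + J' → a ≤ t * (s * b) →
      w * b ≤ Real.exp A * Y → w * a ≤ C * Y := by
    intro w a s b Y t hw hb hY hs hs' ht ht' ha hwb
    calc w * a ≤ w * (t * (s * b)) := mul_le_mul_of_nonneg_left ha hw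
      _ = t * s * (w * b) := by ring
      _ ≤ t * s * (Real.exp A * Y) := mul_le_mul_of_nonneg_left hwb (mul_nonneg ht hs)
      _ ≤ (1 + J + J') * (‖E.ρ σ‖ + ‖rep2 (E.ρ σ)‖) * (Real.exp A * Y) :=
          mul_le_mul_of_nonneg_right (mul_le_mul ht' hs' hs (by linarith))
            (mul_nonneg (Real.exp_pos A).le hY)
      _ = (‖E.ρ σ‖ + ‖rep2 (E.ρ σ)‖) * Real.exp A * (1 + J + J') * Y := by ring
      _ ≤ _ := mul_le_mul_of_nonneg_right hCσ hY
  have n0 := norm_nonneg (E.ρ σ)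
  have n2 := norm_nonneg (rep2 (E.ρ σ))
  refine ⟨E.symp _, E.symp _, E.symp _, E.symp _, by rw [← map_mul], ?_, ?_, ?_, ?_, ?_, ?_, ?_⟩
  · rw [← map_mul]; congr 1; group
  · rw [e]
    exact key (norm_nonneg _) (norm_nonneg _) (norm_nonneg _) n0 (by linarith) zero_le_one
      (by linarith) (by rw [one_mul]; exact hx) hz
  · rw [show (z * σ * h)⁻¹ * z = (σ * h)⁻¹ by group]
    exact key (norm_nonneg _) (norm_nonneg _) (norm_nonneg _) n0 (by linarith) hJ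
      (by linarith) ((hinv _).1.trans (mul_le_mul_of_nonneg_left hx hJ)) hz
  · exact (hinv z).1.trans (mul_le_mul_of_nonneg_right (by linarith) (norm_nonneg _))
  · rw [e]
    exact key (norm_nonneg _) (norm_nonneg _) (norm_nonneg _) n2 (by linarith) zero_le_one
      (by linarith) (by rw [one_mul]; exact hx2) hz2
  · rw [show (z * σ * h)⁻¹ * z = (σ * h)⁻¹ by group]
    exact key (norm_nonneg _) (norm_nonneg _) (norm_nonneg _) n2 (by linarith) hJ'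
      (by linarith) ((hinv _).2.trans (mul_le_mul_of_nonneg_left hx2 hJ')) hz2
  · exact (hinv z).2.trans (mul_le_mul_of_nonneg_right (by linarith) (norm_nonneg _))

/-- Boundedly many candidates of one element have given sizes. -/
theorem pack_ok : E.PackOK := by
  classical
  intro A
  set J := 1 + ‖J4‖ ^ 2 + ‖rep2 J4‖ ^ 2
  have hJ : 1 ≤ J := by
    have := sq_nonneg ‖J4‖
    have := sq_nonneg ‖rep2 J4‖
    simp only [J]; linarith
  set S := ∑ σ ∈ E.F, (‖E.ρ σ‖ + ‖rep2 (E.ρ σ)‖)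
  have hS : 0 ≤ S := sum_nonneg fun σ _ => by positivity
  set B := max A 0
  set C := Real.exp (2 * B) * J * (1 + S)
  have hB : 0 ≤ B := le_max_right _ _
  have hA : A ≤ B := le_max_left _ _
  have hJC : J ≤ C := le_trans (le_mul_of_one_le_left (by linarith) (Real.one_le_exp (by linarith)))
    (le_mul_of_one_le_right (by positivity) (by linarith))
  have heC : Real.exp (2 * B) ≤ C := le_trans (le_mul_of_one_le_right (Real.exp_pos _).le hJ)
    (le_mul_of_one_le_right (by positivity) (by linarith))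
  refine ⟨(E.discrete (2 ^ 92 * C ^ 6)).toFinset.card, fun y M M' Z hZ => ?_⟩
  rcases Z.eq_empty_or_nonempty with rfl | ⟨z₀, h₀⟩
  · exact Nat.zero_le _
  have hfit : ∀ z ∈ Z, Pack.Fits C (E.ρ y) (E.ρ z) (E.ρ z⁻¹) (E.ρ (z⁻¹ * y)) (E.ρ (y⁻¹ * z)) :=
    fun z hz => E.cand_fits (hZ z hz).1 (fun σ hσ => by
      have hs := single_le_sum (f := fun σ => ‖E.ρ σ‖ + ‖rep2 (E.ρ σ)‖)
        (fun σ _ => by positivity) hσ
      calc (‖E.ρ σ‖ + ‖rep2 (E.ρ σ)‖) * Real.exp A * J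
          ≤ (1 + S) * Real.exp (2 * B) * J := mul_le_mul_of_nonneg_right
            (mul_le_mul (by linarith) (Real.exp_le_exp.2 (by linarith)) (Real.exp_pos _).le
              (by linarith)) (by linarith)
        _ = C := by simp only [C]; ring) hJC
  have comp : ∀ z ∈ Z, ∀ z' ∈ Z,
      ‖E.ρ z'‖ ≤ C * ‖E.ρ z‖ ∧ ‖rep2 (E.ρ z')‖ ≤ C * ‖rep2 (E.ρ z)‖ := fun z hz z' hz' => by
    constructor
    · refine le_trans ?_ (mul_le_mul_of_nonneg_right heC (norm_nonneg _))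
      rw [← exp_m, ← exp_m, ← Real.exp_add]
      exact Real.exp_le_exp.2 (by
        linarith [(abs_le.1 (hZ z hz).2.1).1, (abs_le.1 (hZ z' hz').2.1).2])
    · refine le_trans ?_ (mul_le_mul_of_nonneg_right heC (norm_nonneg _))
      rw [← exp_m2, ← exp_m2, ← Real.exp_add]
      exact Real.exp_le_exp.2 (by
        linarith [(abs_le.1 (hZ z hz).2.2).1, (abs_le.1 (hZ z' hz').2.2).2])
  refine card_le_card_of_injOn (fun z => z₀⁻¹ * z) (fun z hz => ?_)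
    fun a _ b _ h => mul_left_cancel h
  have h := Pack.norm_div_le (by linarith) (E.symp y) (hfit z₀ h₀) (hfit z hz)
    (comp z₀ h₀ z hz).1 (comp z hz z₀ h₀).1 (comp z₀ h₀ z hz).2 (comp z hz z₀ h₀).2
    (E.norm_rho_pos _) (E.norm_rho_pos _) (E.norm_rep2_pos _) (E.norm_rep2_pos _)
  rw [← map_mul] at h
  rwa [mem_coe, Set.Finite.mem_toFinset]

/-- Weighted candidates: two independent linear coordinates give two geometric sums. -/
theorem count_ok : E.CountOK := by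
  classical
  intro A a a' b b' hD
  set D := a * b' - a' * b
  set B := max A ((|a| + |a'| + |b| + |b'|) / |D|)
  obtain ⟨N, hN⟩ := E.pack_ok B
  refine ⟨4 * N, by positivity, fun y a₀ b₀ α γ hα hα1 hγ hγ1 Z hZ => ?_⟩
  set u : Γ → ℝ := fun z => a * E.m z + a' * E.m2 z + a₀
  set v : Γ → ℝ := fun z => b * E.m z + b' * E.m2 z + b₀
  set key : Γ → ℕ × ℕ := fun z => (⌊u z⌋₊, ⌊v z⌋₊)
  set f : Γ → ℝ := fun z => Real.exp (-(α * u z) - γ * v z)
  show ∑ z ∈ Z, f z ≤ _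
  have hfib : ∀ k ∈ Z.image key, ∑ z ∈ Z.filter (fun z => key z = k), f z ≤
      N * (Real.exp (-α) ^ k.1 * Real.exp (-γ) ^ k.2) := by
    intro k _
    refine (sum_le_card_nsmul _ _ (Real.exp (-α) ^ k.1 * Real.exp (-γ) ^ k.2) fun z hz => ?_).trans ?_
    · obtain ⟨hzZ, rfl⟩ := mem_filter.1 hz
      rw [← Real.exp_nat_mul, ← Real.exp_nat_mul, ← Real.exp_add]
      refine Real.exp_le_exp.2 ?_
      have h1 := mul_le_mul_of_nonneg_left (Nat.floor_le (hZ z hzZ).2.1) hα.le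
      have h2 := mul_le_mul_of_nonneg_left (Nat.floor_le (hZ z hzZ).2.2) hγ.le
      simp only [key, u, v] at h1 h2 ⊢
      linarith
    rw [nsmul_eq_mul]
    refine mul_le_mul_of_nonneg_right (Nat.cast_le.2 ?_) (by positivity)
    rcases (Z.filter fun z => key z = k).eq_empty_or_nonempty with he | ⟨z₁, hz₁⟩
    · simp [he]
    refine hN y (E.m z₁) (E.m2 z₁) _ fun z hz => ?_
    obtain ⟨hzZ, rfl⟩ := mem_filter.1 hz
    obtain ⟨hz1Z, hk⟩ := mem_filter.1 hz₁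
    simp only [key, Prod.mk.injEq] at hk
    have near : ∀ {s t : ℝ}, 0 ≤ s → 0 ≤ t → ⌊t⌋₊ = ⌊s⌋₊ → |s - t| ≤ 1 := fun {s t} hs ht e => by
      have e1 := Nat.floor_le hs
      have e2 := Nat.lt_floor_add_one s
      have e3 := Nat.floor_le ht
      have e4 := Nat.lt_floor_add_one t
      rw [e] at e3 e4
      exact abs_le.2 ⟨by linarith, by linarith⟩
    have hu := near (hZ z hzZ).2.1 (hZ z₁ hz1Z).2.1 hk.1
    have hv := near (hZ z hzZ).2.2 (hZ z₁ hz1Z).2.2 hk.2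
    obtain ⟨⟨h, hh, hm, hm2⟩, -⟩ := hZ z hzZ
    refine ⟨⟨h, hh, hm.trans (le_max_left _ _), hm2.trans (le_max_left _ _)⟩, ?_⟩
    set du := u z - u z₁
    set dv := v z - v z₁
    have hmul : ∀ {c d : ℝ}, |d| ≤ 1 → |c * d| ≤ |c| := fun {c d} h => by
      rw [abs_mul]; exact mul_le_of_le_one_right (abs_nonneg _) h
    have hb : ∀ {c d c' d' : ℝ}, |d| ≤ 1 → |d'| ≤ 1 → |c * d - c' * d'| ≤ |c| + |c'| :=
      fun h h' => (abs_sub _ _).trans (add_le_add (hmul h) (hmul h'))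
    constructor
    · refine le_trans ?_ (le_max_right _ _)
      rw [le_div_iff₀ (abs_pos.2 hD), ← abs_mul,
        show (E.m z - E.m z₁) * D = b' * du - a' * dv by simp only [du, dv, u, v, D]; ring]
      exact (hb hu hv).trans (by linarith [abs_nonneg a, abs_nonneg b])
    · refine le_trans ?_ (le_max_right _ _)
      rw [le_div_iff₀ (abs_pos.2 hD), ← abs_mul,
        show (E.m2 z - E.m2 z₁) * D = a * dv - b * du by simp only [du, dv, u, v, D]; ring]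
      exact (hb hv hu).trans (by linarith [abs_nonneg a', abs_nonneg b'])
  rw [← sum_fiberwise_of_maps_to (fun z hz => mem_image_of_mem key hz) f]
  refine (sum_le_sum hfib).trans ?_
  rw [← mul_sum]
  refine (mul_le_mul_of_nonneg_left ((sum_le_sum_of_subset_of_nonneg
    (t := (Z.image key).image Prod.fst ×ˢ (Z.image key).image Prod.snd) (fun k hk => mem_product.2
      ⟨mem_image_of_mem _ hk, mem_image_of_mem _ hk⟩) fun _ _ _ => by positivity).trans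
    (le_of_eq_of_le (by rw [sum_product, ← sum_mul_sum])
      (mul_le_mul (geom_sum_le hα hα1 _) (geom_sum_le hγ hγ1 _)
        (sum_nonneg fun _ _ => by positivity) (by positivity)))) (Nat.cast_nonneg N)).trans
    (le_of_eq ?_)
  field_simp
  ring

end Env

end Vale.Agent.P165.SP
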