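import Vale.Agent.P165.SP.Rep

/-!
# The test matrices do not vanish
-/

namespace Vale.Agent.P165.SP

open Finset Matrix
open scoped Matrix.Norms.Frobenius

theorem IsUnit4.ne_zero {v : Fin 4 → ℝ} (hv : IsUnit4 v) : v ≠ 0 := fun h => by
  simp [IsUnit4, h] at hv

theorem J4_mulVec_eq_zero {v : Fin 4 → ℝ} (h : J4 *ᵥ v = 0) : v = 0 := by
  have h2 := congrArg (J4 *ᵥ ·) h
  simp only [mulVec_mulVec, J4_mul_J4, neg_mulVec, one_mulVec, mulVec_zero, neg_eq_zero] at h2
  exact h2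

theorem rowJ_ne_zero {v : Fin 4 → ℝ} (hv : IsUnit4 v) : rowJ v ≠ 0 := fun h => by
  refine hv.ne_zero (J4_mulVec_eq_zero (funext fun j => ?_))
  simpa [rowJ, vecMulVec_apply] using congrFun (congrFun h 0) j

theorem testP_ne_zero {v : Fin 4 → ℝ} (hv : IsUnit4 v) : testP v ≠ 0 := fun h => by
  have := congrArg Matrix.trace h
  rw [testP, trace_sub, trace_one, trace_vecMulVec, trace_zero] at this
  rw [IsUnit4] at hv
  rw [hv] at this
  norm_num at this

theorem trace_lag : Matrix.trace lag = 5 := by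
  simp [lag, rep2, minors, omega, J4, Matrix.trace, Fintype.sum_prod_type, Fin.sum_univ_four,
    vecMulVec_apply]
  norm_num

theorem testP_mul_lag_ne_zero {P : I2 → ℝ} (hP : IsUnitLag P) : testP P * lag ≠ 0 := fun h => by
  rw [testP, Matrix.sub_mul, Matrix.one_mul, sub_eq_zero] at h
  have := congrArg Matrix.trace h
  rw [trace_lag, trace_mul_comm, mul_vecMulVec, hP.2, trace_vecMulVec, hP.1] at this
  norm_num at this

theorem testD_mul_lag_ne_zero {v : Fin 4 → ℝ} (hv : IsUnit4 v) : testD v * lag ≠ 0 := fun h => by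
  have key : ∀ a b : Fin 4 → ℝ, a ⬝ᵥ (J4 *ᵥ b) = 0 → ∀ i : Fin 4,
      ∑ c, (J4 *ᵥ v) c * wedge a b (i, c) = 0 := by
    intro a b hab i
    have h1 := congrFun (congrArg (· *ᵥ wedge a b) h) (i, 0)
    simp only [← mulVec_mulVec, lag, rep2_wedge _ hab, one_mulVec, zero_mulVec, Pi.zero_apply] at h1
    simpa [testD, mulVec, dotProduct, Fintype.sum_prod_type, Fin.sum_univ_four, ite_and] using h1
  have h0 : (Pi.single 0 1 : Fin 4 → ℝ) ⬝ᵥ (J4 *ᵥ Pi.single 1 1) = 0 := by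
    simp [J4, mulVec, dotProduct, Fin.sum_univ_four]
  have h3 : (Pi.single 3 1 : Fin 4 → ℝ) ⬝ᵥ (J4 *ᵥ Pi.single 2 1) = 0 := by
    simp [J4, mulVec, dotProduct, Fin.sum_univ_four]
  have e0 := key _ _ h0 0
  have e1 := key _ _ h0 1
  have e2 := key _ _ h3 3
  have e3 := key _ _ h3 2
  refine hv.ne_zero (J4_mulVec_eq_zero (funext fun j => ?_))
  fin_cases j <;> simp [wedge, Fin.sum_univ_four] at e0 e1 e2 e3 ⊢ <;> linarith

end Vale.Agent.P165.SP
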