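import Vale.Agent.P165.SP.ScaleOK
import Vale.Agent.P165.SP.Tests

/-!
# The recursion closes at one scale

The weight has rate one over the scale `N`. The point cell is cut at `M` thresholds in `[N, 2N]` and
the tube at those five times as deep. Outside both the branch bound is of order `N ^ 2`; a gate of
either kind at overshoot `x` serves a share `e ^ (-x) / N` of the thresholds, and unless `x > N` its
children lie in a set that is small at a good scale.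
-/

namespace Vale.Agent.P165.SP

open Finset FF Matrix
open scoped Matrix.Norms.Frobenius

/-- Equally spaced thresholds in a short interval. -/
theorem card_grid_le (M : ℕ) {N D r : ℝ} (hN : 0 < N) (hM : 0 < M) (hD : 0 ≤ D) :
    (((range M).filter fun k : ℕ => r - D ≤ N + N * k / M ∧ N + N * k / M ≤ r).card : ℝ) ≤
      M * D / N + 1 := by
  set S := (range M).filter fun k : ℕ => r - D ≤ N + N * k / M ∧ N + N * k / M ≤ r
  rcases S.eq_empty_or_nonempty with hS | hS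
  · rw [hS, card_empty, Nat.cast_zero]; positivity
  have ha := (mem_filter.1 (S.min'_mem hS)).2
  have hb := (mem_filter.1 (S.max'_mem hS)).2
  have hsub : S ⊆ Icc (S.min' hS) (S.max' hS) := fun k hk =>
    mem_Icc.2 ⟨S.min'_le k hk, S.le_max' k hk⟩
  have hle : S.min' hS ≤ S.max' hS := S.min'_le _ (S.max'_mem hS)
  refine (Nat.cast_le.2 ((card_le_card hsub).trans_eq (Nat.card_Icc _ _))).trans ?_
  rw [Nat.cast_sub (by omega), Nat.cast_add, Nat.cast_one]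
  have hM' : (0 : ℝ) < M := Nat.cast_pos.2 hM
  have key : N * ((S.max' hS : ℝ) - (S.min' hS : ℝ)) / M ≤ D := by
    have : N * ((S.max' hS : ℝ) - (S.min' hS : ℝ)) / M =
        N * (S.max' hS : ℝ) / M - N * (S.min' hS : ℝ) / M := by ring
    linarith [ha.1, hb.2]
  rw [div_le_iff₀ hM'] at key
  have h2 : (S.max' hS : ℝ) - (S.min' hS : ℝ) ≤ M * D / N := by
    rw [le_div_iff₀ hN]; linarith
  linarith

namespace Env

variable {Γ O ι : Type} [Group Γ] [Fintype ι] {E : Env Γ O ι}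

theorem m_eq_roots (z : Γ) : E.ra z + E.rb z / 2 = E.m z := by
  simp only [ra, rb]; ring

/-- The exponent is bounded below by the depth in the tube. -/
theorem le_En {C : ℝ} (hE : E.Est C) {v : Fin 4 → ℝ} (hv : IsUnit4 v) (z : Γ) :
    -E.dv v z - 3 * C / 2 ≤ E.En v z := by
  have h0 := hE.row v hv z
  have h1 := (hE.root_nonneg z).2
  rw [En, ← m_eq_roots]
  linarith

/-- The quantities frozen along a frame. -/
def Frozen (C : ℝ) (v w w' : Fin 4 → ℝ) (P : I2 → ℝ) (z y : Γ) : Prop :=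
  |E.jv v y - E.jv v z| ≤ C ∧ |E.pv v y - E.pv v z| ≤ C ∧ |E.dv v y - E.dv v z| ≤ C ∧
    |E.pv w y - E.pv w z| ≤ C ∧ |E.pv w' y - E.pv w' z| ≤ C ∧ |E.dv w' y - E.dv w' z| ≤ C ∧
    |E.cP P y - E.cP P z| ≤ C

/-- Frames freezing a point, one further direction and one plane. -/
theorem exists_frame {C : ℝ} (hE : E.Est C) {v w : Fin 4 → ℝ} (hv : IsUnit4 v) (hw : IsUnit4 w)
    {P : I2 → ℝ} (hP : IsUnitLag P) :
    ∃ R : Γ → Γ → Γ, (∀ z h, R z h ∈ E.F) ∧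
      ∀ z h y, z * R z h * h = y → E.Cand C y z ∧ Frozen (E := E) C v w w P z y := by
  choose R hRF hR1 hR2 hR using
    hE.frame ![rowJ v, testP v, testP w] ![testD v, testD w, testP P]
  refine ⟨R, hRF, fun z h y hy => ?_⟩
  rw [← hy]
  exact ⟨⟨h, ⟨R z h, hRF z h, rfl⟩, hR1 z h, hR2 z h⟩, (hR z h 0).1 (rowJ_ne_zero hv),
    (hR z h 1).1 (testP_ne_zero hv), (hR z h 0).2 (testD_mul_lag_ne_zero hv),
    (hR z h 2).1 (testP_ne_zero hw), (hR z h 2).1 (testP_ne_zero hw),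
    (hR z h 1).2 (testD_mul_lag_ne_zero hw), (hR z h 2).2 (testP_mul_lag_ne_zero hP)⟩

variable [DecidableEq Γ] [DecidableEq O]

theorem anc_nonneg {q : ℝ} (h0 : 0 ≤ q) (h1 : q ≤ 1) (g : Γ) : 0 ≤ E.anc q g :=
  T_nonneg h0 h1 _ _

variable (E) in
/-- The branch bound against a given set. -/
def BrBound (q Cb ε : ℝ) (U : Finset Γ) : Prop :=
  ∀ (Z : Finset Γ) (w : Γ → ℝ) (R : Γ → Γ → Γ) (M δ : ℝ), 0 ≤ M → (∀ z, 0 ≤ w z) →
    (∀ z h, R z h ∈ E.F) →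
    (∀ y, ∀ Z' ⊆ Z, (∀ z ∈ Z', ∃ h, z * R z h * h = y) → ∑ z ∈ Z', w z ≤ M) →
    (∀ U' ⊆ U, (∀ y ∈ U', ∃ z ∈ Z, ∃ h, z * R z h * h = y) →
      ∑ y ∈ U', E.anc q y ≤ δ * ∑ y ∈ U, E.anc q y) →
    ∑ z ∈ Z, w z * E.anc q z ≤ Cb * M * (δ + ε)

/-- The outside term. -/
theorem outside_sum_le {C Nc Cb q ε : ℝ} {N : ℕ} (hE : E.Est C) (hN : 1 ≤ N) (hNc : 0 ≤ Nc)
    (hcnt : ∀ (y : Γ) (a₀ b₀ : ℝ), ∀ Z : Finset Γ,
      (∀ z ∈ Z, E.Cand C y z ∧ 0 ≤ E.ra z + a₀ ∧ 0 ≤ E.rb z + b₀) →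
        ∑ z ∈ Z, Real.exp (-((N : ℝ)⁻¹ * (E.ra z + a₀)) -
          (N : ℝ)⁻¹ / 2 * (E.rb z + b₀)) ≤ Nc * (N : ℝ) ^ 2)
    (hq0 : 0 ≤ q) (hq1 : q ≤ 1) {U : Finset Γ} (hbr : E.BrBound q Cb ε U)
    {v : Fin 4 → ℝ} (hv : IsUnit4 v) (Z : Finset Γ) (hZ : ∀ z ∈ Z, E.dv v z ≤ 10 * N) :
    ∑ z ∈ Z, E.Wt (N : ℝ)⁻¹ v z * E.anc q z ≤
      Cb * (Real.exp (10 + 4 * C) * Nc * (N : ℝ) ^ 2) * (1 + ε) := by
  obtain ⟨P, hP⟩ := exists_isUnitLag
  obtain ⟨R, hRF, hR⟩ := exists_frame hE hv hv hP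
  have hN' : (1 : ℝ) ≤ N := Nat.one_le_cast.2 hN
  refine hbr Z _ R _ 1 (by positivity) (fun z => (Real.exp_pos _).le) hRF ?_ ?_
  · intro y Z' hZ' hy
    have hc := hcnt y (10 * N + 2 * C - E.jv v y) C Z'
      fun z hz => by
        obtain ⟨h, hh⟩ := hy z hz
        obtain ⟨hcand, hj, -⟩ := hR z h y hh
        have h0 := hE.row v hv z
        have := hZ z (hZ' hz)
        have := (abs_le.1 hj).2
        exact ⟨hcand, by linarith, by linarith [(hE.root_nonneg z).2]⟩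
    rw [mul_assoc]
    refine (sum_le_sum fun z hz => ?_).trans
      ((mul_sum _ _ _).symm.trans_le (mul_le_mul_of_nonneg_left hc (Real.exp_pos (10 + 4 * C)).le))
    obtain ⟨h, hh⟩ := hy z hz
    obtain ⟨-, hj, -⟩ := hR z h y hh
    have := (abs_le.1 hj).1
    rw [Wt, ← Real.exp_add]
    apply Real.exp_le_exp.2
    have hb : 0 ≤ (N : ℝ)⁻¹ := by positivity
    have hbN : (N : ℝ)⁻¹ * N = 1 := inv_mul_cancel₀ (by positivity)
    have hb1 : (N : ℝ)⁻¹ ≤ 1 := inv_le_one_of_one_le₀ hN'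
    have hC0 := hE.nonneg
    have hEn : E.ra z + (10 * N + 2 * C - E.jv v y) + (E.rb z + C) / 2 - (10 * N + 4 * C) ≤
        E.En v z := by
      rw [En, ← m_eq_roots]; linarith
    have := mul_le_mul_of_nonneg_left hEn hb
    have : (N : ℝ)⁻¹ * (10 * N + 4 * C) ≤ 10 + 4 * C := by
      have := mul_le_mul_of_nonneg_right hb1 (by positivity : (0 : ℝ) ≤ 4 * C)
      linarith
    linarith
  · intro U' hU' _
    rw [one_mul]
    exact sum_le_sum_of_subset_of_nonneg hU' fun y _ _ => anc_nonneg hq0 hq1 y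

/-- The gates of one kind, weighted by half their overshoot: `c₁ m + c₂ m₂ + a₀ y` follows the
overshoot `x z` from below. -/
theorem gate_sum_le {C C₁ Nc Cb q ε δ : ℝ} {N : ℕ} (hE : E.Est C) (hN : 1 ≤ N) (hNc : 0 ≤ Nc)
    (hC₁ : 0 ≤ C₁) (c₁ c₂ : ℝ)
    (hcnt : ∀ (y : Γ) (a₀ b₀ : ℝ), ∀ Z : Finset Γ,
      (∀ z ∈ Z, E.Cand C y z ∧ 0 ≤ c₁ * E.m z + c₂ * E.m2 z + a₀ ∧ 0 ≤ E.m z + b₀) →
        ∑ z ∈ Z, Real.exp (-((1 / 2) * (c₁ * E.m z + c₂ * E.m2 z + a₀)) -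
          (N : ℝ)⁻¹ * (E.m z + b₀)) ≤ 2 * Nc * N)
    {U : Finset Γ} (hbr : E.BrBound q Cb ε U)
    {v w : Fin 4 → ℝ} (hv : IsUnit4 v) (hw : IsUnit4 w) {P : I2 → ℝ} (hP : IsUnitLag P)
    (x : Γ → ℝ) (a₀ : Γ → ℝ)
    (hfol : ∀ z y, E.Cand C y z → Frozen (E := E) C v w w P z y →
      0 ≤ c₁ * E.m z + c₂ * E.m2 z + a₀ y ∧ c₁ * E.m z + c₂ * E.m2 z + a₀ y ≤ x z + 5 * C)
    (Z : Finset Γ) (hZ : ∀ z ∈ Z, E.dv v z ≤ 10 * N + C₁)
    (hδ : ∀ U' ⊆ U, (∀ y ∈ U', ∃ z ∈ Z, Frozen (E := E) C v w w P z y) →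
      ∑ y ∈ U', E.anc q y ≤ δ * ∑ y ∈ U, E.anc q y) :
    ∑ z ∈ Z, E.Wt (N : ℝ)⁻¹ v z * Real.exp (-x z / 2) * E.anc q z ≤
      Cb * (Real.exp (10 + C₁ + 7 * C) * (2 * Nc * N)) * (δ + ε) := by
  obtain ⟨R, hRF, hR⟩ := exists_frame hE hv hw hP
  have hN' : (1 : ℝ) ≤ N := Nat.one_le_cast.2 hN
  refine hbr Z _ R _ δ (by positivity) (fun z => mul_nonneg (Real.exp_pos _).le
    (Real.exp_pos _).le) hRF ?_ ?_
  · intro y Z' hZ' hy
    have hc := hcnt y (a₀ y) (10 * N + C₁ + 3 * C - E.jv v y) Z'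
      fun z hz => by
        obtain ⟨h, hh⟩ := hy z hz
        obtain ⟨hcand, hfr⟩ := hR z h y hh
        have hEn := le_En hE hv z
        rw [En] at hEn
        exact ⟨hcand, (hfol z y hcand hfr).1,
          by linarith [hZ z (hZ' hz), (abs_le.1 hfr.1).2, hE.nonneg]⟩
    refine (sum_le_sum fun z hz => ?_).trans
      ((mul_sum _ _ _).symm.trans_le
        (mul_le_mul_of_nonneg_left hc (Real.exp_pos (10 + C₁ + 7 * C)).le))
    obtain ⟨h, hh⟩ := hy z hz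
    obtain ⟨hcand, hfr⟩ := hR z h y hh
    have := (hfol z y hcand hfr).2
    have := (abs_le.1 hfr.1).1
    rw [Wt, ← Real.exp_add, ← Real.exp_add]
    apply Real.exp_le_exp.2
    have hb : 0 ≤ (N : ℝ)⁻¹ := by positivity
    have hbN : (N : ℝ)⁻¹ * N = 1 := inv_mul_cancel₀ (by positivity)
    have hb1 : (N : ℝ)⁻¹ ≤ 1 := inv_le_one_of_one_le₀ hN'
    have hC0 := hE.nonneg
    have hEn : E.m z + (10 * N + C₁ + 3 * C - E.jv v y) - (10 * N + C₁ + 4 * C) ≤ E.En v z := by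
      rw [En]; linarith
    have := mul_le_mul_of_nonneg_left hEn hb
    have : (N : ℝ)⁻¹ * (10 * N + C₁ + 4 * C) ≤ 10 + C₁ + 4 * C := by
      have := mul_le_mul_of_nonneg_right hb1 (by positivity : (0 : ℝ) ≤ C₁ + 4 * C)
      linarith
    linarith
  · intro U' hU' hy
    refine hδ U' hU' fun y hy' => ?_
    obtain ⟨z, hz, h, hh⟩ := hy y hy'
    exact ⟨z, hz, (hR z h y hh).2⟩

/-- The sum of one kind of gates: few children below overshoot `N`, a small share above. -/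
theorem gate_exp_le {C C₁ Nc Cb q ε : ℝ} {N : ℕ} (hE : E.Est C) (hN : 1 ≤ N) (hNc : 0 ≤ Nc)
    (hC₁ : 0 ≤ C₁) (hCb : 0 ≤ Cb) (hε : Real.exp (-(N : ℝ) / 2) ≤ ε) (hε1 : ε ≤ 1)
    (hq0 : 0 ≤ q) (hq1 : q ≤ 1) (c₁ c₂ : ℝ)
    (hcnt : ∀ (y : Γ) (a₀ b₀ : ℝ), ∀ Z : Finset Γ,
      (∀ z ∈ Z, E.Cand C y z ∧ 0 ≤ c₁ * E.m z + c₂ * E.m2 z + a₀ ∧ 0 ≤ E.m z + b₀) →
        ∑ z ∈ Z, Real.exp (-((1 / 2) * (c₁ * E.m z + c₂ * E.m2 z + a₀)) -
          (N : ℝ)⁻¹ * (E.m z + b₀)) ≤ 2 * Nc * N)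
    {U : Finset Γ} (hbr : E.BrBound q Cb ε U)
    {v w : Fin 4 → ℝ} (hv : IsUnit4 v) (hw : IsUnit4 w) {P : I2 → ℝ} (hP : IsUnitLag P)
    (x : Γ → ℝ) (a₀ : Γ → ℝ) (hx : ∀ z, -C ≤ x z)
    (hfol : ∀ z y, E.Cand C y z → Frozen (E := E) C v w w P z y →
      0 ≤ c₁ * E.m z + c₂ * E.m2 z + a₀ y ∧ c₁ * E.m z + c₂ * E.m2 z + a₀ y ≤ x z + 5 * C)
    (G : Finset Γ) (hG : ∀ z ∈ G, E.dv v z ≤ 10 * N + C₁)
    (hsmall : ∀ U' ⊆ U, (∀ y ∈ U', ∃ z ∈ G, x z ≤ N ∧ Frozen (E := E) C v w w P z y) →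
      ∑ y ∈ U', E.anc q y ≤ ε * ∑ y ∈ U, E.anc q y) :
    ∑ g ∈ G, Real.exp (-x g) * (E.Wt (N : ℝ)⁻¹ v g * E.anc q g) ≤
      Cb * (Real.exp (10 + C₁ + 7 * C) * (2 * Nc * N)) * (2 * Real.exp (C / 2) + 2) * ε := by
  classical
  have hε0 : 0 < ε := (Real.exp_pos _).trans_le hε
  set wt : Γ → ℝ := fun g => E.Wt (N : ℝ)⁻¹ v g * Real.exp (-x g / 2) * E.anc q g with hwt
  have hwt0 : ∀ g, 0 ≤ wt g := fun g => mul_nonneg
    (mul_nonneg (Real.exp_pos _).le (Real.exp_pos _).le) (anc_nonneg hq0 hq1 g)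
  set B := Cb * (Real.exp (10 + C₁ + 7 * C) * (2 * Nc * N)) with hB
  have hB0 : 0 ≤ B := by positivity
  have hclose : ∑ g ∈ G.filter (fun g => x g ≤ N), wt g ≤ B * (ε + ε) := by
    refine gate_sum_le hE hN hNc hC₁ c₁ c₂ hcnt hbr hv hw hP x a₀ hfol
      _ (fun z hz => hG z (mem_filter.1 hz).1) fun U' hU' hy => ?_
    refine hsmall U' hU' fun y hy' => ?_
    obtain ⟨z, hz, hfr⟩ := hy y hy'
    exact ⟨z, (mem_filter.1 hz).1, (mem_filter.1 hz).2, hfr⟩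
  have hall : ∑ g ∈ G, wt g ≤ B * 2 := by
    refine (gate_sum_le (δ := 1) hE hN hNc hC₁ c₁ c₂ hcnt hbr hv hw hP x a₀ hfol
      _ hG fun U' hU' _ => ?_).trans ?_
    · rw [one_mul]
      exact sum_le_sum_of_subset_of_nonneg hU' fun y _ _ => anc_nonneg hq0 hq1 y
    · exact mul_le_mul_of_nonneg_left (by linarith) hB0
  have hpt : ∀ g ∈ G, Real.exp (-x g) * (E.Wt (N : ℝ)⁻¹ v g * E.anc q g) ≤
      (if x g ≤ N then Real.exp (C / 2) * wt g else 0) + Real.exp (-(N : ℝ) / 2) * wt g := by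
    intro g _
    have he : Real.exp (-x g) * (E.Wt (N : ℝ)⁻¹ v g * E.anc q g) =
        Real.exp (-x g / 2) * wt g := by
      rw [hwt, show -x g = -x g / 2 + -x g / 2 by ring, Real.exp_add]
      ring_nf
    rw [he]
    by_cases hdN : x g ≤ N
    · rw [if_pos hdN]
      exact le_add_of_le_of_nonneg (mul_le_mul_of_nonneg_right
        (Real.exp_le_exp.2 (by linarith [hx g])) (hwt0 g)) (mul_nonneg (Real.exp_pos _).le (hwt0 g))
    · rw [if_neg hdN, zero_add]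
      exact mul_le_mul_of_nonneg_right (Real.exp_le_exp.2 (by linarith [not_le.1 hdN])) (hwt0 g)
  refine (sum_le_sum hpt).trans ?_
  rw [sum_add_distrib, ← sum_filter, ← mul_sum, ← mul_sum]
  refine (add_le_add (mul_le_mul_of_nonneg_left hclose (Real.exp_pos _).le)
    (mul_le_mul hε hall (sum_nonneg fun g _ => hwt0 g) hε0.le)).trans_eq ?_
  ring

variable [Fintype O]

omit [Group Γ] [DecidableEq O] in
/-- Sums over vertices against sums over group elements. -/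
theorem sum_fibre_le (S : Finset (Γ × O)) (f : Γ → ℝ) (hf : ∀ g, 0 ≤ f g) :
    ∑ y ∈ S, f y.1 ≤ (Fintype.card O : ℝ) * ∑ g ∈ S.image Prod.fst, f g := by
  refine (sum_le_sum_of_subset_of_nonneg (t := S.image Prod.fst ×ˢ (univ : Finset O))
    (fun y hy => mem_product.2 ⟨mem_image_of_mem _ hy, mem_univ _⟩) fun y _ _ => hf _).trans ?_
  rw [sum_product]
  simp [mul_sum]

/-- From group elements to vertices. -/
theorem vertex_sum_le {Cb q β : ℝ} {K : ℕ} {v : Fin 4 → ℝ} {o : O} (hCb : 0 ≤ Cb) (hq0 : 0 ≤ q)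
    (hq1 : q ≤ 1) (hanc : ∀ (o : O) (y : Γ × O), E.tau q K ((1 : Γ), o) y ≤ Cb * E.anc q y.1)
    (S : Finset (Γ × O)) (r : Γ → ℝ) (hr : ∀ g, 0 ≤ r g) {B : ℝ}
    (hB : ∑ g ∈ S.image Prod.fst, r g * (E.Wt β v g * E.anc q g) ≤ B) :
    ∑ z ∈ S, r z.1 * (E.tau q K ((1 : Γ), o) z * E.Wt β v z.1) ≤
      (Fintype.card O : ℝ) * (Cb * B) := by
  calc ∑ z ∈ S, r z.1 * (E.tau q K ((1 : Γ), o) z * E.Wt β v z.1)
      ≤ ∑ z ∈ S, Cb * (r z.1 * (E.Wt β v z.1 * E.anc q z.1)) := sum_le_sum fun z _ => by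
        refine (mul_le_mul_of_nonneg_left (mul_le_mul_of_nonneg_right (hanc o z)
          (Real.exp_pos _).le) (hr _)).trans_eq ?_
        simp only [Wt]; ring
    _ ≤ (Fintype.card O : ℝ) * ∑ g ∈ S.image Prod.fst, Cb * (r g * (E.Wt β v g * E.anc q g)) :=
        sum_fibre_le S (fun g => Cb * (r g * (E.Wt β v g * E.anc q g)))
          fun g => mul_nonneg hCb (mul_nonneg (hr g)
            (mul_nonneg (Real.exp_pos _).le (anc_nonneg hq0 hq1 g)))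
    _ ≤ _ := by
        rw [← mul_sum]
        exact mul_le_mul_of_nonneg_left (mul_le_mul_of_nonneg_left hB hCb) (Nat.cast_nonneg _)

/-- The gates of the point cell, at a good scale. -/
theorem point_side_le {C C₁ Nc Cb q ε : ℝ} {K N : ℕ} (hE : E.Est C) (hC₁ : 0 ≤ C₁) (hN : 1 ≤ N)
    (hNc : 0 ≤ Nc) (hCb : 0 ≤ Cb) (hε : Real.exp (-(N : ℝ) / 2) ≤ ε) (hε1 : ε ≤ 1) (hq0 : 0 ≤ q)
    (hq1 : q ≤ 1)
    (hcnt : ∀ (y : Γ) (a₀ b₀ : ℝ), ∀ Z : Finset Γ,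
      (∀ z ∈ Z, E.Cand C y z ∧ 0 ≤ 2 * E.m z + -1 * E.m2 z + a₀ ∧ 0 ≤ E.m z + b₀) →
        ∑ z ∈ Z, Real.exp (-((1 / 2) * (2 * E.m z + -1 * E.m2 z + a₀)) -
          (N : ℝ)⁻¹ * (E.m z + b₀)) ≤ 2 * Nc * N)
    {U : Finset Γ} (hbr : E.BrBound q Cb ε U)
    {v w : Fin 4 → ℝ} (hv : IsUnit4 v) (hw : IsUnit4 w)
    (hwb : ∀ U' ⊆ U, (∀ y ∈ U', (N : ℝ) - (C₁ + 4 * C) ≤ E.pv v y ∧
      E.pv w y ≤ 3 * N + (C₁ + 4 * C)) → ∑ y ∈ U', E.anc q y ≤ ε * ∑ y ∈ U, E.anc q y)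
    (hanc : ∀ (o : O) (y : Γ × O), E.tau q K ((1 : Γ), o) y ≤ Cb * E.anc q y.1)
    (o : O) (S : Finset (Γ × O))
    (hS : ∀ z ∈ S, (N : ℝ) ≤ E.pv v z.1 ∧ E.pv v z.1 ≤ 2 * N + C₁ ∧
      E.dv v z.1 ≤ 10 * N + C₁) :
    ∑ z ∈ S, Real.exp (E.pv v z.1 - E.ra z.1) *
        (E.tau q K ((1 : Γ), o) z * E.Wt (N : ℝ)⁻¹ v z.1) ≤
      (Fintype.card O : ℝ) * (Cb * (Cb * (Real.exp (10 + C₁ + 7 * C) * (2 * Nc * N)) *
        (2 * Real.exp (C / 2) + 2) * ε)) := by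
  obtain ⟨P, hP⟩ := exists_isUnitLag
  have hC0 := hE.nonneg
  refine vertex_sum_le hCb hq0 hq1 hanc S (fun g => Real.exp (E.pv v g - E.ra g))
    (fun g => (Real.exp_pos _).le) ?_
  have hG : ∀ g ∈ S.image Prod.fst, (N : ℝ) ≤ E.pv v g ∧ E.pv v g ≤ 2 * N + C₁ ∧
      E.dv v g ≤ 10 * N + C₁ := fun g hg => by
    obtain ⟨y, hy, rfl⟩ := mem_image.1 hg
    exact hS y hy
  have h := gate_exp_le hE hN hNc hC₁ hCb hε hε1 hq0 hq1 2 (-1) hcnt hbr hv hw hP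
    (fun z => E.ra z - E.pv v z) (fun y => 2 * C - E.pv v y)
    (fun z => by linarith [(hE.cell_p v hv z).2])
    (fun z y _ hfr => by
      have := (hE.cell_p v hv z).2
      have hra : 2 * E.m z + -1 * E.m2 z = E.ra z := by rw [ra]; ring
      rw [hra]
      constructor <;> linarith [(abs_le.1 hfr.2.1).1, (abs_le.1 hfr.2.1).2])
    (S.image Prod.fst) (fun g hg => (hG g hg).2.2) fun U' hU' hy => hwb U' hU' fun y hy' => by
      obtain ⟨z, hz, hzx, hfr⟩ := hy y hy'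
      obtain ⟨h1, h2, -⟩ := hG z hz
      constructor
      · linarith [(abs_le.1 hfr.2.1).1]
      · linarith [(abs_le.1 hfr.2.2.2.1).2, (hE.cell_p w hw z).2]
  refine le_of_eq_of_le (sum_congr rfl fun g _ => ?_) h
  rw [neg_sub]

/-- The gates of the tube, at a good scale. -/
theorem tube_side_le {C C₁ Nc Cb q ε : ℝ} {K N : ℕ} (hE : E.Est C) (hC₁ : 0 ≤ C₁) (hN : 1 ≤ N)
    (hNc : 0 ≤ Nc) (hCb : 0 ≤ Cb) (hε : Real.exp (-(N : ℝ) / 2) ≤ ε) (hε1 : ε ≤ 1) (hq0 : 0 ≤ q)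
    (hq1 : q ≤ 1)
    (hcnt : ∀ (y : Γ) (a₀ b₀ : ℝ), ∀ Z : Finset Γ,
      (∀ z ∈ Z, E.Cand C y z ∧ 0 ≤ -2 * E.m z + 2 * E.m2 z + a₀ ∧ 0 ≤ E.m z + b₀) →
        ∑ z ∈ Z, Real.exp (-((1 / 2) * (-2 * E.m z + 2 * E.m2 z + a₀)) -
          (N : ℝ)⁻¹ * (E.m z + b₀)) ≤ 2 * Nc * N)
    {U : Finset Γ} (hbr : E.BrBound q Cb ε U)
    {v w : Fin 4 → ℝ} (hv : IsUnit4 v) (hw : IsUnit4 w) {P : I2 → ℝ} (hP : IsUnitLag P)
    (hwb : ∀ U' ⊆ U, (∀ y ∈ U', 5 * (N : ℝ) - (C₁ + 4 * C) ≤ E.dv v y ∧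
      E.dv v y ≤ 10 * N + (C₁ + 4 * C) ∧ E.pv v y ≤ 2 * N + (C₁ + 4 * C) ∧
      E.dv w y - E.pv w y ≤ 11 * N + (C₁ + 4 * C) ∧ E.cP P y ≤ 11 * N + (C₁ + 4 * C)) →
      ∑ y ∈ U', E.anc q y ≤ ε * ∑ y ∈ U, E.anc q y)
    (hanc : ∀ (o : O) (y : Γ × O), E.tau q K ((1 : Γ), o) y ≤ Cb * E.anc q y.1)
    (o : O) (S : Finset (Γ × O))
    (hS : ∀ z ∈ S, 5 * (N : ℝ) ≤ E.dv v z.1 ∧ E.pv v z.1 ≤ 2 * N + C₁ ∧
      E.dv v z.1 ≤ 10 * N + C₁) :
    ∑ z ∈ S, Real.exp (E.dv v z.1 - E.pv v z.1 - E.rb z.1) *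
        (E.tau q K ((1 : Γ), o) z * E.Wt (N : ℝ)⁻¹ v z.1) ≤
      (Fintype.card O : ℝ) * (Cb * (Cb * (Real.exp (10 + C₁ + 7 * C) * (2 * Nc * N)) *
        (2 * Real.exp (C / 2) + 2) * ε)) := by
  have hC0 := hE.nonneg
  refine vertex_sum_le hCb hq0 hq1 hanc S (fun g => Real.exp (E.dv v g - E.pv v g - E.rb g))
    (fun g => (Real.exp_pos _).le) ?_
  have hG : ∀ g ∈ S.image Prod.fst, 5 * (N : ℝ) ≤ E.dv v g ∧ E.pv v g ≤ 2 * N + C₁ ∧
      E.dv v g ≤ 10 * N + C₁ := fun g hg => by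
    obtain ⟨y, hy, rfl⟩ := mem_image.1 hg
    exact hS y hy
  have h := gate_exp_le hE hN hNc hC₁ hCb hε hε1 hq0 hq1 (-2) 2 hcnt hbr hv hw hP
    (fun z => E.rb z + E.pv v z - E.dv v z) (fun y => E.pv v y - E.dv v y + 3 * C)
    (fun z => by linarith [(hE.cell_d v hv z).2])
    (fun z y _ hfr => by
      have := (hE.cell_d v hv z).2
      have hrb : -2 * E.m z + 2 * E.m2 z = E.rb z := by rw [rb]; ring
      rw [hrb]
      constructor <;> linarith [(abs_le.1 hfr.2.1).1, (abs_le.1 hfr.2.1).2,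
        (abs_le.1 hfr.2.2.1).1, (abs_le.1 hfr.2.2.1).2])
    (S.image Prod.fst) (fun g hg => (hG g hg).2.2) fun U' hU' hy => hwb U' hU' fun y hy' => by
      obtain ⟨z, hz, hzx, hfr⟩ := hy y hy'
      obtain ⟨h1, h2, h3⟩ := hG z hz
      obtain ⟨-, hp, hd, -, hpw, hdw, hc⟩ := hfr
      have hrb : E.rb z ≤ 11 * N + C₁ + C := by linarith [(hE.cell_p v hv z).1]
      refine ⟨?_, ?_, ?_, ?_, ?_⟩
      · linarith [(abs_le.1 hd).1]
      · linarith [(abs_le.1 hd).2]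
      · linarith [(abs_le.1 hp).2]
      · linarith [(abs_le.1 hdw).2, (abs_le.1 hpw).1, (hE.cell_d w hw z).2]
      · linarith [(abs_le.1 hc).2, hE.cell_c P hP z]
  refine le_of_eq_of_le (sum_congr rfl fun g _ => ?_) h
  congr 2; ring

omit [Fintype O] in
/-- One round of the recursion, from the bounds at one scale. -/
theorem row_step {C C₁ Co D q β B : ℝ} {K : ℕ} {N : ℝ} (hE : E.Est C) (hC₁ : C * Real.exp C ≤ C₁)
    (hN : C + 1 ≤ N) (hq0 : 0 ≤ q) (hq1 : q ≤ 1) (hsp : E.SplitOK) (hB : 0 ≤ B)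
    (hrow : E.RowBound q β K B) (hD : 2 * C * D ≤ N / 4)
    (hout : ∀ v, IsUnit4 v → ∀ (o : O) (S : Finset (Γ × O)),
      (∀ y ∈ S, E.dv v y.1 ≤ 10 * N) →
      ∑ y ∈ S, E.tau q K ((1 : Γ), o) y * E.Wt β v y.1 ≤ Co)
    (hpt : ∀ v, IsUnit4 v → ∀ (o : O) (S : Finset (Γ × O)),
      (∀ z ∈ S, N ≤ E.pv v z.1 ∧ E.pv v z.1 ≤ 2 * N + C₁ ∧ E.dv v z.1 ≤ 10 * N + C₁) →
      ∑ z ∈ S, Real.exp (E.pv v z.1 - E.ra z.1) *
        (E.tau q K ((1 : Γ), o) z * E.Wt β v z.1) ≤ D)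
    (htb : ∀ v, IsUnit4 v → ∀ (o : O) (S : Finset (Γ × O)),
      (∀ z ∈ S, 5 * N ≤ E.dv v z.1 ∧ E.pv v z.1 ≤ 2 * N + C₁ ∧ E.dv v z.1 ≤ 10 * N + C₁) →
      ∑ z ∈ S, Real.exp (E.dv v z.1 - E.pv v z.1 - E.rb z.1) *
        (E.tau q K ((1 : Γ), o) z * E.Wt β v z.1) ≤ D) :
    E.RowBound q β K (Co + B / 2) := by
  classical
  intro v hv o S
  have hC0 := hE.nonneg
  obtain ⟨M, hM⟩ := exists_nat_ge (max (8 * B) 1)
  have hM1 : (1 : ℝ) ≤ M := (le_max_right _ _).trans hM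
  have hM8 : 8 * B ≤ (M : ℝ) := (le_max_left _ _).trans hM
  have hMpos : 0 < M := Nat.cast_pos.1 (by linarith : (0 : ℝ) < M)
  have hNpos : 0 < N := by linarith
  set f : Γ × O → ℝ := fun y => E.tau q K ((1 : Γ), o) y * E.Wt β v y.1 with hf
  have hf0 : ∀ y, 0 ≤ f y := fun y =>
    mul_nonneg (FQ.tauW_nonneg _ hq0 hq1 _ _ _) (Real.exp_pos _).le
  have hk : ∀ k ∈ range M, 0 ≤ N * k / M ∧ N * k / M ≤ N := fun k hk => ⟨by positivity, by
    rw [div_le_iff₀ (by linarith)]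
    exact mul_le_mul_of_nonneg_left (Nat.cast_le.2 (mem_range.1 hk).le) hNpos.le⟩
  set Bl := QT.wball E.nb ((1 : Γ), o) K with hBl
  let Mid : Γ × O → Prop := fun z =>
    E.pv v z.1 ≤ 2 * N + C₁ ∧ E.dv v z.1 ≤ 10 * N + C₁
  let Sp : Finset (Γ × O) := Bl.filter fun z => N ≤ E.pv v z.1 ∧ Mid z
  let St : Finset (Γ × O) := Bl.filter fun z => 5 * N ≤ E.dv v z.1 ∧ Mid z
  let Hp : Γ × O → Finset ℕ := fun z => (range M).filter fun k : ℕ =>
    E.pv v z.1 - C * Real.exp (E.pv v z.1 - E.ra z.1) ≤ N + N * k / M ∧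
      N + N * k / M ≤ E.pv v z.1
  let Ht : Γ × O → Finset ℕ := fun z => (range M).filter fun k : ℕ =>
    E.dv v z.1 - C * Real.exp (E.dv v z.1 - E.pv v z.1 - E.rb z.1) ≤ 5 * N + 5 * N * k / M ∧
      5 * N + 5 * N * k / M ≤ E.dv v z.1
  let G : ℕ → ℝ := fun k => (∑ z ∈ Sp, if k ∈ Hp z then f z else 0) +
    ∑ z ∈ St, if k ∈ Ht z then f z else 0
  have h5 : ∀ k : ℕ, 5 * N * k / M = 5 * (N * k / M) := fun k => by ring
  have hone : ∀ k ∈ range M, ∑ y ∈ S, f y ≤ Co + B * G k := by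
    intro k hkM
    obtain ⟨hk0, hkN⟩ := hk k hkM
    obtain ⟨S', Z, hS', hZ, hle⟩ := hsp q β B K
      {g | N + N * k / M ≤ E.pv v g ∨ 5 * N + 5 * N * k / M ≤ E.dv v g} hq0 hq1 hB
      (fun h => by rcases h with h | h <;> linarith [(hE.one v hv).1, (hE.one v hv).2, h5 k])
      hrow v hv o S
    refine hle.trans (add_le_add (hout v hv o S' fun y hy => ?_)
      (mul_le_mul_of_nonneg_left ?_ hB))
    · have h : E.dv v y.1 < 5 * N + 5 * N * k / M := not_le.1 fun h => hS' y hy (Or.inr h)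
      linarith [h5 k]
    calc ∑ z ∈ Z, f z
        ≤ ∑ z ∈ Bl, ((if z ∈ Sp ∧ k ∈ Hp z then f z else 0) +
            if z ∈ St ∧ k ∈ Ht z then f z else 0) := by
          refine le_trans (sum_le_sum fun z hz => ?_)
            (sum_le_sum_of_subset_of_nonneg (fun z hz => (hZ z hz).1) fun z _ _ =>
              add_nonneg (by split_ifs <;> first | exact hf0 z | exact le_rfl)
                (by split_ifs <;> first | exact hf0 z | exact le_rfl))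
          obtain ⟨hzB, hcut, o', i, hout'⟩ := hZ z hz
          set g' := z.1 * (E.nb ((1 : Γ), o') i).1 with hg'
          have hp' : E.pv v g' < N + N * k / M := not_le.1 fun h => hout' (Or.inl h)
          have hd' : E.dv v g' < 5 * N + 5 * N * k / M := not_le.1 fun h => hout' (Or.inr h)
          have hp1 := (abs_le.1 (hE.step_p v hv z.1 o' i)).1
          have hd1 := (abs_le.1 (hE.step_d v hv z.1 o' i)).1
          have hp2 : C * Real.exp (E.pv v z.1 - E.ra z.1) ≤ C * Real.exp C :=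
            mul_le_mul_of_nonneg_left
              (Real.exp_le_exp.2 (by linarith [(hE.cell_p v hv z.1).2])) hC0
          have hd2 : C * Real.exp (E.dv v z.1 - E.pv v z.1 - E.rb z.1) ≤ C * Real.exp C :=
            mul_le_mul_of_nonneg_left
              (Real.exp_le_exp.2 (by linarith [(hE.cell_d v hv z.1).2])) hC0
          rw [← hg'] at hp1 hd1
          have hmid : Mid z := ⟨by linarith, by linarith [h5 k]⟩
          rcases hcut with hc | hc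
          · rw [if_pos (c := z ∈ Sp ∧ k ∈ Hp z)
              ⟨mem_filter.2 ⟨hzB, by linarith, hmid⟩, mem_filter.2 ⟨hkM, by linarith, hc⟩⟩]
            exact le_add_of_nonneg_right (by split_ifs <;> first | exact hf0 z | exact le_rfl)
          · rw [if_pos (c := z ∈ St ∧ k ∈ Ht z)
              ⟨mem_filter.2 ⟨hzB, by linarith [h5 k], hmid⟩, mem_filter.2 ⟨hkM, by linarith, hc⟩⟩]
            exact le_add_of_nonneg_left (by split_ifs <;> first | exact hf0 z | exact le_rfl)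
      _ = G k := by
          rw [sum_add_distrib]
          congr 1 <;>
          · simp only [← sum_filter]
            refine sum_congr ?_ fun _ _ => rfl
            ext z; simp only [mem_filter, Sp, St]; tauto
  have hcard : ∑ k ∈ range M, G k ≤ M * (1 / 2) := by
    have key : ∀ (T : Finset (Γ × O)) (H : Γ × O → Finset ℕ) (r : Γ × O → ℝ),
        (∀ z, H z ⊆ range M) → (∀ z, ((H z).card : ℝ) ≤ M * C / N * r z + 1) →
        ∑ z ∈ T, r z * f z ≤ D →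
        ∑ k ∈ range M, ∑ z ∈ T, (if k ∈ H z then f z else 0) ≤ M * C / N * D + B := by
      intro T H r hH hc hT
      rw [sum_comm]
      calc ∑ z ∈ T, ∑ k ∈ range M, (if k ∈ H z then f z else 0)
          = ∑ z ∈ T, ((H z).card : ℝ) * f z := sum_congr rfl fun z _ => by
            rw [← sum_filter, sum_const, nsmul_eq_mul, filter_mem_eq_inter,
              inter_eq_right.2 (hH z)]
        _ ≤ M * C / N * ∑ z ∈ T, r z * f z + ∑ z ∈ T, f z := by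
            rw [mul_sum, ← sum_add_distrib]
            refine sum_le_sum fun z _ => ?_
            refine (mul_le_mul_of_nonneg_right (hc z) (hf0 z)).trans_eq ?_
            ring
        _ ≤ M * C / N * D + B := add_le_add
            (mul_le_mul_of_nonneg_left hT (by positivity)) (hrow v hv o _)
    have hp := key Sp Hp (fun z => Real.exp (E.pv v z.1 - E.ra z.1))
      (fun z => filter_subset _ _) (fun z => by
        refine (card_grid_le M hNpos hMpos (by positivity)).trans_eq ?_; ring)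
      (hpt v hv o _ fun z hz => (mem_filter.1 hz).2)
    have ht := key St Ht (fun z => Real.exp (E.dv v z.1 - E.pv v z.1 - E.rb z.1))
      (fun z => filter_subset _ _) (fun z => by
        refine (card_grid_le M (N := 5 * N) (by linarith) hMpos (by positivity)).trans ?_
        refine add_le_add ((div_le_div_of_nonneg_left (by positivity) hNpos
          (by linarith : N ≤ 5 * N)).trans_eq ?_) le_rfl
        ring)
      (htb v hv o _ fun z hz => (mem_filter.1 hz).2)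
    simp only [G, sum_add_distrib]
    have h1 : (M : ℝ) * C / N * D * 2 ≤ M * (1 / 4) := by
      have h2 : 2 * C * D / N ≤ 1 / 4 := by rw [div_le_iff₀ hNpos]; linarith
      calc (M : ℝ) * C / N * D * 2 = M * (2 * C * D / N) := by ring
        _ ≤ _ := mul_le_mul_of_nonneg_left h2 (by linarith)
    linarith
  have htot : (M : ℝ) * ∑ y ∈ S, f y ≤ (M : ℝ) * (Co + B / 2) := by
    calc (M : ℝ) * ∑ y ∈ S, f y = ∑ _k ∈ range M, ∑ y ∈ S, f y := by simp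
      _ ≤ ∑ k ∈ range M, (Co + B * G k) := sum_le_sum hone
      _ ≤ M * Co + B * (M * (1 / 2)) := by
          rw [sum_add_distrib, ← mul_sum]
          exact add_le_add (le_of_eq (by simp)) (mul_le_mul_of_nonneg_left hcard hB)
      _ = _ := by ring
  exact le_of_mul_le_mul_left htot (by linarith)

variable (E) in
/-- The recursion closes below every parameter with exit certificates. -/
theorem closed_at {p : ℝ} (he : E.EstOK) (hcnt : E.CountOK) (hsc : E.ScaleOK) (hi : E.InitOK)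
    (hsp : E.SplitOK) (hs : FQ.Sub E.nb p) (hb : E.BranchOK p) : E.ClosedAt p := by
  obtain ⟨C, hC⟩ := he
  have hC0 := hC.nonneg
  obtain ⟨Cb, hCb, hbr⟩ := hb
  obtain ⟨n0, hn0, hn0'⟩ := hcnt C 2 (-1) (-2) 2 (by norm_num)
  obtain ⟨n1, hn1, hn1'⟩ := hcnt C 2 (-1) 1 0 (by norm_num)
  obtain ⟨n2, hn2, hn2'⟩ := hcnt C (-2) 2 1 0 (by norm_num)
  set C₁ := C * Real.exp C with hC₁
  have hC₁0 : 0 ≤ C₁ := by positivity
  set Kc := (Fintype.card O : ℝ) * (Cb * (Cb * (Real.exp (10 + C₁ + 7 * C) * (2 * (n1 + n2))) *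
    (2 * Real.exp (C / 2) + 2))) with hKc
  have hKc0 : 0 ≤ Kc := by positivity
  set ε := min 1 (1 / (8 * C * Kc + 1)) with hεdef
  have hε : 0 < ε := lt_min one_pos (by positivity)
  have hε1 : ε ≤ 1 := min_le_left _ _
  have hεK : 8 * C * Kc * ε ≤ 1 := by
    refine (mul_le_mul_of_nonneg_left (min_le_right _ _) (by positivity)).trans ?_
    rw [mul_one_div, div_le_one (by positivity)]
    linarith
  obtain ⟨N₀, hN₀⟩ := exists_nat_ge (max (C + 1) (-(2 * Real.log ε)))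
  obtain ⟨N₁, hN₁⟩ := hsc (C₁ + 4 * C) (by positivity) ε hε N₀
  set Co := (Fintype.card O : ℝ) *
    (Cb * (Cb * (Real.exp (10 + 4 * C) * (2 * n0) * (N₁ : ℝ) ^ 2) * (1 + ε))) with hCo
  have hCo0 : 0 ≤ Co := by positivity
  refine ⟨2 * Co, fun K q hq hq' => ?_⟩
  have hq0 : 0 ≤ q := by linarith [hs.1]
  have hq1 : q ≤ 1 := hq'.le.trans hs.2.1
  obtain ⟨hbrq, hanc'⟩ := hbr q hq hq'
  have hanc : ∀ (o : O) (y : Γ × O), E.tau q K ((1 : Γ), o) y ≤ Cb * E.anc q y.1 := fun o y => by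
    simpa using hanc' K ((1 : Γ), o) y
  obtain ⟨U, -, hU⟩ := hbrq ε hε
  obtain ⟨N, hN0, hNle, hscale⟩ := hN₁ U (fun g => E.anc q g) fun g => anc_nonneg hq0 hq1 g
  have hNC : C + 1 ≤ (N : ℝ) := ((le_max_left _ _).trans hN₀).trans (Nat.cast_le.2 hN0)
  have hNpos : (0 : ℝ) < N := by linarith
  have hN1 : 1 ≤ N := Nat.cast_pos.1 hNpos
  have hexp : Real.exp (-(N : ℝ) / 2) ≤ ε := by
    rw [← Real.exp_log hε]
    apply Real.exp_le_exp.2
    linarith [((le_max_right _ _).trans hN₀).trans (Nat.cast_le.2 hN0 : (N₀ : ℝ) ≤ N)]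
  set β : ℝ := (N : ℝ)⁻¹ with hβ
  have hβ0 : 0 < β := by positivity
  have hβ1 : β ≤ 1 := inv_le_one_of_one_le₀ (by linarith)
  have hcnt0 : ∀ (y : Γ) (a₀ b₀ : ℝ), ∀ Z : Finset Γ,
      (∀ z ∈ Z, E.Cand C y z ∧ 0 ≤ E.ra z + a₀ ∧ 0 ≤ E.rb z + b₀) →
        ∑ z ∈ Z, Real.exp (-(β * (E.ra z + a₀)) - β / 2 * (E.rb z + b₀)) ≤
          2 * n0 * (N : ℝ) ^ 2 := by
    intro y a₀ b₀ Z hZ
    have hgf : ∀ z, 2 * E.m z + -1 * E.m2 z = E.ra z := fun z => by rw [ra]; ring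
    have hgt : ∀ z, -2 * E.m z + 2 * E.m2 z = E.rb z := fun z => by rw [rb]; ring
    have h := hn0' y a₀ b₀ β (β / 2) hβ0 hβ1 (by positivity) (by linarith) Z
    simp only [hgf, hgt] at h
    refine (h hZ).trans_eq ?_
    rw [hβ]; field_simp
  have hnum : ∀ n : ℝ, 0 ≤ n → n ≤ n1 + n2 → n / (1 / 2 * β) ≤ 2 * (n1 + n2) * N := by
    intro n hn hle
    rw [div_le_iff₀ (by positivity)]
    have : β * N = 1 := by rw [hβ]; exact inv_mul_cancel₀ hNpos.ne'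
    nlinarith
  have hcnt1 : ∀ (y : Γ) (a₀ b₀ : ℝ), ∀ Z : Finset Γ,
      (∀ z ∈ Z, E.Cand C y z ∧ 0 ≤ 2 * E.m z + -1 * E.m2 z + a₀ ∧ 0 ≤ E.m z + b₀) →
        ∑ z ∈ Z, Real.exp (-((1 / 2) * (2 * E.m z + -1 * E.m2 z + a₀)) -
          β * (E.m z + b₀)) ≤ 2 * (n1 + n2) * N := by
    intro y a₀ b₀ Z hZ
    have h := hn1' y a₀ b₀ (1 / 2) β (by norm_num) (by norm_num) hβ0 hβ1 Z
    simp only [one_mul, zero_mul, add_zero] at h
    exact (h hZ).trans (hnum n1 hn1 (by linarith))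
  have hcnt2 : ∀ (y : Γ) (a₀ b₀ : ℝ), ∀ Z : Finset Γ,
      (∀ z ∈ Z, E.Cand C y z ∧ 0 ≤ -2 * E.m z + 2 * E.m2 z + a₀ ∧ 0 ≤ E.m z + b₀) →
        ∑ z ∈ Z, Real.exp (-((1 / 2) * (-2 * E.m z + 2 * E.m2 z + a₀)) -
          β * (E.m z + b₀)) ≤ 2 * (n1 + n2) * N := by
    intro y a₀ b₀ Z hZ
    have h := hn2' y a₀ b₀ (1 / 2) β (by norm_num) (by norm_num) hβ0 hβ1 Z
    simp only [one_mul, zero_mul, add_zero] at h
    exact (h hZ).trans (hnum n2 hn2 (by linarith))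
  refine ⟨β, hβ0.le, ?_⟩
  have hout : ∀ v, IsUnit4 v → ∀ (o : O) (S : Finset (Γ × O)),
      (∀ y ∈ S, E.dv v y.1 ≤ 10 * (N : ℝ)) →
      ∑ y ∈ S, E.tau q K ((1 : Γ), o) y * E.Wt β v y.1 ≤ Co := by
    intro v hv o S hS
    have h1 := outside_sum_le (E := E) (ε := ε) hC hN1 (by linarith : 0 ≤ 2 * n0) hcnt0 hq0 hq1 hU
      hv (S.image Prod.fst) fun g hg => by
        obtain ⟨y, hy, rfl⟩ := mem_image.1 hg
        exact hS y hy
    have hNN : (N : ℝ) ≤ N₁ := Nat.cast_le.2 hNle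
    have h2 := vertex_sum_le (E := E) (o := o) hCb hq0 hq1 hanc S (fun _ => 1)
      (fun _ => zero_le_one) (B := Cb * (Real.exp (10 + 4 * C) * (2 * n0) * (N₁ : ℝ) ^ 2) * (1 + ε))
      (by
        simp only [one_mul]
        refine h1.trans ?_
        gcongr)
    simpa [hCo] using h2
  have step : ∀ B, 0 ≤ B → E.RowBound q β K B → E.RowBound q β K (Co + B / 2) := fun B hB hrow =>
    row_step (D := Kc * N * ε) hC le_rfl hNC hq0 hq1 hsp hB hrow (by nlinarith) hout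
      (fun v hv o S hS => by
        obtain ⟨⟨w, hw, hwb⟩, -⟩ := hscale v hv
        exact (point_side_le hC hC₁0 hN1 (add_nonneg hn1 hn2) hCb hexp hε1 hq0 hq1 hcnt1 hU hv hw
          hwb hanc o S hS).trans_eq (by rw [hKc]; ring))
      fun v hv o S hS => by
        obtain ⟨-, w, P, hw, hP, hwb⟩ := hscale v hv
        exact (tube_side_le hC hC₁0 hN1 (add_nonneg hn1 hn2) hCb hexp hε1 hq0 hq1 hcnt2 hU hv hw
          hP hwb hanc o S hS).trans_eq (by rw [hKc]; ring)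
  obtain ⟨B₀, hB₀, hrow₀⟩ := hi q β K hq0 hq1 hβ0.le
  have iter : ∀ n : ℕ, E.RowBound q β K (2 * Co + B₀ / 2 ^ n) := by
    intro n
    induction n with
    | zero =>
      intro x hx o S
      linarith [hrow₀ x hx o S]
    | succ n ih =>
      intro x hx o S
      refine (step _ (by positivity) ih x hx o S).trans_eq ?_
      rw [pow_succ]; ring
  intro x hx o S
  refine le_of_forall_pos_le_add fun e he' => ?_
  obtain ⟨n, hn⟩ := pow_unbounded_of_one_lt (B₀ / e) (one_lt_two (α := ℝ))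
  refine (iter n x hx o S).trans (add_le_add le_rfl ?_)
  rw [div_lt_iff₀ he'] at hn
  rw [div_le_iff₀ (by positivity)]
  linarith

end Env

end Vale.Agent.P165.SP
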