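import Mathlib

/-!
# One good scale for point cells and for Lagrangian tubes at once

Three pair potentials, each decreasing in the depth with values in `[0, 1]`: pairs in a common point
cell, pairs whose tubes meet, and pairs in a common cell of a plane. At a bad scale one of them drops
by a fixed amount over a range of depths, and the ranges of different scales are disjoint.

`A i v y` says that `y` lies in the upper set of the tube at `v` at scale `i`, `Low i w y` that `w`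
does not cut it out, and `R i w y` that `y` is deep in the tube at `w`. The two geometric hypotheses
are `star`, that the witnesses of two points apart and of a third meeting both give one direction, and
`plane`, that a shallow point and a deep one fix the plane.
-/

namespace Vale.Agent.P165.SP.Scale

open Finset

variable {Y W Q : Type*}

/-- Some common cell of depth `t`. -/
def Pair (P : ℝ → W → Y → Prop) (t : ℝ) (y y' : Y) : Prop := ∃ w, P t w y ∧ P t w y'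

open Classical in
/-- The mass of the pairs in a common cell of depth `t`. -/
noncomputable def pot (U : Finset Y) (m : Y → ℝ) (P : ℝ → W → Y → Prop) (t : ℝ) : ℝ :=
  ∑ y ∈ U, ∑ y' ∈ U, if Pair P t y y' then m y * m y' else 0

variable {U : Finset Y} {m : Y → ℝ}

theorem pot_nonneg (hm : ∀ y ∈ U, 0 ≤ m y) (P : ℝ → W → Y → Prop) (t : ℝ) : 0 ≤ pot U m P t :=
  sum_nonneg fun y hy => sum_nonneg fun y' hy' => by
    split_ifs
    · exact mul_nonneg (hm y hy) (hm y' hy')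
    · exact le_rfl

theorem pot_le_one (hm : ∀ y ∈ U, 0 ≤ m y) (hm1 : ∑ y ∈ U, m y ≤ 1) (P : ℝ → W → Y → Prop)
    (t : ℝ) : pot U m P t ≤ 1 := by
  refine (sum_le_sum fun y hy => sum_le_sum fun y' hy' => ?_).trans
    ((sum_mul_sum U U m m).symm.trans_le (mul_le_one₀ hm1 (sum_nonneg hm) hm1))
  split_ifs
  · exact le_rfl
  · exact mul_nonneg (hm y hy) (hm y' hy')

theorem pot_anti (hm : ∀ y ∈ U, 0 ≤ m y) {P : ℝ → W → Y → Prop}
    (mono : ∀ ⦃s t : ℝ⦄ ⦃w : W⦄ ⦃y : Y⦄, s ≤ t → P t w y → P s w y) {s t : ℝ} (h : s ≤ t) :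
    pot U m P t ≤ pot U m P s := by
  refine sum_le_sum fun y hy => sum_le_sum fun y' hy' => ?_
  by_cases hw : Pair P t y y'
  · obtain ⟨w, h1, h2⟩ := hw
    rw [if_pos ⟨w, h1, h2⟩, if_pos ⟨w, mono h h1, mono h h2⟩]
  · rw [if_neg hw]; split_ifs
    · exact mul_nonneg (hm y hy) (hm y' hy')
    · exact le_rfl

open Classical in
/-- Pairs split between two depths make the potential drop. -/
theorem pot_drop (hm : ∀ y ∈ U, 0 ≤ m y) {P : ℝ → W → Y → Prop}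
    (mono : ∀ ⦃s t : ℝ⦄ ⦃w : W⦄ ⦃y : Y⦄, s ≤ t → P t w y → P s w y) {s t : ℝ} (h : s ≤ t)
    (S : Finset Y) (hS : S ⊆ U) {η : ℝ}
    (hη : ∀ y ∈ S, η ≤ ∑ y' ∈ U.filter (fun y' => Pair P s y y' ∧ ¬ Pair P t y y'), m y') :
    (∑ y ∈ S, m y) * η ≤ pot U m P s - pot U m P t := by
  have hsplit : ∀ y ∈ U, ∀ y' ∈ U,
      (if Pair P s y y' ∧ ¬ Pair P t y y' then m y * m y' else 0) =
        (if Pair P s y y' then m y * m y' else 0) - if Pair P t y y' then m y * m y' else 0 := by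
    intro y _ y' _
    by_cases ht : Pair P t y y'
    · obtain ⟨w, h1, h2⟩ := ht
      have ht' : Pair P t y y' := ⟨w, h1, h2⟩
      rw [if_neg (fun h => h.2 ht'), if_pos ht', if_pos ⟨w, mono h h1, mono h h2⟩, sub_self]
    · rw [if_neg ht, sub_zero]
      exact if_congr (and_iff_left ht) rfl rfl
  have hpot : pot U m P s - pot U m P t =
      ∑ y ∈ U, m y * ∑ y' ∈ U.filter (fun y' => Pair P s y y' ∧ ¬ Pair P t y y'), m y' := by
    rw [pot, pot, ← sum_sub_distrib]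
    refine sum_congr rfl fun y hy => ?_
    rw [← sum_sub_distrib, mul_sum, sum_filter]
    exact sum_congr rfl fun y' hy' => (hsplit y hy y' hy').symm
  rw [hpot, sum_mul]
  refine (sum_le_sum fun y hy => mul_le_mul_of_nonneg_left (hη y hy) (hm y (hS hy))).trans
    (sum_le_sum_of_subset_of_nonneg hS fun y hy _ =>
      mul_nonneg (hm y hy) (sum_nonneg fun y' hy' => hm y' (mem_filter.1 hy').1))

open Classical in
/-- A bad scale for the point cells drops their potential. -/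
theorem cell_drop (hm : ∀ y ∈ U, 0 ≤ m y) {P : ℝ → W → Y → Prop}
    (mono : ∀ ⦃s t : ℝ⦄ ⦃w : W⦄ ⦃y : Y⦄, s ≤ t → P t w y → P s w y) {c : ℝ}
    (link : ∀ ⦃t : ℝ⦄ ⦃w w' : W⦄ ⦃y y' : Y⦄,
      P (t + c) w y → P (t + c) w' y → P (t + c) w' y' → P t w y')
    {lo hi top : ℝ} (h1 : lo ≤ top) (h2 : hi + c ≤ top) {ε : ℝ} (hε : 0 ≤ ε) {v : W}
    (hv : ∀ w, ε < ∑ y ∈ U.filter (fun y => P lo v y ∧ ¬ P hi w y), m y) :
    ε * ε ≤ pot U m P lo - pot U m P top := by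
  have hw : ∀ y, ∃ w, (∃ u, P (hi + c) u y) → P (hi + c) w y := fun y => by
    by_cases h : ∃ u, P (hi + c) u y
    · exact ⟨h.choose, fun _ => h.choose_spec⟩
    · exact ⟨v, fun h' => absurd h' h⟩
  choose w hw using hw
  set S := U.filter (fun y => P lo v y) with hS
  have hmass : ε ≤ ∑ y ∈ S, m y := (hv v).le.trans <|
    sum_le_sum_of_subset_of_nonneg
      (fun y hy => mem_filter.2 ⟨(mem_filter.1 hy).1, (mem_filter.1 hy).2.1⟩)
      fun y hy _ => hm y (mem_filter.1 hy).1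
  refine (mul_le_mul_of_nonneg_right hmass hε).trans
    (pot_drop hm mono h1 S (filter_subset _ _) fun y hy => (hv (w y)).le.trans ?_)
  refine sum_le_sum_of_subset_of_nonneg (fun y' hy' => ?_) fun y' hy' _ => hm y' (mem_filter.1 hy').1
  obtain ⟨hU, h3, h4⟩ := mem_filter.1 hy'
  refine mem_filter.2 ⟨hU, ⟨v, (mem_filter.1 hy).2, h3⟩, ?_⟩
  rintro ⟨u, hu, hu'⟩
  exact h4 (link (hw y ⟨u, mono h2 hu⟩) (mono h2 hu) (mono h2 hu'))

open Classical in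
/-- A bad scale for the tubes drops the meeting potential or that of the planes. -/
theorem tube_drop [Nonempty Q] (hm : ∀ y ∈ U, 0 ≤ m y) {D : ℝ → W → Y → Prop}
    {Cp : ℝ → Q → Y → Prop} {A : W → Y → Prop} {Low R : W → Y → Prop}
    (monoD : ∀ ⦃s t : ℝ⦄ ⦃w : W⦄ ⦃y : Y⦄, s ≤ t → D t w y → D s w y)
    (monoC : ∀ ⦃s t : ℝ⦄ ⦃q : Q⦄ ⦃y : Y⦄, s ≤ t → Cp t q y → Cp s q y) {c : ℝ}
    (linkC : ∀ ⦃t : ℝ⦄ ⦃q q' : Q⦄ ⦃y y' : Y⦄,
      Cp (t + c) q y → Cp (t + c) q' y → Cp (t + c) q' y' → Cp t q y')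
    {lo hi top : ℝ} (h1 : lo ≤ top) (h2 : hi + c ≤ top) {v : W}
    (hA : ∀ y, A v y → D lo v y)
    (star : ∀ y₁ y₂, A v y₁ → A v y₂ → Pair D top y₁ y₂ → ¬ Pair Cp (hi + c) y₁ y₂ →
      ∃ w, ∀ y', A v y' → Pair D top y₁ y' → Pair D top y₂ y' → R w y')
    (plane : ∀ w y y', A v y → A v y' → Low w y → Low w y' → R w y → R w y' → Pair Cp lo y y')
    {ε : ℝ} (hε : 0 < ε)
    (hv : ∀ w q, ε < ∑ y ∈ U.filter (fun y => A v y ∧ Low w y ∧ ¬ Cp hi q y), m y) :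
    ε ^ 2 / 16 ≤ (pot U m D lo - pot U m D top) + (pot U m Cp lo - pot U m Cp top) := by
  obtain ⟨q₀⟩ := ‹Nonempty Q›
  have hq : ∀ y, ∃ q, (∃ u, Cp (hi + c) u y) → Cp (hi + c) q y := fun y => by
    by_cases h : ∃ u, Cp (hi + c) u y
    · exact ⟨h.choose, fun _ => h.choose_spec⟩
    · exact ⟨q₀, fun h' => absurd h' h⟩
  choose q hq using hq
  have hapart : ∀ y y', ¬ Cp hi (q y) y' → ¬ Pair Cp (hi + c) y y' := by
    rintro y y' h ⟨u, hu, hu'⟩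
    exact h (linkC (hq y ⟨u, hu⟩) hu hu')
  have hD : 0 ≤ pot U m D lo - pot U m D top := sub_nonneg.2 (pot_anti hm monoD h1)
  have hC : 0 ≤ pot U m Cp lo - pot U m Cp top := sub_nonneg.2 (pot_anti hm monoC h1)
  set δ := ε / 4 with hδ
  set Y₀ := fun w q => U.filter (fun y => A v y ∧ Low w y ∧ ¬ Cp hi q y) with hY₀
  set far := fun y => U.filter (fun y' => A v y' ∧ ¬ Pair D top y y') with hfar
  set Bad := U.filter (fun y => A v y ∧ δ < ∑ y' ∈ far y, m y') with hBad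
  by_cases hb : δ < ∑ y ∈ Bad, m y
  · have h := pot_drop hm monoD h1 Bad (filter_subset _ _) (η := δ) fun y hy => ?_
    · nlinarith
    obtain ⟨-, hAy, hy'⟩ := mem_filter.1 hy
    refine hy'.le.trans (sum_le_sum_of_subset_of_nonneg (fun y' hy'' => ?_)
      fun y' hy'' _ => hm y' (mem_filter.1 hy'').1)
    obtain ⟨hU, hAy', hn⟩ := mem_filter.1 hy''
    exact mem_filter.2 ⟨hU, ⟨v, hA y hAy, hA y' hAy'⟩, hn⟩
  rw [not_lt] at hb
  have hnn : ∀ (T : Finset Y), T ⊆ U → ∀ y ∈ T, 0 ≤ m y := fun T hT y hy => hm y (hT hy)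
  have hrem : ∀ (S T : Finset Y), S ⊆ U → T ⊆ U →
      (∑ y ∈ S, m y) - ∑ y ∈ T, m y ≤ ∑ y ∈ S \ T, m y := fun S T hS hT => by
    have := sum_sdiff (f := m) (inter_subset_left (s₁ := S) (s₂ := T))
    rw [sdiff_inter_self_left] at this
    have : ∑ y ∈ S ∩ T, m y ≤ ∑ y ∈ T, m y :=
      sum_le_sum_of_subset_of_nonneg inter_subset_right fun y hy _ => hnn T hT y hy
    linarith
  have hYU : ∀ w q, Y₀ w q ⊆ U := fun w q => filter_subset _ _
  have hfU : ∀ y, far y ⊆ U := fun y => filter_subset _ _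
  obtain ⟨y₁, hy₁⟩ : (Y₀ v q₀ \ Bad).Nonempty := nonempty_of_sum_ne_zero (f := m) (ne_of_gt (by
    linarith [hv v q₀, hrem _ Bad (hYU v q₀) (filter_subset _ _)]))
  obtain ⟨hy₁Y, hy₁B⟩ := mem_sdiff.1 hy₁
  obtain ⟨hy₁U, hy₁A, -⟩ := mem_filter.1 hy₁Y
  have hy₁far : ∑ y' ∈ far y₁, m y' ≤ δ := by
    by_contra h
    exact hy₁B (mem_filter.2 ⟨hy₁U, hy₁A, not_le.1 h⟩)
  obtain ⟨y₂, hy₂⟩ : ((Y₀ v (q y₁) \ Bad) \ far y₁).Nonempty :=
    nonempty_of_sum_ne_zero (f := m) (ne_of_gt (by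
      linarith [hv v (q y₁), hrem _ Bad (hYU v (q y₁)) (filter_subset _ _),
        hrem _ (far y₁) (sdiff_subset.trans (hYU v (q y₁)) : Y₀ v (q y₁) \ Bad ⊆ U) (hfU y₁)]))
  obtain ⟨hy₂', hy₂f⟩ := mem_sdiff.1 hy₂
  obtain ⟨hy₂Y, hy₂B⟩ := mem_sdiff.1 hy₂'
  obtain ⟨hy₂U, hy₂A, -, hy₂C⟩ := mem_filter.1 hy₂Y
  have hy₂far : ∑ y' ∈ far y₂, m y' ≤ δ := by
    by_contra h
    exact hy₂B (mem_filter.2 ⟨hy₂U, hy₂A, not_le.1 h⟩)
  have h12 : Pair D top y₁ y₂ := by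
    by_contra h
    exact hy₂f (mem_filter.2 ⟨hy₂U, hy₂A, h⟩)
  obtain ⟨w₀, hw₀⟩ := star y₁ y₂ hy₁A hy₂A h12 (hapart _ _ hy₂C)
  have hdeep : ∀ q', 2 * δ ≤ ∑ y ∈ (Y₀ w₀ q').filter (fun y => R w₀ y), m y := by
    intro q'
    have hsub : (Y₀ w₀ q' \ far y₁) \ far y₂ ⊆ (Y₀ w₀ q').filter (fun y => R w₀ y) := by
      intro y hy
      obtain ⟨hy', hf2⟩ := mem_sdiff.1 hy
      obtain ⟨hyY, hf1⟩ := mem_sdiff.1 hy'
      obtain ⟨hyU, hyA, -⟩ := mem_filter.1 hyY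
      refine mem_filter.2 ⟨hyY, hw₀ y hyA ?_ ?_⟩
      · by_contra h; exact hf1 (mem_filter.2 ⟨hyU, hyA, h⟩)
      · by_contra h; exact hf2 (mem_filter.2 ⟨hyU, hyA, h⟩)
    refine le_trans ?_ (sum_le_sum_of_subset_of_nonneg hsub
      fun y hy _ => hm y (hYU _ _ (mem_filter.1 hy).1))
    linarith [hv w₀ q', hrem _ (far y₁) (hYU w₀ q') (hfU y₁),
      hrem _ (far y₂) (sdiff_subset.trans (hYU w₀ q') : Y₀ w₀ q' \ far y₁ ⊆ U) (hfU y₂)]
  set S := (Y₀ w₀ q₀).filter (fun y => R w₀ y) with hS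
  have h := pot_drop hm monoC h1 S ((filter_subset _ _).trans (hYU _ _)) (η := 2 * δ) fun y hy => ?_
  · have := mul_le_mul_of_nonneg_right (hdeep q₀) (by linarith : 0 ≤ 2 * δ)
    nlinarith
  obtain ⟨hyY, hyR⟩ := mem_filter.1 hy
  obtain ⟨-, hyA, hyL, -⟩ := mem_filter.1 hyY
  refine (hdeep (q y)).trans (sum_le_sum_of_subset_of_nonneg (fun y' hy' => ?_)
    fun y' hy' _ => hm y' (mem_filter.1 hy').1)
  obtain ⟨hy'Y, hy'R⟩ := mem_filter.1 hy'
  obtain ⟨hy'U, hy'A, hy'L, hy'C⟩ := mem_filter.1 hy'Y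
  refine mem_filter.2 ⟨hy'U, plane w₀ y y' hyA hy'A hyL hy'L hyR hy'R, fun h => ?_⟩
  obtain ⟨u, hu, hu'⟩ := h
  exact hapart _ _ hy'C ⟨u, monoC h2 hu, monoC h2 hu'⟩

open Classical in
/-- One scale that is good for the point cells and for the tubes. -/
theorem exists_good_scale [Nonempty Q] (U : Finset Y) (m : Y → ℝ) (hm : ∀ y ∈ U, 0 ≤ m y)
    (hm1 : ∑ y ∈ U, m y ≤ 1) (P D : ℝ → W → Y → Prop) (Cp : ℝ → Q → Y → Prop)
    (A Low R : ℕ → W → Y → Prop)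
    (monoP : ∀ ⦃s t : ℝ⦄ ⦃w : W⦄ ⦃y : Y⦄, s ≤ t → P t w y → P s w y)
    (monoD : ∀ ⦃s t : ℝ⦄ ⦃w : W⦄ ⦃y : Y⦄, s ≤ t → D t w y → D s w y)
    (monoC : ∀ ⦃s t : ℝ⦄ ⦃q : Q⦄ ⦃y : Y⦄, s ≤ t → Cp t q y → Cp s q y) {c : ℝ}
    (linkP : ∀ ⦃t : ℝ⦄ ⦃w w' : W⦄ ⦃y y' : Y⦄,
      P (t + c) w y → P (t + c) w' y → P (t + c) w' y' → P t w y')
    (linkC : ∀ ⦃t : ℝ⦄ ⦃q q' : Q⦄ ⦃y y' : Y⦄,
      Cp (t + c) q y → Cp (t + c) q' y → Cp (t + c) q' y' → Cp t q y')
    (lo top hiP hiC : ℕ → ℝ) (hlt : ∀ i, lo i ≤ top i) (hsep : ∀ i, top i ≤ lo (i + 1))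
    (hP : ∀ i, hiP i + c ≤ top i) (hC : ∀ i, hiC i + c ≤ top i)
    (hA : ∀ i v y, A i v y → D (lo i) v y)
    (star : ∀ i v y₁ y₂, A i v y₁ → A i v y₂ → Pair D (top i) y₁ y₂ →
      ¬ Pair Cp (hiC i + c) y₁ y₂ →
      ∃ w, ∀ y', A i v y' → Pair D (top i) y₁ y' → Pair D (top i) y₂ y' → R i w y')
    (plane : ∀ i v w y y', A i v y → A i v y' → Low i w y → Low i w y' → R i w y → R i w y' →
      Pair Cp (lo i) y y')
    {ε : ℝ} (hε : 0 < ε) {J : ℕ} (hJ : 48 < (J : ℝ) * ε ^ 2) :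
    ∃ i < J, (∀ v : W, ∃ w : W,
        ∑ y ∈ U.filter (fun y => P (lo i) v y ∧ ¬ P (hiP i) w y), m y ≤ ε) ∧
      ∀ v : W, ∃ (w : W) (q : Q),
        ∑ y ∈ U.filter (fun y => A i v y ∧ Low i w y ∧ ¬ Cp (hiC i) q y), m y ≤ ε := by
  by_contra hbad
  push Not at hbad
  set Φ : ℝ → ℝ := fun t => pot U m P t + pot U m D t + pot U m Cp t with hΦ
  have hanti : ∀ s t, s ≤ t → Φ t ≤ Φ s := fun s t h =>
    add_le_add (add_le_add (pot_anti hm monoP h) (pot_anti hm monoD h)) (pot_anti hm monoC h)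
  have hdrop : ∀ i < J, ε ^ 2 / 16 ≤ Φ (lo i) - Φ (top i) := by
    intro i hi
    have := pot_anti (U := U) hm monoP (hlt i)
    have := pot_anti (U := U) hm monoD (hlt i)
    have := pot_anti (U := U) hm monoC (hlt i)
    by_cases h : ∀ v : W, ∃ w : W,
        ∑ y ∈ U.filter (fun y => P (lo i) v y ∧ ¬ P (hiP i) w y), m y ≤ ε
    · obtain ⟨v, hv⟩ := hbad i hi h
      have := tube_drop hm monoD monoC linkC (hlt i) (hC i) (hA i v) (star i v) (plane i v) hε hv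
      simp only [hΦ]; linarith
    · push Not at h
      obtain ⟨v, hv⟩ := h
      have := cell_drop hm monoP linkP (hlt i) (hP i) hε.le hv
      simp only [hΦ]; nlinarith
  have htel : ∀ k, ∑ i ∈ range k, (Φ (lo i) - Φ (top i)) ≤ Φ (lo 0) - Φ (lo k) := by
    intro k
    induction k with
    | zero => simp
    | succ k ih =>
      rw [sum_range_succ]
      linarith [hanti _ _ (hsep k)]
  have h1 : (J : ℝ) * (ε ^ 2 / 16) ≤ ∑ i ∈ range J, (Φ (lo i) - Φ (top i)) := by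
    rw [← nsmul_eq_mul, ← card_range J, ← sum_const]
    rw [card_range]
    exact sum_le_sum fun i hi => hdrop i (mem_range.1 hi)
  have h2 : Φ (lo 0) ≤ 3 := by
    linarith [pot_le_one hm hm1 P (lo 0), pot_le_one hm hm1 D (lo 0), pot_le_one hm hm1 Cp (lo 0)]
  have h3 : 0 ≤ Φ (lo J) :=
    add_nonneg (add_nonneg (pot_nonneg hm _ _) (pot_nonneg hm _ _)) (pot_nonneg hm _ _)
  linarith [htel J]

end Vale.Agent.P165.SP.Scale
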