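import Vale.Agent.P165.SP.Rep
import Vale.Agent.P165.SP.Scale

/-!
# One good scale from the estimates and the incidences
-/

namespace Vale.Agent.P165.SP

open Finset FF Matrix
open scoped Matrix.Norms.Frobenius

theorem isUnit4_single : IsUnit4 (Pi.single 0 1) := by simp [IsUnit4]

theorem exists_isUnitLag : ∃ P, IsUnitLag P := by
  refine ⟨(√2)⁻¹ • wedge (Pi.single 0 1) (Pi.single 1 1), ?_, ?_⟩
  · have : wedge (Pi.single 0 1) (Pi.single 1 1) ⬝ᵥ wedge (Pi.single 0 1) (Pi.single 1 1) = 2 := by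
      simp [wedge, dotProduct, Fintype.sum_prod_type, Fin.sum_univ_four]
      norm_num
    rw [smul_dotProduct, dotProduct_smul, this, smul_eq_mul, smul_eq_mul, ← mul_assoc,
      ← mul_inv, Real.mul_self_sqrt (by norm_num)]
    norm_num
  · rw [mulVec_smul, lag, rep2_wedge _ (by simp [J4, Matrix.mulVec, dotProduct, Fin.sum_univ_four]),
      one_mulVec, one_mulVec]

namespace Env

variable {Γ O ι : Type} [Group Γ] [Fintype ι] (E : Env Γ O ι)

open Classical in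
/-- One scale is good for the point cells and for the tubes. -/
theorem scale_ok (he : E.EstOK) (hg : E.GeoOK) : E.ScaleOK := by
  obtain ⟨Ce, hE⟩ := he
  obtain ⟨Cg, hG⟩ := hg
  intro A hA ε hε N₀
  have hCe := hE.nonneg
  have hCg := hG.nonneg
  obtain ⟨D, hD⟩ := exists_nat_ge (20 * (A + Ce + Cg + 1))
  obtain ⟨J, hJ⟩ := exists_nat_gt (48 / ε ^ 2)
  let Ns : ℕ → ℕ := fun i => Nat.rec (max N₀ D) (fun _ n => 300 * n + 2 * D) i
  have hstep : ∀ i, Ns i ≤ Ns (i + 1) := fun i => by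
    show Ns i ≤ 300 * Ns i + 2 * D; omega
  have hmon : Monotone Ns := monotone_nat_of_le_succ hstep
  refine ⟨Ns J, fun U μ hμ => ?_⟩
  obtain ⟨P₀, hP₀⟩ := exists_isUnitLag
  set S := ∑ y ∈ U, μ y with hS
  have hS0 : 0 ≤ S := sum_nonneg fun y _ => hμ y
  rcases eq_or_lt_of_le hS0 with hS1 | hS1
  · have h0 : ∀ U' ⊆ U, ∑ y ∈ U', μ y ≤ ε * ∑ y ∈ U, μ y := fun U' hU' => by
      refine (sum_le_sum_of_subset_of_nonneg hU' fun y _ _ => hμ y).trans ?_
      rw [← hS, ← hS1, mul_zero]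
    exact ⟨Ns 0, le_max_left _ _, hmon (Nat.zero_le J), fun v hv =>
      ⟨⟨v, hv, fun U' hU' _ => h0 U' hU'⟩, v, P₀, hv, hP₀, fun U' hU' _ => h0 U' hU'⟩⟩
  have hne : Nonempty {P : I2 → ℝ // IsUnitLag P} := ⟨⟨P₀, hP₀⟩⟩
  have hsum : ∑ y ∈ U, μ y / S ≤ 1 := by rw [← sum_div, ← hS, div_self hS1.ne']
  have hJ' : 48 < (J : ℝ) * ε ^ 2 := by rwa [div_lt_iff₀ (by positivity)] at hJ
  let N : ℕ → ℝ := fun i => ((Nat.cast (Ns i)) : ℝ)
  have hND : ∀ i, (D : ℝ) ≤ N i := fun i =>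
    Nat.cast_le.2 ((le_max_right N₀ D).trans (hmon (Nat.zero_le i)))
  let top : ℕ → ℝ := fun i => 300 * N i + D
  let hiC : ℕ → ℝ := fun i => 11 * N i + A + 1
  let k : ℕ → ℝ := fun i => hiC i + Cg + Cg
  let depth : ℕ → ℝ := fun i => (top i - k i) / 2 - Ce - Cg
  obtain ⟨i, hiJ, hgP, hgT⟩ := Scale.exists_good_scale U (fun y => μ y / S)
    (fun y _ => div_nonneg (hμ y) hS0) hsum
    (fun t (w : {v : Fin 4 → ℝ // IsUnit4 v}) y => t ≤ E.pv w.1 y)
    (fun t w y => t ≤ E.dv w.1 y)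
    (fun t (q : {P : I2 → ℝ // IsUnitLag P}) y => t ≤ E.cP q.1 y)
    (fun i v y => 5 * N i - A ≤ E.dv v.1 y ∧ E.dv v.1 y ≤ 10 * N i + A ∧
      E.pv v.1 y ≤ 2 * N i + A)
    (fun i w y => E.dv w.1 y - E.pv w.1 y ≤ 11 * N i + A)
    (fun i w y => depth i ≤ E.dv w.1 y)
    (fun _ _ _ _ h h' => h.trans h') (fun _ _ _ _ h h' => h.trans h')
    (fun _ _ _ _ h h' => h.trans h') (c := Cg)
    (fun t w w' y y' h1 h2 h3 => by
      linarith [hG.close_p _ _ w.2 w'.2 y y' (t + Cg) h1 h2 h3])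
    (fun t q q' y y' h1 h2 h3 => by
      linarith [hG.close_c _ _ q.2 q'.2 y y' (t + Cg) h1 h2 h3])
    (fun i => N i - A) top (fun i => 3 * N i + A + 1) hiC
    (fun i => by simp only [top]; linarith [hND i])
    (fun i => by
      show 300 * N i + D ≤ ((300 * Ns i + 2 * D : ℕ) : ℝ) - A
      simp only [N]; push_cast; linarith)
    (fun i => by simp only [top]; linarith [hND i])
    (fun i => by simp only [top, hiC]; linarith [hND i])
    (fun i v y h => by linarith [h.1, hND i])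
    (fun i v y₁ y₂ _ _ hmeet hfar => by
      obtain ⟨w₀, h01, h02⟩ := hmeet
      refine ⟨w₀, fun y' _ h1 h2 => ?_⟩
      obtain ⟨w₁, h11, h1'⟩ := h1
      obtain ⟨w₂, h22, h2'⟩ := h2
      have hk : k i + Ce ≤ top i := by simp only [k, hiC, top]; linarith [hND i]
      by_cases hb1 : E.rb y₁ < k i
      · have a0 := (hE.cell_d _ w₀.2 y₁).2
        have a1 := (hE.cell_d _ w₁.2 y₁).2
        have := hG.close_d _ _ w₀.2 w₁.2 y₁ y' (top i - k i - Ce) (by linarith) (by linarith)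
          (by linarith [hND i, show k i = 11 * N i + A + 1 + Cg + Cg from rfl])
        show depth i ≤ E.dv w₀.1 y'
        simp only [depth]
        linarith
      by_cases hb2 : E.rb y₂ < k i
      · have a0 := (hE.cell_d _ w₀.2 y₂).2
        have a1 := (hE.cell_d _ w₂.2 y₂).2
        have := hG.close_d _ _ w₀.2 w₂.2 y₂ y' (top i - k i - Ce) (by linarith) (by linarith)
          (by linarith [hND i, show k i = 11 * N i + A + 1 + Cg + Cg from rfl])
        show depth i ≤ E.dv w₀.1 y'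
        simp only [depth]
        linarith
      show depth i ≤ E.dv w₀.1 y'
      rcases hG.tri _ _ _ w₀.2 w₁.2 w₂.2 y₁ y₂ y' (top i) (k i) (not_lt.1 hb1) (not_lt.1 hb2)
        h01 h11 h02 h22 h1' h2' with ⟨P, hP, hP1, hP2⟩ | h
      · exact absurd ⟨⟨P, hP⟩, by simp only [k] at hP1; linarith,
          by simp only [k] at hP2; linarith⟩ hfar
      · simp only [depth]; linarith)
    (fun i v w y y' hy hy' hw hw' hR hR' => by
      simp only [depth, top, k, hiC] at hR hR'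
      have := hND i
      have := (hE.cell_d _ v.2 y).2
      have := (hE.cell_d _ v.2 y').2
      obtain ⟨P, hP, hP1, hP2⟩ := hG.plane _ _ v.2 w.2 y y' (5 * N i - A - Ce) (2 * N i + A)
        hy.2.2 (by linarith) (by linarith [hy.1]) (by linarith) (by linarith [hy'.1]) (by linarith)
        (by linarith [hy.1, hy.2.2]) (by linarith [hy'.1, hy'.2.2])
      exact ⟨⟨P, hP⟩, (by linarith : N i - A ≤ E.cP P y), (by linarith : N i - A ≤ E.cP P y')⟩)
    hε hJ'
  refine ⟨Ns i, (le_max_left _ _).trans (hmon (Nat.zero_le i)), hmon hiJ.le, fun v hv => ?_⟩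
  have key : ∀ (T : Finset Γ), (∑ y ∈ T, μ y / S ≤ ε) → ∀ U' ⊆ T, ∑ y ∈ U', μ y ≤ ε * S :=
    fun T hT U' hU' => by
      refine (sum_le_sum_of_subset_of_nonneg hU' fun y _ _ => hμ y).trans ?_
      rwa [← sum_div, div_le_iff₀ hS1] at hT
  constructor
  · obtain ⟨⟨w, hw⟩, hsw⟩ := hgP ⟨v, hv⟩
    refine ⟨w, hw, fun U' hU' hc => key _ hsw U' fun y hy => ?_⟩
    simp only [mem_filter]
    refine ⟨hU' hy, (hc y hy).1, ?_⟩
    intro h
    linarith [(hc y hy).2, show N i = ((Nat.cast (Ns i)) : ℝ) from rfl]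
  · obtain ⟨⟨w, hw⟩, ⟨P, hP⟩, hsw⟩ := hgT ⟨v, hv⟩
    refine ⟨w, P, hw, hP, fun U' hU' hc => key _ hsw U' fun y hy => ?_⟩
    simp only [mem_filter]
    refine ⟨hU' hy, ?_⟩
    obtain ⟨c1, c2, c3, c4, c5⟩ := hc y hy
    refine ⟨⟨c1, c2, c3⟩, c4, fun h => ?_⟩
    simp only [hiC, N] at h
    linarith

end Env

end Vale.Agent.P165.SP
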