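import Vale.Agent.P165.SP.Assembly
import Vale.Agent.P165.SP.Count
import Vale.Agent.P165.SP.Perco
import Vale.Agent.P165.SP.Recursion
import Vale.Agent.P165.SP.ScaleOK

/-!
# Discrete dense subgroups of `Sp(4, ℝ)`: composition of the steps
-/

namespace Vale.Agent.P165.SP

open Finset FF Matrix
open scoped Matrix.Norms.Frobenius

/-- With the linear algebra every discrete dense representation gives a
nonuniqueness phase. -/
theorem nonuniquePhase_of_linear
    (hlin : ∀ (Γ O ι : Type) [Group Γ] [Fintype O] [Fintype ι] [DecidableEq Γ] [DecidableEq O]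
      (E : Env Γ O ι), E.EstOK ∧ E.GeoOK ∧ E.CocycleOK ∧ E.InitOK)
    {Γ : Type} [Group Γ] (ρ : Γ →* M4) (symp : ∀ g, IsSymp (ρ g))
    (hfin : ∀ R : ℝ, {g | ∀ i j, |ρ g i j| ≤ R}.Finite) (hρ : Dense ρ) :
    SG.NonuniquePhase Γ := by
  have := infinite_of_dense ρ hρ
  refine nonuniquePhase_of_steps ρ symp hfin (frames_ok ρ symp hρ) ?_ ?_
  · intro O ι _ _ _ _ E p hs
    obtain ⟨he, hg, hc, hi⟩ := hlin Γ O ι E
    exact E.closed_at he E.count_ok (E.scale_ok he hg) hi (E.split_ok hc) hs (E.branch_ok hs)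
  · intro O ι _ _ _ _ E
    exact ⟨E.schur_ok (hlin Γ O ι E).2.2.1, E.limit_ok⟩

end Vale.Agent.P165.SP
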