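import Vale.Agent.P165.SP.Rep

/-!
# P165, Sp4 route: frames from Zariski density, and the integer symplectic group

A family of matrices in ten parameters meets every single nonvanishing condition of the two
fundamental representations. So does, at once for finitely many conditions, every Zariski dense set;
compactness makes this uniform. The integer symplectic matrices are dense, as the transvections
generate.
-/

namespace Vale.Agent.P165.SP

open Matrix
open scoped Matrix.Norms.Frobenius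

/-- Every polynomial in the entries which vanishes on `S` vanishes on all symplectic matrices. -/
def ZariskiDense (S : Set M4) : Prop :=
  ∀ f : MvPolynomial (Fin 4 × Fin 4) ℝ,
    (∀ g ∈ S, MvPolynomial.eval (fun q => g q.1 q.2) f = 0) →
    ∀ g : M4, IsSymp g → MvPolynomial.eval (fun q => g q.1 q.2) f = 0

/-! ### Lagrangian vectors -/

/-- An antisymmetric matrix, in pairs of coordinates, orthogonal to the form. -/
def IsLag (u : I2 → ℝ) : Prop := (∀ i j, u (j, i) = -u (i, j)) ∧ omega ⬝ᵥ u = 0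

theorem rep2_omega {g : M4} (hg : IsSymp g) : rep2 g *ᵥ omega = 0 := by
  rw [rep2, sub_mulVec, minors_omega hg, smul_mulVec, vecMulVec_mulVec, omega_dot]
  ext r
  simp
  ring

theorem rep2_antisymm (g : M4) (c : I2) (i j : Fin 4) : rep2 g (j, i) c = -rep2 g (i, j) c := by
  have : J4 j i = -J4 i j := congrFun (congrFun J4_transpose i) j
  simp [rep2, minors, vecMulVec_apply, omega, this]
  ring

theorem isLag_col {g : M4} (hg : IsSymp g) (c : I2) : IsLag (fun r => rep2 g r c) := by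
  refine ⟨rep2_antisymm g c, ?_⟩
  have h := congrFun (rep2_omega hg.transpose) c
  rw [← rep2_transpose, mulVec_transpose] at h
  exact h

theorem isLag_row {g : M4} (hg : IsSymp g) (X : M16) (a : I2) :
    IsLag (fun c => (X * rep2 g) a c) := by
  refine ⟨fun i j => ?_, ?_⟩
  · simp only [Matrix.mul_apply, ← Finset.sum_neg_distrib]
    refine Finset.sum_congr rfl fun r _ => ?_
    have h := rep2_antisymm gᵀ r i j
    rw [← rep2_transpose] at h
    simp only [transpose_apply] at h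
    rw [h, mul_neg]
  · have := congrFun (congrArg (X *ᵥ ·) (rep2_omega hg)) a
    simp only [mulVec_mulVec, mulVec_zero, Pi.zero_apply] at this
    rw [← this, dotProduct_comm]
    rfl

/-! ### Transvections -/

/-- The transvection along `v` with parameter `t`. -/
def tv {R : Type} [CommRing R] (v : Fin 4 → R) (t : R) : Matrix (Fin 4) (Fin 4) R :=
  1 + t • vecMulVec v ![-v 3, -v 2, v 1, v 0]

theorem tv_isSymp (v : Fin 4 → ℝ) (t : ℝ) : IsSymp (tv v t) := by
  rw [IsSymp]
  ext i j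
  fin_cases i <;> fin_cases j <;>
    simp [tv, J4, mul_apply, Fin.sum_univ_four] <;> ring

/-- The symplectic form. -/
def om (x y : Fin 4 → ℝ) : ℝ := x 0 * y 3 + x 1 * y 2 - x 2 * y 1 - x 3 * y 0

theorem tv_mulVec (v x : Fin 4 → ℝ) (t : ℝ) : tv v t *ᵥ x = x + (t * om v x) • v := by
  ext i
  fin_cases i <;>
    simp [tv, om, mulVec, dotProduct, Fin.sum_univ_four] <;> ring

theorem om_mulVec {g : M4} (hg : IsSymp g) (x y : Fin 4 → ℝ) :
    om (g *ᵥ x) (g *ᵥ y) = om x y := by
  have h : ∀ a b : Fin 4 → ℝ, om a b = a ⬝ᵥ (J4 *ᵥ b) := fun a b => by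
    simp [om, J4, mulVec, dotProduct, Fin.sum_univ_four]; ring
  rw [IsSymp] at hg
  rw [h, h, mulVec_mulVec, ← vecMul_transpose, ← dotProduct_mulVec, mulVec_mulVec,
    ← Matrix.mul_assoc, hg]

/-! ### A family meeting every single condition -/

/-- The lower unipotent Siegel matrix. -/
def lowU {R : Type} [CommRing R] (a b c : R) : Matrix (Fin 4) (Fin 4) R :=
  !![1, 0, 0, 0; 0, 1, 0, 0; a, b, 1, 0; c, a, 0, 1]

/-- The upper unipotent Siegel matrix. -/
def upU {R : Type} [CommRing R] (a b c : R) : Matrix (Fin 4) (Fin 4) R :=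
  !![1, 0, a, b; 0, 1, c, a; 0, 0, 1, 0; 0, 0, 0, 1]

theorem lowU_isSymp (a b c : ℝ) : IsSymp (lowU a b c) := by
  rw [IsSymp]
  ext i j
  fin_cases i <;> fin_cases j <;> simp [lowU, J4, mul_apply, Fin.sum_univ_four]

theorem upU_isSymp (a b c : ℝ) : IsSymp (upU a b c) := by
  rw [IsSymp]
  ext i j
  fin_cases i <;> fin_cases j <;> simp [upU, J4, mul_apply, Fin.sum_univ_four]

/-- The parameters: a vector, its parameter, and two triples. -/
def cell {R : Type} [CommRing R] (x : Fin 11 → R) : Matrix (Fin 4) (Fin 4) R :=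
  tv ![x 0, x 1, x 2, x 3] (x 4) * lowU (x 5) (x 6) (x 7) * upU (x 8) (x 9) (x 10)

theorem cell_isSymp (x : Fin 11 → ℝ) : IsSymp (cell x) :=
  ((tv_isSymp _ _).mul (lowU_isSymp _ _ _)).mul (upU_isSymp _ _ _)

theorem map_cell {R R' : Type} [CommRing R] [CommRing R'] (f : R →+* R') (x : Fin 11 → R) :
    (cell x).map f = cell (fun i => f (x i)) := by
  have h1 : ∀ (v : Fin 4 → R) (t : R), (tv v t).map f = tv (fun i => f (v i)) (f t) := by
    intro v t
    ext i j
    fin_cases i <;> fin_cases j <;> simp [tv]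
  have h2 : ∀ a b c : R, (lowU a b c).map f = lowU (f a) (f b) (f c) := by
    intro a b c
    ext i j
    fin_cases i <;> fin_cases j <;> simp [lowU]
  have h3 : ∀ a b c : R, (upU a b c).map f = upU (f a) (f b) (f c) := by
    intro a b c
    ext i j
    fin_cases i <;> fin_cases j <;> simp [upU]
  have h4 : (fun i => f (![x 0, x 1, x 2, x 3] i)) = ![f (x 0), f (x 1), f (x 2), f (x 3)] := by
    funext i; fin_cases i <;> rfl
  rw [cell, cell, Matrix.map_mul, Matrix.map_mul, h1, h2, h3, h4]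

/-- Finitely many polynomial conditions, each met somewhere in the family, are met at once by
every Zariski dense set. -/
theorem generic_of_dense {S : Set M4} (hS : ZariskiDense S) {κ : Type} [Fintype κ]
    (f : κ → MvPolynomial (Fin 4 × Fin 4) ℝ)
    (hf : ∀ i, ∃ x, MvPolynomial.eval (fun q => cell x q.1 q.2) (f i) ≠ 0) :
    ∃ g ∈ S, ∀ i, MvPolynomial.eval (fun q => g q.1 q.2) (f i) ≠ 0 := by
  let Φ : Fin 4 × Fin 4 → MvPolynomial (Fin 11) ℝ := fun q => cell MvPolynomial.X q.1 q.2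
  have hΦ : ∀ x : Fin 11 → ℝ, (fun q => MvPolynomial.eval x (Φ q)) = fun q => cell x q.1 q.2 := by
    intro x
    funext q
    have h := map_cell (MvPolynomial.eval x) (MvPolynomial.X : Fin 11 → MvPolynomial (Fin 11) ℝ)
    simp only [MvPolynomial.eval_X] at h
    rw [← h]
    rfl
  have hev : ∀ (x : Fin 11 → ℝ) (p : MvPolynomial (Fin 4 × Fin 4) ℝ),
      MvPolynomial.eval x (MvPolynomial.bind₁ Φ p) =
        MvPolynomial.eval (fun q => cell x q.1 q.2) p := by
    intro x p
    rw [← hΦ]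
    exact MvPolynomial.eval₂Hom_bind₁ (RingHom.id ℝ) x Φ p
  have hne : ∏ i, MvPolynomial.bind₁ Φ (f i) ≠ 0 := Finset.prod_ne_zero_iff.2 fun i _ h => by
    obtain ⟨x, hx⟩ := hf i
    exact hx (by rw [← hev, h, map_zero])
  obtain ⟨x, hx⟩ : ∃ x, MvPolynomial.eval x (∏ i, MvPolynomial.bind₁ Φ (f i)) ≠ 0 := by
    by_contra h
    push Not at h
    exact hne (MvPolynomial.funext fun x => by rw [h x, map_zero])
  by_contra hno
  push Not at hno
  apply hx
  rw [map_prod]
  simp only [hev]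
  rw [← map_prod]
  refine hS _ (fun g hg => ?_) _ (cell_isSymp x)
  rw [map_prod]
  obtain ⟨i, hi⟩ := hno g hg
  exact Finset.prod_eq_zero (Finset.mem_univ i) hi

/-- The standard representation: every single condition is met. -/
theorem exists_cell_dot {r u : Fin 4 → ℝ} (hr : r ≠ 0) (hu : u ≠ 0) :
    ∃ x, r ⬝ᵥ (cell x *ᵥ u) ≠ 0 := by
  have hl : ∀ (v : Fin 4 → ℝ) (t : ℝ),
      cell ![v 0, v 1, v 2, v 3, t, 0, 0, 0, 0, 0, 0] = tv v t := by
    intro v t
    have h1 : lowU (0 : ℝ) 0 0 = 1 := by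
      ext i j; fin_cases i <;> fin_cases j <;> simp [lowU]
    have h2 : upU (0 : ℝ) 0 0 = 1 := by
      ext i j; fin_cases i <;> fin_cases j <;> simp [upU]
    have h3 : ![v 0, v 1, v 2, v 3] = v := by funext i; fin_cases i <;> rfl
    simp [cell, h1, h2, h3]
  obtain ⟨v, hv1, hv2⟩ : ∃ v, r ⬝ᵥ v ≠ 0 ∧ om v u ≠ 0 := by
    obtain ⟨v, hv⟩ : ∃ v, r ⬝ᵥ v ≠ 0 :=
      ⟨r, fun h => hr (dotProduct_self_eq_zero.1 h)⟩
    let u' : Fin 4 → ℝ := ![u 3, u 2, -u 1, -u 0]
    have hom : ∀ w, om w u = w ⬝ᵥ u' := fun w => by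
      simp [om, u', dotProduct, Fin.sum_univ_four]; ring
    have hu' : om u' u ≠ 0 := by
      rw [hom]
      intro h
      have h' := dotProduct_self_eq_zero.1 h
      apply hu
      funext i
      fin_cases i
      · simpa [u'] using congrFun h' 3
      · simpa [u'] using congrFun h' 2
      · simpa [u'] using congrFun h' 1
      · simpa [u'] using congrFun h' 0
    by_cases h1 : om v u = 0
    · by_cases h2 : r ⬝ᵥ u' = 0
      · refine ⟨v + u', by rw [dotProduct_add, h2, add_zero]; exact hv, ?_⟩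
        rw [hom, add_dotProduct, ← hom, ← hom, h1, zero_add]
        exact hu'
      · exact ⟨u', h2, hu'⟩
    · exact ⟨v, hv, h1⟩
  have e : ∀ t, r ⬝ᵥ (tv v t *ᵥ u) = r ⬝ᵥ u + t * (om v u * (r ⬝ᵥ v)) := fun t => by
    rw [tv_mulVec, dotProduct_add, dotProduct_smul, smul_eq_mul]; ring
  by_cases h0 : r ⬝ᵥ u = 0
  · refine ⟨_, by rw [hl v 1, e, h0, zero_add, one_mul]; exact mul_ne_zero hv2 hv1⟩
  · refine ⟨_, by rw [hl v 0, e, zero_mul, add_zero]; exact h0⟩

/-- The image `g S gᵀ` of an antisymmetric matrix: five coordinates. -/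
def crd (S : M4) : Fin 5 → ℝ := ![S 0 1, S 0 2, S 0 3, S 1 3, S 2 3]

/-- The five dimensional representation: every single condition is met. -/
theorem exists_cell_wedge {S : M4} (hS : Sᵀ = -S) (htr : S 0 3 + S 1 2 = 0) (hS0 : S ≠ 0)
    {r : Fin 5 → ℝ} (hr : r ≠ 0) :
    ∃ x, r ⬝ᵥ crd (cell x * S * (cell x)ᵀ) ≠ 0 := by
  have hs : ∀ i j, S j i = -S i j := fun i j => by
    have := congrFun (congrFun hS i) j; simpa using this
  have hd : ∀ i, S i i = 0 := fun i => by linarith [hs i i]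
  obtain ⟨s, rfl⟩ : ∃ s : Fin 5 → ℝ, S = !![0, s 0, s 1, s 2; -s 0, 0, -s 2, s 3;
      -s 1, s 2, 0, s 4; -s 2, -s 3, -s 4, 0] := by
    refine ⟨crd S, ?_⟩
    ext i j
    fin_cases i <;> fin_cases j <;>
      simp [crd, hd, hs 0 1, hs 0 2, hs 0 3, hs 1 2, hs 1 3, hs 2 3] <;> linarith
  have hl : ∀ y : Fin 6 → ℝ, cell ![0, 0, 0, 0, 0, y 0, y 1, y 2, y 3, y 4, y 5] =
      lowU (y 0) (y 1) (y 2) * upU (y 3) (y 4) (y 5) := by
    intro y
    have h0 : tv (0 : Fin 4 → ℝ) 0 = 1 := by simp [tv]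
    have h1 : ![(0 : ℝ), 0, 0, 0] = (0 : Fin 4 → ℝ) := by funext i; fin_cases i <;> rfl
    simp [cell, h1, h0]
  -- coordinates after the upper factor: the first one can be made nonzero
  let W : ℝ → ℝ → ℝ → M4 := fun a b c => upU a b c *
    !![0, s 0, s 1, s 2; -s 0, 0, -s 2, s 3; -s 1, s 2, 0, s 4; -s 2, -s 3, -s 4, 0] *
      (upU a b c)ᵀ
  have hW : ∃ a b c, W a b c 0 1 ≠ 0 := by
    have e : ∀ a b c, W a b c 0 1 =
        s 0 + c * s 1 + 2 * a * s 2 - b * s 3 + (a * a - b * c) * s 4 := by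
      intro a b c
      simp [W, upU, vecMul, dotProduct, Fin.sum_univ_four]; ring
    by_contra h
    push Not at h
    have z := fun a b c => (e a b c).symm.trans (h a b c)
    have h0 := z 0 0 0
    have h1 := z 0 0 1
    have h2 := z 0 1 0
    have h3 := z 1 0 0
    have h4 := z (-1) 0 0
    apply hS0
    have q0 : s 0 = 0 := by linarith
    have q1 : s 1 = 0 := by linarith
    have q2 : s 2 = 0 := by linarith
    have q3 : s 3 = 0 := by linarith
    have q4 : s 4 = 0 := by linarith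
    ext i j
    fin_cases i <;> fin_cases j <;> simp [q0, q1, q2, q3, q4]
  obtain ⟨a', b', c', hw⟩ := hW
  obtain ⟨T, hT⟩ : ∃ T, W a' b' c' = T := ⟨_, rfl⟩
  rw [hT] at hw
  have hTs : ∀ i j, T j i = -T i j := by
    have hneg : Tᵀ = -T := by
      rw [← hT]
      simp only [W]
      rw [transpose_mul, transpose_mul, transpose_transpose, hS, ← Matrix.mul_assoc, Matrix.mul_neg,
        Matrix.neg_mul]
    exact fun i j => by have := congrFun (congrFun hneg i) j; simpa using this
  have hTd : ∀ i, T i i = 0 := fun i => by linarith [hTs i i]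
  have e : ∀ a b c, r ⬝ᵥ crd (lowU a b c * T * (lowU a b c)ᵀ) =
      r 0 * T 0 1 + r 1 * (T 0 2 + b * T 0 1) + r 2 * (T 0 3 + a * T 0 1) +
        r 3 * (T 1 3 - c * T 0 1) +
        r 4 * (T 2 3 + a * T 0 3 - a * T 1 2 + b * T 1 3 - c * T 0 2 + (a * a - b * c) * T 0 1) := by
    intro a b c
    simp [crd, lowU, dotProduct, vecMul, mul_apply, Fin.sum_univ_five, Fin.sum_univ_four, hTd, hTs 0 1,
      hTs 0 2, hTs 1 2]
    ring
  by_contra h
  push Not at h
  have z : ∀ a b c, r ⬝ᵥ crd (lowU a b c * T * (lowU a b c)ᵀ) = 0 := by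
    intro a b c
    have := h ![0, 0, 0, 0, 0, a, b, c, a', b', c']
    have hl' := hl ![a, b, c, a', b', c']
    simp only [Matrix.cons_val] at hl'
    rw [hl'] at this
    rw [← hT]
    simp only [W, transpose_mul, Matrix.mul_assoc] at this ⊢
    exact this
  have z' := fun a b c => (e a b c).symm.trans (z a b c)
  have h0 := z' 0 0 0
  have h1 := z' 1 0 0
  have h2 := z' (-1) 0 0
  have h3 := z' 0 1 0
  have h4 := z' 0 0 1
  have q4 : r 4 = 0 := by
    have : r 4 * T 0 1 = 0 := by linarith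
    exact (mul_eq_zero.1 this).resolve_right hw
  simp only [q4, zero_mul, add_zero] at h0 h1 h2 h3 h4
  have q2 : r 2 = 0 := by
    have : r 2 * T 0 1 = 0 := by linarith
    exact (mul_eq_zero.1 this).resolve_right hw
  have q1 : r 1 = 0 := by
    have : r 1 * T 0 1 = 0 := by linarith
    exact (mul_eq_zero.1 this).resolve_right hw
  have q3 : r 3 = 0 := by
    have : r 3 * T 0 1 = 0 := by linarith
    exact (mul_eq_zero.1 this).resolve_right hw
  have q0 : r 0 = 0 := by
    have : r 0 * T 0 1 = 0 := by simp only [q1, q2, q3, zero_mul, add_zero] at h0; linarith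
    exact (mul_eq_zero.1 this).resolve_right hw
  exact hr (funext fun i => by fin_cases i <;> assumption)

/-! ### Transvections generate -/

/-- The monoid generated by the transvections. -/
def TG : Submonoid M4 := Submonoid.closure (Set.range fun p : (Fin 4 → ℝ) × ℝ => tv p.1 p.2)

theorem tv_mem (v : Fin 4 → ℝ) (t : ℝ) : tv v t ∈ TG := Submonoid.subset_closure ⟨(v, t), rfl⟩

theorem tv_mul_neg (v : Fin 4 → ℝ) (t : ℝ) : tv v (-t) * tv v t = 1 := by
  ext i j
  fin_cases i <;> fin_cases j <;>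
    simp [tv, Matrix.mul_apply, Fin.sum_univ_four] <;> ring

theorem TG_inv {m : M4} (h : m ∈ TG) : ∃ m' ∈ TG, m' * m = 1 := by
  induction h using Submonoid.closure_induction with
  | mem x hx =>
    obtain ⟨⟨v, t⟩, rfl⟩ := hx
    exact ⟨_, tv_mem v (-t), tv_mul_neg v t⟩
  | one => exact ⟨1, one_mem _, one_mul _⟩
  | mul a b _ _ iha ihb =>
    obtain ⟨a', ha', ea⟩ := iha
    obtain ⟨b', hb', eb⟩ := ihb
    exact ⟨b' * a', mul_mem hb' ha', by
      rw [Matrix.mul_assoc, ← Matrix.mul_assoc a', ea, Matrix.one_mul, eb]⟩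

theorem TG_symp {m : M4} (h : m ∈ TG) : IsSymp m := by
  induction h using Submonoid.closure_induction with
  | mem x hx => obtain ⟨⟨v, t⟩, rfl⟩ := hx; exact tv_isSymp v t
  | one => exact isSymp_one
  | mul a b _ _ iha ihb => exact iha.mul ihb

/-- A move along a transvection fixing every `e` orthogonal to the difference. -/
theorem move {x y : Fin 4 → ℝ} (h : om y x ≠ 0) :
    ∃ m ∈ TG, m *ᵥ x = y ∧ ∀ e, om (y - x) e = 0 → m *ᵥ e = e := by
  refine ⟨tv (y - x) (om y x)⁻¹, tv_mem _ _, ?_, fun e he => ?_⟩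
  · have : om (y - x) x = om y x := by simp [om]; ring
    rw [tv_mulVec, this, inv_mul_cancel₀ h, one_smul]
    abel
  · rw [tv_mulVec, he, mul_zero, zero_smul, add_zero]

/-- A move in two steps. -/
theorem move2 {x z y : Fin 4 → ℝ} (h : om z x ≠ 0) (h' : om y z ≠ 0) :
    ∃ m ∈ TG, m *ᵥ x = y ∧ ∀ e, om (z - x) e = 0 → om (y - z) e = 0 → m *ᵥ e = e := by
  obtain ⟨m, hm, e1, f1⟩ := move h
  obtain ⟨n, hn, e2, f2⟩ := move h'
  refine ⟨n * m, mul_mem hn hm, by rw [← mulVec_mulVec, e1, e2], fun e he he' => ?_⟩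
  rw [← mulVec_mulVec, f1 e he, f2 e he']

/-- A coordinate vector. -/
abbrev bs (i : Fin 4) : Fin 4 → ℝ := Pi.single i 1

theorem mulVec_bs (g : M4) (i : Fin 4) : g *ᵥ bs i = fun k => g k i := by
  funext k; simp [bs, mulVec_single]

/-- An intermediate vector. -/
theorem exists_between {x y : Fin 4 → ℝ} (hx : x ≠ 0) (hy : y ≠ 0) :
    ∃ z, om z x ≠ 0 ∧ om y z ≠ 0 := by
  let sw : (Fin 4 → ℝ) → Fin 4 → ℝ := fun x => ![x 3, x 2, -x 1, -x 0]
  have h1 : ∀ z x, om z x = z ⬝ᵥ sw x := fun z x => by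
    simp [om, sw, dotProduct, Fin.sum_univ_four]; ring
  have h2 : ∀ z x, om x z = -(z ⬝ᵥ sw x) := fun z x => by
    simp [om, sw, dotProduct, Fin.sum_univ_four]; ring
  have h3 : ∀ x, x ≠ 0 → sw x ⬝ᵥ sw x ≠ 0 := fun x hx h => hx (by
    have := dotProduct_self_eq_zero.1 h
    funext i
    fin_cases i
    · simpa [sw] using congrFun this 3
    · simpa [sw] using congrFun this 2
    · simpa [sw] using congrFun this 1
    · simpa [sw] using congrFun this 0)
  by_cases h : sw x ⬝ᵥ sw y = 0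
  · refine ⟨sw x + sw y, ?_, ?_⟩
    · rw [h1, add_dotProduct, dotProduct_comm (sw y), h, add_zero]; exact h3 x hx
    · rw [h2, add_dotProduct, h, zero_add]; exact neg_ne_zero.2 (h3 y hy)
  · exact ⟨sw x, by rw [h1]; exact h3 x hx, by rw [h2]; exact neg_ne_zero.2 h⟩

/-- The symplectic group is generated by transvections. -/
theorem symp_mem_TG {g : M4} (hg : IsSymp g) : g ∈ TG := by
  have red : ∀ (m g : M4), m ∈ TG → m * g ∈ TG → g ∈ TG := fun m g hm h => by
    obtain ⟨m', hm', e⟩ := TG_inv hm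
    have : g = m' * (m * g) := by rw [← Matrix.mul_assoc, e, Matrix.one_mul]
    rw [this]; exact mul_mem hm' h
  -- the first vector
  obtain ⟨m, hm, e0⟩ : ∃ m ∈ TG, (m * g) *ᵥ bs 0 = bs 0 := by
    have h1 : om (g *ᵥ bs 0) (g *ᵥ bs 3) = 1 := by rw [om_mulVec hg]; simp [om, bs]
    have hx : g *ᵥ bs 0 ≠ 0 := fun h => by simp [h, om] at h1
    have hy : bs (0 : Fin 4) ≠ 0 := fun h => by simpa [bs] using congrFun h 0
    obtain ⟨z, hz1, hz2⟩ := exists_between hx hy
    obtain ⟨m, hm, e, -⟩ := move2 hz1 hz2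
    exact ⟨m, hm, by rw [← mulVec_mulVec, e]⟩
  refine red m g hm ?_
  have hg1 := (TG_symp hm).mul hg
  generalize m * g = g1 at e0 hg1 ⊢
  clear hg hm m g
  -- the last vector
  obtain ⟨m, hm, e0', e3⟩ : ∃ m ∈ TG, (m * g1) *ᵥ bs 0 = bs 0 ∧ (m * g1) *ᵥ bs 3 = bs 3 := by
    set w := g1 *ᵥ bs 3 with hw
    have h1 : om (bs 0) w = 1 := by
      rw [hw]
      nth_rw 1 [← e0]
      rw [om_mulVec hg1]
      simp [om, bs]
    have hd : ∀ a b : Fin 4 → ℝ, om (bs 0) a = om (bs 0) b → om (a - b) (bs 0) = 0 := by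
      intro a b h
      simp [om, bs] at h ⊢
      linarith
    have h3 : om (bs 0) (bs 3) = 1 := by simp [om, bs]
    by_cases h : om (bs 3) w = 0
    · obtain ⟨m, hm, e, f⟩ := move2 (x := w) (z := w + bs 0) (y := bs 3)
        (by
          have : om (w + bs 0) w = om (bs 0) w := by simp [om]; ring
          rw [this, h1]; norm_num)
        (by
          have : om (bs 3) (w + bs 0) = om (bs 3) w - om (bs 0) (bs 3) := by simp [om, bs]; ring
          rw [this, h, h3]; norm_num)
      refine ⟨m, hm, ?_, by rw [← mulVec_mulVec, ← hw, e]⟩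
      rw [← mulVec_mulVec, e0, f _ (hd _ _ ?_) (hd _ _ ?_)]
      · simp [om, bs]
      · rw [h3, ← h1]; simp [om, bs]
    · obtain ⟨m, hm, e, f⟩ := move (x := w) (y := bs 3) h
      exact ⟨m, hm, by rw [← mulVec_mulVec, e0, f _ (hd _ _ (by rw [h3, h1]))],
        by rw [← mulVec_mulVec, ← hw, e]⟩
  refine red m g1 hm ?_
  have hg2 := (TG_symp hm).mul hg1
  generalize m * g1 = g2 at e0' e3 hg2 ⊢
  clear e0 hg1 hm m g1
  -- the middle pair
  have hmid : ∀ j, g2 3 j = (if j = 3 then 1 else 0) ∧ g2 0 j = (if j = 0 then 1 else 0) := by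
    intro j
    have a := om_mulVec hg2 (bs 0) (bs j)
    have b := om_mulVec hg2 (bs 3) (bs j)
    rw [e0', mulVec_bs] at a
    rw [e3, mulVec_bs] at b
    fin_cases j <;> simp [om, bs] at a b ⊢ <;> exact ⟨by linarith, by linarith⟩
  obtain ⟨m, hm, f0, f3, f1⟩ : ∃ m ∈ TG, (m * g2) *ᵥ bs 0 = bs 0 ∧ (m * g2) *ᵥ bs 3 = bs 3 ∧
      (m * g2) *ᵥ bs 1 = bs 1 := by
    set x := g2 *ᵥ bs 1 with hx
    have hx0 : x 0 = 0 := by rw [hx, mulVec_bs]; simpa using (hmid 1).2
    have hx3 : x 3 = 0 := by rw [hx, mulVec_bs]; simpa using (hmid 1).1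
    have hd : ∀ a b : Fin 4 → ℝ, a 0 = b 0 → a 3 = b 3 →
        om (a - b) (bs 0) = 0 ∧ om (a - b) (bs 3) = 0 := by
      intro a b h h'
      simp [om, bs]
      constructor <;> linarith
    have fin : ∀ m, m *ᵥ x = bs 1 → m *ᵥ bs 0 = bs 0 → m *ᵥ bs 3 = bs 3 →
        (m * g2) *ᵥ bs 0 = bs 0 ∧ (m * g2) *ᵥ bs 3 = bs 3 ∧ (m * g2) *ᵥ bs 1 = bs 1 :=
      fun m a b c => ⟨by rw [← mulVec_mulVec, e0', b], by rw [← mulVec_mulVec, e3, c],
        by rw [← mulVec_mulVec, ← hx, a]⟩
    by_cases h : x 2 = 0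
    · have hp : x 1 ≠ 0 := by
        intro h'
        have h1 := om_mulVec hg2 (bs 1) (bs 2)
        rw [← hx] at h1
        simp [om, bs, hx0, hx3, h, h'] at h1
      obtain ⟨m, hm, e, f⟩ := move2 (x := x) (z := ![0, x 1, 1, 0]) (y := bs 1)
        (by simp [om, hx0, hx3, h, hp])
        (by simp [om, bs])
      obtain ⟨a, b⟩ := hd ![0, x 1, 1, 0] x (by simp [hx0]) (by simp [hx3])
      obtain ⟨a', b'⟩ := hd (bs 1) ![0, x 1, 1, 0] (by simp [bs]) (by simp [bs])
      exact ⟨m, hm, fin m e (f _ a a') (f _ b b')⟩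
    · obtain ⟨m, hm, e, f⟩ := move (x := x) (y := bs 1) (by simp [om, bs, hx0, hx3, h])
      obtain ⟨a, b⟩ := hd (bs 1) x (by simp [bs, hx0]) (by simp [bs, hx3])
      exact ⟨m, hm, fin m e (f _ a) (f _ b)⟩
  refine red m g2 hm ?_
  have hg3 := (TG_symp hm).mul hg2
  generalize m * g2 = g3 at f0 f3 f1 hg3 ⊢
  -- what is left is one transvection
  have a := om_mulVec hg3 (bs 0) (bs 2)
  have b := om_mulVec hg3 (bs 3) (bs 2)
  have c := om_mulVec hg3 (bs 1) (bs 2)
  rw [f0, mulVec_bs] at a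
  rw [f3, mulVec_bs] at b
  rw [f1, mulVec_bs] at c
  simp [om, bs] at a b c
  have : g3 = tv (bs 1) (g3 1 2) := by
    ext i j
    have c0 := congrFun f0 i
    have c1 := congrFun f1 i
    have c3 := congrFun f3 i
    rw [mulVec_bs] at c0 c1 c3
    fin_cases i <;> fin_cases j <;>
      simp [tv, bs] at c0 c1 c3 ⊢ <;> linarith
  rw [this]
  exact tv_mem _ _

/-! ### The integer symplectic matrices are dense -/

/-- A set stable under the integer transvections which contains one is dense. -/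
theorem zariskiDense_of_stable {S : Set M4} (h1 : (1 : M4) ∈ S)
    (hst : ∀ g ∈ S, ∀ (v : Fin 4 → ℤ) (t : ℤ), tv (fun i => (v i : ℝ)) (t : ℝ) * g ∈ S) :
    ZariskiDense S := by
  intro f hf g hg
  -- all real transvections keep the closure
  let cl : Set M4 := {a | ∀ p : MvPolynomial (Fin 4 × Fin 4) ℝ,
    (∀ g ∈ S, MvPolynomial.eval (fun q => g q.1 q.2) p = 0) →
      MvPolynomial.eval (fun q => a q.1 q.2) p = 0}
  -- a matrix of integers acts on the closure
  have hint : ∀ (v : Fin 4 → ℤ) (t : ℤ), ∀ a ∈ cl, tv (fun i => (v i : ℝ)) (t : ℝ) * a ∈ cl := by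
    intro v t a ha p hp
    let M : M4 := tv (fun i => (v i : ℝ)) (t : ℝ)
    let sub : Fin 4 × Fin 4 → MvPolynomial (Fin 4 × Fin 4) ℝ := fun q =>
      ∑ l, MvPolynomial.C (M q.1 l) * MvPolynomial.X (l, q.2)
    have key : ∀ b : M4, MvPolynomial.eval (fun q => b q.1 q.2) (MvPolynomial.bind₁ sub p) =
        MvPolynomial.eval (fun q => (M * b) q.1 q.2) p := by
      intro b
      rw [MvPolynomial.eval, MvPolynomial.eval₂Hom_bind₁]
      congr 1
      · congr 1
        funext q
        simp [sub, Matrix.mul_apply]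
    rw [← key]
    exact ha _ fun g hg => by rw [key]; exact hp _ (hst g hg v t)
  have hreal : ∀ (v : Fin 4 → ℝ) (t : ℝ), ∀ a ∈ cl, tv v t * a ∈ cl := by
    intro v t a ha p hp
    let T : Matrix (Fin 4) (Fin 4) (MvPolynomial (Fin 5) ℝ) :=
      tv ![MvPolynomial.X 0, MvPolynomial.X 1, MvPolynomial.X 2, MvPolynomial.X 3] (MvPolynomial.X 4)
        * a.map MvPolynomial.C
    have hT : ∀ y : Fin 5 → ℝ, MvPolynomial.eval y (MvPolynomial.bind₁ (fun q => T q.1 q.2) p) =
        MvPolynomial.eval (fun q => (tv ![y 0, y 1, y 2, y 3] (y 4) * a) q.1 q.2) p := by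
      intro y
      rw [MvPolynomial.eval, MvPolynomial.eval₂Hom_bind₁]
      congr 1
      · congr 1
        funext ⟨i, j⟩
        fin_cases i <;> simp [T, tv, Matrix.mul_apply, Fin.sum_univ_four]
    have hz : MvPolynomial.bind₁ (fun q => T q.1 q.2) p = 0 := by
      refine MvPolynomial.funext_set (fun _ => Set.range fun n : ℤ => (n : ℝ))
        (fun _ => Set.infinite_range_of_injective Int.cast_injective) fun y hy => ?_
      choose n hn using fun i => hy i (Set.mem_univ i)
      rw [hT, map_zero]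
      have : ![y 0, y 1, y 2, y 3] = fun i => ((![n 0, n 1, n 2, n 3] i : ℤ) : ℝ) := by
        funext i; fin_cases i <;> simp [hn]
      rw [this, ← hn 4]
      exact hint _ _ a ha p hp
    have := hT ![v 0, v 1, v 2, v 3, t]
    rw [hz, map_zero] at this
    have hv : ![v 0, v 1, v 2, v 3] = v := by funext i; fin_cases i <;> rfl
    simpa [hv] using this.symm
  have h1' : (1 : M4) ∈ cl := fun p hp => hp 1 h1
  have : ∀ m ∈ TG, ∀ a ∈ cl, m * a ∈ cl := by
    intro m hm
    induction hm using Submonoid.closure_induction with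
    | mem x hx => obtain ⟨⟨v, t⟩, rfl⟩ := hx; exact hreal v t
    | one => exact fun a ha => by rwa [Matrix.one_mul]
    | mul a b _ _ iha ihb => exact fun c hc => by rw [Matrix.mul_assoc]; exact iha _ (ihb c hc)
  have hgcl := this g (symp_mem_TG hg) 1 h1'
  rw [Matrix.mul_one] at hgcl
  exact hgcl f hf

end Vale.Agent.P165.SP
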