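import Vale.Agent.P165.SP.Instance

/-!
# A finitely generated dense group of integer symplectic matrices

Five transvections generate a group that is Zariski dense in `Sp(4, ℝ)`.
-/

namespace Vale.Agent.P165.SP

open Matrix

/-- Four coordinate vectors and one mixed one. -/
def five : Fin 5 → Fin 4 → ℤ :=
  ![![1, 0, 0, 0], ![0, 1, 0, 0], ![0, 0, 1, 0], ![0, 0, 0, 1], ![1, 1, 0, 0]]

/-- The same vectors over the reals. -/
noncomputable def fiveR (i : Fin 5) : Fin 4 → ℝ := fun k => (five i k : ℝ)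

/-- The monoid generated by the real transvections along the five vectors. -/
def TG5 : Submonoid M4 :=
  Submonoid.closure (Set.range fun p : Fin 5 × ℝ => tv (fiveR p.1) p.2)

theorem tv5_mem (i : Fin 5) (t : ℝ) : tv (fiveR i) t ∈ TG5 :=
  Submonoid.subset_closure ⟨(i, t), rfl⟩

theorem TG5_inv {m : M4} (h : m ∈ TG5) : ∃ m' ∈ TG5, m' * m = 1 := by
  induction h using Submonoid.closure_induction with
  | mem x hx =>
    obtain ⟨⟨i, t⟩, rfl⟩ := hx
    exact ⟨_, tv5_mem i (-t), tv_mul_neg _ t⟩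
  | one => exact ⟨1, one_mem _, one_mul _⟩
  | mul a b _ _ iha ihb =>
    obtain ⟨a', ha', ea⟩ := iha
    obtain ⟨b', hb', eb⟩ := ihb
    exact ⟨b' * a', mul_mem hb' ha', by
      rw [Matrix.mul_assoc, ← Matrix.mul_assoc a', ea, Matrix.one_mul, eb]⟩

theorem TG5_symp {m : M4} (h : m ∈ TG5) : IsSymp m := by
  induction h using Submonoid.closure_induction with
  | mem x hx => obtain ⟨⟨i, t⟩, rfl⟩ := hx; exact tv_isSymp _ t
  | one => exact isSymp_one
  | mul a b _ _ iha ihb => exact iha.mul ihb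

/-- Conjugates of a transvection of the monoid stay in it. -/
theorem conj_mem {m : M4} (hm : m ∈ TG5) {v : Fin 4 → ℝ} {t : ℝ} (hv : tv v t ∈ TG5) :
    tv (m *ᵥ v) t ∈ TG5 := by
  obtain ⟨m', hm', e⟩ := TG5_inv hm
  have h : tv (m *ᵥ v) t * m = m * tv v t := by
    refine Matrix.ext_iff_mulVec.2 fun x => ?_
    rw [← mulVec_mulVec, ← mulVec_mulVec, tv_mulVec, tv_mulVec, mulVec_add, mulVec_smul,
      om_mulVec (TG5_symp hm)]
  have : tv (m *ᵥ v) t = m * tv v t * m' := by
    rw [← h, Matrix.mul_assoc, mul_eq_one_comm.1 e, Matrix.mul_one]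
  rw [this]
  exact mul_mem (mul_mem hm hv) hm'

/-- The two planes are moved at will. -/
theorem exists_move5 {a b c d : ℝ} (h1 : a ≠ 0 ∨ d ≠ 0) (h2 : b ≠ 0 ∨ c ≠ 0) :
    ∃ m ∈ TG5, m *ᵥ fiveR 4 = ![a, b, c, d] := by
  obtain ⟨d', hd', t1, e1⟩ : ∃ d' : ℝ, d' ≠ 0 ∧ ∃ t : ℝ, d' - t * a = d := by
    by_cases h : d = 0
    · exact ⟨1, one_ne_zero, 1 / a, by rw [h, div_mul_cancel₀ _ (h1.resolve_right (· h))]; ring⟩
    · exact ⟨d, h, 0, by ring⟩
  obtain ⟨c', hc', t2, e2⟩ : ∃ c' : ℝ, c' ≠ 0 ∧ ∃ t : ℝ, c' - t * b = c := by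
    by_cases h : c = 0
    · exact ⟨1, one_ne_zero, 1 / b, by rw [h, div_mul_cancel₀ _ (h2.resolve_right (· h))]; ring⟩
    · exact ⟨c, h, 0, by ring⟩
  refine ⟨tv (fiveR 3) t1 * (tv (fiveR 2) t2 * (tv (fiveR 0) ((a - 1) / d') *
    (tv (fiveR 1) ((b - 1) / c') * (tv (fiveR 3) (-d') * tv (fiveR 2) (-c'))))),
    mul_mem (tv5_mem _ _) (mul_mem (tv5_mem _ _) (mul_mem (tv5_mem _ _) (mul_mem (tv5_mem _ _)
      (mul_mem (tv5_mem _ _) (tv5_mem _ _))))), ?_⟩
  simp only [← mulVec_mulVec, tv_mulVec]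
  funext i
  fin_cases i <;> simp [om, fiveR, five] <;> field_simp <;> linarith

/-- Every transvection is generated by those along the five vectors. -/
theorem tv_mem_TG5 (v : Fin 4 → ℝ) (t : ℝ) : tv v t ∈ TG5 := by
  obtain ⟨a, b, c, d, rfl⟩ : ∃ a b c d, v = ![a, b, c, d] :=
    ⟨v 0, v 1, v 2, v 3, by funext i; fin_cases i <;> rfl⟩
  have hs : ∀ (u : Fin 4 → ℝ) (k s : ℝ), tv u (k * k * s) = tv (k • u) s := by
    intro u k s
    refine Matrix.ext_iff_mulVec.2 fun x => ?_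
    rw [tv_mulVec, tv_mulVec, smul_smul]
    congr 2
    simp [om]
    ring
  have hmixed : ∀ a b c d s : ℝ, (a ≠ 0 ∨ d ≠ 0) → (b ≠ 0 ∨ c ≠ 0) →
      tv ![a, b, c, d] s ∈ TG5 := by
    intro a b c d s h1 h2
    obtain ⟨m, hm, e⟩ := exists_move5 h1 h2
    rw [← e]
    exact conj_mem hm (tv5_mem 4 s)
  by_cases h1 : a = 0 ∧ d = 0
  · obtain ⟨rfl, rfl⟩ := h1
    by_cases h2 : b = 0 ∧ c = 0
    · obtain ⟨rfl, rfl⟩ := h2
      have : tv ![(0 : ℝ), 0, 0, 0] t = tv (fiveR 0) 0 := by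
        ext i j; fin_cases i <;> fin_cases j <;> simp [tv, fiveR, five]
      rw [this]; exact tv5_mem 0 0
    · -- a vector of the middle plane: move it away from the plane
      obtain ⟨m', hm', e⟩ : ∃ m ∈ TG5, ∃ p q r s : ℝ, (p ≠ 0 ∨ s ≠ 0) ∧ (q ≠ 0 ∨ r ≠ 0) ∧
          m *ᵥ ![p, q, r, s] = ![0, b, c, 0] := by
        by_cases hc : c = 0
        · subst hc
          have hb : b ≠ 0 := fun h => h2 ⟨h, rfl⟩
          refine ⟨tv ![0, 0, 1, 1] 1, hmixed _ _ _ _ _ (Or.inr one_ne_zero) (Or.inr one_ne_zero),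
            0, b, b, b, Or.inr hb, Or.inl hb, ?_⟩
          rw [tv_mulVec]
          funext i
          fin_cases i <;> simp [om]
        · refine ⟨tv ![1, 1, 0, 0] 1, hmixed _ _ _ _ _ (Or.inl one_ne_zero) (Or.inl one_ne_zero),
            -c, b - c, c, 0, Or.inl (neg_ne_zero.2 hc), Or.inr hc, ?_⟩
          rw [tv_mulVec]
          funext i
          fin_cases i <;> simp [om]
      obtain ⟨p, q, r, s, h1, h3, e⟩ := e
      rw [← e]
      exact conj_mem hm' (hmixed _ _ _ _ _ h1 h3)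
  · by_cases h2 : b = 0 ∧ c = 0
    · obtain ⟨rfl, rfl⟩ := h2
      have h1' : a ≠ 0 ∨ d ≠ 0 := by
        by_contra h
        push Not at h
        exact h1 h
      obtain ⟨m', hm', e⟩ : ∃ m ∈ TG5, ∃ p q r s : ℝ, (p ≠ 0 ∨ s ≠ 0) ∧ (q ≠ 0 ∨ r ≠ 0) ∧
          m *ᵥ ![p, q, r, s] = ![a, 0, 0, d] := by
        by_cases hd : d = 0
        · subst hd
          have ha : a ≠ 0 := h1'.resolve_right (fun h => h rfl)
          refine ⟨tv ![0, 0, 1, 1] 1, hmixed _ _ _ _ _ (Or.inr one_ne_zero) (Or.inr one_ne_zero),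
            a, 0, a, a, Or.inl ha, Or.inr ha, ?_⟩
          rw [tv_mulVec]
          funext i
          fin_cases i <;> simp [om]
        · refine ⟨tv ![1, 1, 0, 0] 1, hmixed _ _ _ _ _ (Or.inl one_ne_zero) (Or.inl one_ne_zero),
            a - d, -d, 0, d, Or.inr hd, Or.inl (neg_ne_zero.2 hd), ?_⟩
          rw [tv_mulVec]
          funext i
          fin_cases i <;> simp [om]
      obtain ⟨p, q, r, s, h3, h4, e⟩ := e
      rw [← e]
      exact conj_mem hm' (hmixed _ _ _ _ _ h3 h4)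
    · exact hmixed a b c d t (by by_contra h; push Not at h; exact h1 h)
        (by by_contra h; push Not at h; exact h2 h)

/-- A set stable under the five transvections with integer parameters which contains one is
dense. -/
theorem zariskiDense_of_five {S : Set M4} (h1 : (1 : M4) ∈ S)
    (hst : ∀ g ∈ S, ∀ (i : Fin 5) (t : ℤ), tv (fiveR i) (t : ℝ) * g ∈ S) : ZariskiDense S := by
  intro f hf g hg
  let cl : Set M4 := {a | ∀ p : MvPolynomial (Fin 4 × Fin 4) ℝ,
    (∀ g ∈ S, MvPolynomial.eval (fun q => g q.1 q.2) p = 0) →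
      MvPolynomial.eval (fun q => a q.1 q.2) p = 0}
  have hint : ∀ (i : Fin 5) (t : ℤ), ∀ a ∈ cl, tv (fiveR i) (t : ℝ) * a ∈ cl := by
    intro i t a ha p hp
    let M : M4 := tv (fiveR i) (t : ℝ)
    let sub : Fin 4 × Fin 4 → MvPolynomial (Fin 4 × Fin 4) ℝ := fun q =>
      ∑ l, MvPolynomial.C (M q.1 l) * MvPolynomial.X (l, q.2)
    have key : ∀ b : M4, MvPolynomial.eval (fun q => b q.1 q.2) (MvPolynomial.bind₁ sub p) =
        MvPolynomial.eval (fun q => (M * b) q.1 q.2) p := by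
      intro b
      rw [MvPolynomial.eval, MvPolynomial.eval₂Hom_bind₁]
      congr 1
      · congr 1
        funext q
        simp [sub, Matrix.mul_apply]
    rw [← key]
    exact ha _ fun g hg => by rw [key]; exact hp _ (hst g hg i t)
  have hreal : ∀ (i : Fin 5) (t : ℝ), ∀ a ∈ cl, tv (fiveR i) t * a ∈ cl := by
    intro i t a ha p hp
    let T : Matrix (Fin 4) (Fin 4) (Polynomial ℝ) :=
      tv (fun k => Polynomial.C (fiveR i k)) Polynomial.X * a.map Polynomial.C
    set P : Polynomial ℝ := MvPolynomial.eval₂ Polynomial.C (fun q => T q.1 q.2) p with hP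
    have hev : ∀ s : ℝ, P.eval s =
        MvPolynomial.eval (fun q => (tv (fiveR i) s * a) q.1 q.2) p := by
      intro s
      rw [hP, ← Polynomial.coe_evalRingHom, MvPolynomial.eval₂_comp_left]
      congr 1
      · ext x; simp
      · funext ⟨k, l⟩
        fin_cases k <;> simp [T, tv, Matrix.mul_apply, Fin.sum_univ_four, mul_comm]
    have hz : P = 0 := by
      refine Polynomial.eq_zero_of_infinite_isRoot P
        ((Set.infinite_range_of_injective (f := fun n : ℤ => (n : ℝ)) Int.cast_injective).mono ?_)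
      rintro x ⟨n, rfl⟩
      exact (hev _).trans (hint i n a ha p hp)
    rw [← hev, hz, Polynomial.eval_zero]
  have h1' : (1 : M4) ∈ cl := fun p hp => hp 1 h1
  have five_act : ∀ m ∈ TG5, ∀ a ∈ cl, m * a ∈ cl := by
    intro m hm
    induction hm using Submonoid.closure_induction with
    | mem x hx => obtain ⟨⟨i, t⟩, rfl⟩ := hx; exact hreal i t
    | one => exact fun a ha => by rwa [Matrix.one_mul]
    | mul a b _ _ iha ihb => exact fun c hc => by rw [Matrix.mul_assoc]; exact iha _ (ihb c hc)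
  have hle : TG ≤ TG5 := by
    refine Submonoid.closure_le.2 ?_
    rintro _ ⟨⟨v, t⟩, rfl⟩
    exact tv_mem_TG5 v t
  have hgcl := five_act g (hle (symp_mem_TG hg)) 1 h1'
  rw [Matrix.mul_one] at hgcl
  exact hgcl f hf

/-- The five integer transvections. -/
def elemSp : Set intSp := {u | ∃ i, (u.1 : Matrix (Fin 4) (Fin 4) ℤ) = tv (five i) 1}

/-- The group they generate is dense. -/
theorem elemSp_dense : Dense (intHom.comp (Subgroup.closure elemSp).subtype) := by
  intro f hf a ha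
  refine zariskiDense_of_five
    (S := Set.range fun u : Subgroup.closure elemSp => intHom u) ⟨1, by simp⟩ ?_ f
    (fun g ⟨u, hu⟩ => hu ▸ hf u) a ha
  rintro _ ⟨u, rfl⟩ i t
  have hm : ∀ s : ℤ, (Int.castRingHom ℝ).mapMatrix (tv (five i) s) =
      tv (fiveR i) (s : ℝ) := fun s => by
    ext k l
    fin_cases k <;> fin_cases l <;> simp [tv, fiveR]
  have hinj : Function.Injective
      ((Int.castRingHom ℝ).mapMatrix : Matrix (Fin 4) (Fin 4) ℤ →+* M4) :=
    fun A B h => Matrix.ext fun k l => by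
      have h' := congrFun (congrFun h k) l
      simp at h'
      exact h'
  have hone : tv (five i) (-1) * tv (five i) 1 = 1 := hinj (by
    rw [map_mul, map_one, hm, hm]; push_cast; exact tv_mul_neg _ _)
  let e : (Matrix (Fin 4) (Fin 4) ℤ)ˣ :=
    ⟨tv (five i) 1, tv (five i) (-1), mul_eq_one_comm.1 hone, hone⟩
  have he : e ∈ intSp := hinj (by
    have hJ : (Int.castRingHom ℝ).mapMatrix J4Z = J4 := by
      ext k l
      fin_cases k <;> fin_cases l <;> simp [J4Z, J4]
    rw [map_mul, map_mul, hJ]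
    have h := tv_isSymp (fiveR i) ((1 : ℤ) : ℝ)
    rw [IsSymp, ← hm 1] at h
    exact h)
  have e1 : intHom ⟨e, he⟩ = tv (fiveR i) 1 := (hm 1).trans (by simp)
  have hpow : ∀ t : ℤ, intHom (⟨e, he⟩ ^ t) = tv (fiveR i) (t : ℝ) := by
    have hadd : ∀ p q : ℝ, tv (fiveR i) p * tv (fiveR i) q = tv (fiveR i) (p + q) := fun p q => by
      refine Matrix.ext_iff_mulVec.2 fun x => ?_
      rw [← mulVec_mulVec, tv_mulVec, tv_mulVec, tv_mulVec, add_mul, add_smul]
      have : om (fiveR i) (x + (q * om (fiveR i) x) • fiveR i) = om (fiveR i) x := by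
        simp [om]; ring
      rw [this]
      abel
    intro t
    induction t using Int.induction_on with
    | zero => simp [tv]
    | succ m ih => rw [_root_.zpow_add_one, map_mul, ih, e1, hadd]; push_cast; rfl
    | pred m ih =>
      have hi : intHom (⟨e, he⟩⁻¹) = tv (fiveR i) (-1) := by
        have h1 : intHom (⟨e, he⟩⁻¹) * tv (fiveR i) 1 = 1 := by
          rw [← e1, ← map_mul, inv_mul_cancel, map_one]
        calc intHom (⟨e, he⟩⁻¹) = intHom (⟨e, he⟩⁻¹) * (tv (fiveR i) 1 * tv (fiveR i) (-1)) := by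
              rw [hadd, add_neg_cancel]; simp [tv]
          _ = _ := by rw [← Matrix.mul_assoc, h1, Matrix.one_mul]
      rw [_root_.zpow_sub_one, map_mul, ih, hi, hadd]
      push_cast
      ring_nf
  refine ⟨⟨(⟨e, he⟩ : intSp) ^ t, zpow_mem (Subgroup.subset_closure (show (⟨e, he⟩ : intSp) ∈ elemSp from ⟨i, rfl⟩)) t⟩ * u, ?_⟩
  show intHom ((⟨e, he⟩ : intSp) ^ t * (u : intSp)) = _
  rw [map_mul, hpow]

theorem elemSp_finite : elemSp.Finite := by
  have : ((fun u : intSp => (u.1 : Matrix (Fin 4) (Fin 4) ℤ)) '' elemSp).Finite :=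
    (Set.finite_range fun i => tv (five i) (1 : ℤ)).subset fun A ⟨u, ⟨i, hi⟩, hA⟩ =>
      ⟨i, hi.symm.trans hA⟩
  exact this.of_finite_image fun a _ b _ h => Subtype.ext (Units.ext h)

end Vale.Agent.P165.SP
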