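import Vale.Agent.P165.SP.Cells
import Vale.Agent.P165.FQ.Exit

/-!
# Discrete images in `Sp(4, ℝ)`: the estimates, the cocycle and finite windows

The estimates hold with one constant, the weight of points is a cocycle and every finite window has
some bound.
-/

namespace Vale.Agent.P165.SP.Env

open Finset Matrix Cells
open scoped Matrix.Norms.Frobenius

variable {Γ O ι : Type} [Group Γ] [Fintype ι] (E : Env Γ O ι)

/-! ### Nonvanishing -/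

theorem mul_rho_ne_zero {Q : M4} (hQ : Q ≠ 0) (g : Γ) : Q * E.ρ g ≠ 0 := fun h => hQ (by
  rw [← Matrix.mul_one Q, ← E.rho_mul_inv g, ← Matrix.mul_assoc, h, Matrix.zero_mul])

theorem mul_rep2_ne_zero {Q : M16} (hQ : Q * lag ≠ 0) (g : Γ) : Q * rep2 (E.ρ g) ≠ 0 := fun h =>
  hQ (by
    rw [lag, ← E.rho_mul_inv g, rep2_mul (E.symp g) (E.symp g⁻¹), ← Matrix.mul_assoc, h,
      Matrix.zero_mul])

theorem L_eq {Q : M4} (hQ : Q ≠ 0) (g : Γ) : E.L Q g = E.m g - Real.log ‖Q * E.ρ g‖ :=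
  Real.log_div (E.norm_rho_pos g).ne' (norm_pos_iff.2 (E.mul_rho_ne_zero hQ g)).ne'

theorem L2_eq {Q : M16} (hQ : Q * lag ≠ 0) (g : Γ) :
    E.L2 Q g = E.m2 g - Real.log ‖Q * rep2 (E.ρ g)‖ :=
  Real.log_div (E.norm_rep2_pos g).ne' (norm_pos_iff.2 (E.mul_rep2_ne_zero hQ g)).ne'

theorem rho_inv_eq (t : Γ) (X : M4) : X * (E.ρ t * E.ρ t⁻¹) = X := by
  rw [E.rho_mul_inv, Matrix.mul_one]

theorem rep2_mul_inv (t : Γ) : rep2 (E.ρ t) * rep2 (E.ρ t⁻¹) = lag := by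
  rw [← rep2_mul (E.symp t) (E.symp t⁻¹), E.rho_mul_inv, lag]

/-! ### The Cartan frame of one element -/

theorem norm_frame {k k' D : M4} (hk : IsK k) (hk' : IsK k') : ‖k * D * k'‖ = ‖D‖ := by
  rw [hk'.norm_mul_self, hk.norm_mul]

theorem norm_testP_frame {k k' D : M4} (hk : IsK k) (hk' : IsK k') (v : Fin 4 → ℝ) :
    ‖testP v * (k * D * k')‖ = ‖testP (kᵀ *ᵥ v) * D‖ := by
  rw [← Matrix.mul_assoc, hk'.norm_mul_self, ← Matrix.mul_assoc, hk.testP_mul, Matrix.mul_assoc,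
    hk.norm_mul]

theorem norm_rowJ_frame {k k' D : M4} (hk : IsK k) (hk' : IsK k') (v : Fin 4 → ℝ) :
    ‖rowJ v * (k * D * k')‖ = ‖rowJ (kᵀ *ᵥ v) * D‖ := by
  rw [← Matrix.mul_assoc, hk'.norm_mul_self, ← Matrix.mul_assoc]
  congr 2
  rw [rowJ, rowJ, vecMulVec_mul, ← mulVec_transpose, mulVec_mulVec, hk.transpose_mul_J,
    ← mulVec_mulVec]

theorem norm_rep2_frame {k k' : M4} (hk : IsK k) (hk' : IsK k') {Z : M16} (hl : lag * Z = Z)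
    (hr : Z * lag = Z) : ‖rep2 k * Z * rep2 k'‖ = ‖Z‖ := by
  rw [hk'.norm_mul_rep2 (by rw [Matrix.mul_assoc, hr]), hk.norm_rep2_mul hl]

theorem norm_testD_frame {k k' : M4} (hk : IsK k) (hk' : IsK k') {Z : M16} (hl : lag * Z = Z)
    (hr : Z * lag = Z) (v : Fin 4 → ℝ) :
    ‖testD v * (rep2 k * Z * rep2 k')‖ = ‖testD (kᵀ *ᵥ v) * Z‖ := by
  rw [← Matrix.mul_assoc, hk'.norm_mul_rep2 (by simp only [Matrix.mul_assoc, hr]), norm_testD_mul,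
    norm_testD_mul]
  have hc : ∀ (y : Fin 4 → ℝ) (A B : M16), contract y (A * B) = contract y A * B := fun y A B => by
    ext i c
    simp only [contract, Matrix.mul_apply, of_apply, sum_mul]
    rw [sum_comm]
    exact sum_congr rfl fun a _ => sum_congr rfl fun b _ => by ring
  have e : rep2 k * Z = rep2 k * rep2 1 * Z := by
    rw [Matrix.mul_assoc, show rep2 (1 : M4) * Z = Z from hl]
  rw [e, hc, hk.contract_rep2_mul isSymp_one, Matrix.mul_assoc, hk.norm_mul', ← hc,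
    show rep2 (1 : M4) * Z = Z from hl, mulVec_mulVec, hk.transpose_mul_J, ← mulVec_mulVec]

theorem norm_testP_rep2_frame {k k' : M4} (hk : IsK k) (hk' : IsK k') {Z : M16}
    (hl : lag * Z = Z) (hr : Z * lag = Z) {P : I2 → ℝ} (hP : IsUnitLag P) :
    ∃ Q : I2 → ℝ, Q ⬝ᵥ Q = 1 ∧ ‖testP P * (rep2 k * Z * rep2 k')‖ = ‖testP Q * Z‖ := by
  refine ⟨(rep2 k)ᵀ *ᵥ P, ?_, ?_⟩
  · rw [dotProduct_mulVec, vecMul_transpose, mulVec_mulVec, hk.rep2_mul_transpose, hP.2]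
    exact hP.1
  have hQ : lag *ᵥ ((rep2 k)ᵀ *ᵥ P) = (rep2 k)ᵀ *ᵥ P := by
    rw [mulVec_mulVec, rep2_transpose, lag_mul hk.2.transpose]
  have e : testP P * rep2 k = rep2 k * testP ((rep2 k)ᵀ *ᵥ P) := by
    rw [testP, testP, Matrix.sub_mul, Matrix.mul_sub, Matrix.one_mul, Matrix.mul_one,
      mul_vecMulVec, vecMulVec_mul, mulVec_mulVec, hk.rep2_mul_transpose, hP.2, mulVec_transpose]
  rw [← Matrix.mul_assoc, hk'.norm_mul_rep2 (by simp only [Matrix.mul_assoc, hr]),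
    ← Matrix.mul_assoc, e, Matrix.mul_assoc, hk.norm_rep2_mul]
  rw [testP, Matrix.sub_mul, Matrix.one_mul, Matrix.mul_sub, hl, vecMulVec_mul, mul_vecMulVec, hQ]

theorem lag_mulVec_top :
    lag *ᵥ wedge (Pi.single 0 1) (Pi.single 1 1) = wedge (Pi.single 0 1) (Pi.single 1 1) := by
  rw [lag, rep2_wedge 1 (by simp [J4, mulVec, dotProduct, Pi.single_apply]),
    one_mulVec, one_mulVec]

theorem lag_mul_top (s₁ s₂ : ℝ) : lag * top s₁ s₂ = top s₁ s₂ := by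
  rw [top, mul_vecMulVec, lag_mulVec_top]

theorem top_mul_lag (s₁ s₂ : ℝ) : top s₁ s₂ * lag = top s₁ s₂ := by
  rw [top, vecMulVec_mul, smul_vecMul, ← mulVec_transpose,
    show lagᵀ = lag by rw [lag, rep2_transpose, transpose_one], lag_mulVec_top]

/-- Two lines of the sizes at one element, in terms of the squares of its Cartan entries. -/
theorem exists_sizes (g : Γ) : ∃ X Y : ℝ, 1 ≤ Y ∧ Y ≤ X ∧
    X ≤ ‖E.ρ g‖ ^ 2 ∧ ‖E.ρ g‖ ^ 2 ≤ 4 * X ∧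
    X * Y ≤ ‖rep2 (E.ρ g)‖ ^ 2 ∧ ‖rep2 (E.ρ g)‖ ^ 2 ≤ 5 * (X * Y) ∧
    (∀ P, IsUnitLag P → X / Y ≤ ‖testP P * rep2 (E.ρ g)‖ ^ 2) ∧
    ∀ v, IsUnit4 v →
      Y ≤ ‖testP v * E.ρ g‖ ^ 2 ∧
      1 / 4 ≤ ‖testD v * rep2 (E.ρ g)‖ ^ 2 ∧
      ‖testD v * rep2 (E.ρ g)‖ ^ 2 ≤ 4 * (Y * ‖testP v * E.ρ g‖ ^ 2) ∧
      ‖testP v * E.ρ g‖ ^ 2 ≤ 16 * (Y * ‖testD v * rep2 (E.ρ g)‖ ^ 2) ∧
      ‖testD v * rep2 (E.ρ g)‖ ^ 2 ≤ 4 * (X * ‖rowJ v * E.ρ g‖ ^ 2) ∧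
      (∃ (u r : Fin 4 → ℝ) (N : M4), E.ρ g = vecMulVec u r + N ∧ ‖N‖ ^ 2 ≤ 3 * Y) ∧
      ∃ (u r : I2 → ℝ) (N : M16), rep2 (E.ρ g) = vecMulVec u r + N ∧ r ᵥ* lag = r ∧
        ‖N‖ ^ 2 ≤ 4 * (X / Y) ∧ Y * ‖testD v * N‖ ^ 2 ≤ 2 * ‖testP v * E.ρ g‖ ^ 2 := by
  obtain ⟨k, k', s₁, s₂, hk, hk', h₂, h₁, hg⟩ := cartan (E.symp g)
  have hD : IsSymp (diag4 s₁ s₂) := by
    have := hk.2.transpose.mul ((E.symp g).mul hk'.2.transpose)
    rwa [hg, ← Matrix.mul_assoc, ← Matrix.mul_assoc, ← Matrix.mul_assoc, hk.1, Matrix.one_mul,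
      Matrix.mul_assoc, hk'.mul_transpose, Matrix.mul_one] at this
  have hR : rep2 (E.ρ g) = rep2 k * rep2 (diag4 s₁ s₂) * rep2 k' := by
    rw [hg, rep2_mul (hk.2.mul hD) hk'.2, rep2_mul hk.2 hD]
  have n₁ : s₁ ≠ 0 := by linarith
  have n₂ : s₂ ≠ 0 := by linarith
  have hY : (1 : ℝ) ≤ s₂ ^ 2 := one_le_pow₀ h₂
  have hXY : s₂ ^ 2 ≤ s₁ ^ 2 := pow_le_pow_left₀ (by linarith) h₁ 2
  have hX0 : (0 : ℝ) < s₁ ^ 2 := by linarith
  have hY0 : (0 : ℝ) < s₂ ^ 2 := by linarith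
  have i1 : (s₁ ^ 2)⁻¹ ≤ 1 := inv_le_one_of_one_le₀ (hY.trans hXY)
  have i2 : (s₂ ^ 2)⁻¹ ≤ 1 := inv_le_one_of_one_le₀ hY
  have i3 : 0 ≤ (s₁ ^ 2)⁻¹ := inv_nonneg.2 hX0.le
  have i4 : 0 ≤ (s₂ ^ 2)⁻¹ := inv_nonneg.2 hY0.le
  have i5 : (s₁ ^ 2 * s₂ ^ 2)⁻¹ ≤ 1 :=
    inv_le_one_of_one_le₀ (one_le_mul_of_one_le_of_one_le (hY.trans hXY) hY)
  have i6 : 0 ≤ (s₁ ^ 2 * s₂ ^ 2)⁻¹ := inv_nonneg.2 (mul_nonneg hX0.le hY0.le)
  have i7 : s₂ ^ 2 / s₁ ^ 2 ≤ 1 := (div_le_one hX0).2 hXY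
  have i8 : 0 ≤ s₂ ^ 2 / s₁ ^ 2 := div_nonneg hY0.le hX0.le
  have i9 : 1 ≤ s₁ ^ 2 / s₂ ^ 2 := (one_le_div hY0).2 hXY
  have i10 : s₁ ^ 2 / s₂ ^ 2 ≤ s₁ ^ 2 * s₂ ^ 2 :=
    (div_le_self hX0.le hY).trans (le_mul_of_one_le_right hX0.le hY)
  have hl := lag_mul hD
  have hr := rep2_mul_lag hD
  refine ⟨s₁ ^ 2, s₂ ^ 2, hY, hXY, ?_, ?_, ?_, ?_, fun P hP => ?_, fun v hv => ?_⟩
  · rw [hg, norm_frame hk hk', norm_sq_diag]
    linarith
  · rw [hg, norm_frame hk hk', norm_sq_diag]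
    linarith
  · rw [hR, norm_rep2_frame hk hk' hl hr, norm_sq_rep2_diag n₁ n₂]
    linarith
  · rw [hR, norm_rep2_frame hk hk' hl hr, norm_sq_rep2_diag n₁ n₂]
    linarith
  · obtain ⟨Q, hQ, e⟩ := norm_testP_rep2_frame hk hk' hl hr hP
    rw [hR, e, ← div_pow]
    exact le_norm_sq_testP_rep2 hQ h₂ h₁
  have hc := hk.isUnit4 hv
  have eP : ‖testP v * E.ρ g‖ = ‖testP (kᵀ *ᵥ v) * diag4 s₁ s₂‖ := by
    rw [hg, norm_testP_frame hk hk']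
  have eD : ‖testD v * rep2 (E.ρ g)‖ = ‖testD (kᵀ *ᵥ v) * rep2 (diag4 s₁ s₂)‖ := by
    rw [hR, norm_testD_frame hk hk' hl hr]
  have eJ : ‖rowJ v * E.ρ g‖ = ‖rowJ (kᵀ *ᵥ v) * diag4 s₁ s₂‖ := by
    rw [hg, norm_rowJ_frame hk hk']
  have fP := norm_sq_testP_diag hc s₁ s₂
  have fD := norm_sq_testD_diag hc n₁ n₂
  have fJ := norm_sq_rowJ_diag (kᵀ *ᵥ v) s₁ s₂
  rw [← eP] at fP
  rw [← eD] at fD
  rw [← eJ] at fJ
  have hab : (kᵀ *ᵥ v) 0 ^ 2 + (kᵀ *ᵥ v) 1 ^ 2 + (kᵀ *ᵥ v) 2 ^ 2 + (kᵀ *ᵥ v) 3 ^ 2 = 1 := by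
    simpa [IsUnit4, dotProduct, Fin.sum_univ_four, sq] using hc
  obtain ⟨p1, p2, p3⟩ := point_facts hY hXY (sq_nonneg _) (sq_nonneg _) (sq_nonneg _)
    (sq_nonneg _) hab fP
  obtain ⟨d1, d2, d3, d4⟩ := plane_facts hY hXY (sq_nonneg _) (sq_nonneg _) (sq_nonneg _)
    (sq_nonneg _) hab fD
  have fN := norm_sq_testD_diag_sub hc n₁ n₂
  generalize ‖testP v * E.ρ g‖ ^ 2 = P at fP p1 p2 p3 ⊢
  generalize ‖testD v * rep2 (E.ρ g)‖ ^ 2 = D at fD d1 d2 d3 d4 ⊢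
  generalize ‖rowJ v * E.ρ g‖ ^ 2 = J at fJ ⊢
  generalize ha : (kᵀ *ᵥ v) 0 ^ 2 = a at *
  generalize hb : (kᵀ *ᵥ v) 1 ^ 2 = b at *
  generalize hcc : (kᵀ *ᵥ v) 2 ^ 2 = c at *
  generalize hd : (kᵀ *ᵥ v) 3 ^ 2 = d at *
  have a0 : 0 ≤ a := ha ▸ sq_nonneg _
  have b0 : 0 ≤ b := hb ▸ sq_nonneg _
  have c0 : 0 ≤ c := hcc ▸ sq_nonneg _
  have d0 : 0 ≤ d := hd ▸ sq_nonneg _
  have eXY : s₂ ^ 2 * (s₁ ^ 2 / s₂ ^ 2 * (b + d)) = s₁ ^ 2 * (b + d) := by field_simp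
  have bd : s₁ ^ 2 * (b + d) ≤ P :=
    le_trans (mul_le_mul_of_nonneg_left (by linarith) hX0.le) p1
  have cd : s₁ ^ 2 * (c + d) ≤ P :=
    le_trans (mul_le_mul_of_nonneg_left (by linarith) hX0.le) p1
  refine ⟨p2, d1, ?_, ?_, ?_, ?_, ?_⟩
  · have hP1 : 1 ≤ s₂ ^ 2 * P := one_le_mul_of_one_le_of_one_le hY (hY.trans p2)
    have h1 : s₁ ^ 2 * s₂ ^ 2 * (c + d) ≤ s₂ ^ 2 * P := by
      rw [mul_comm (s₁ ^ 2), mul_assoc]
      exact mul_le_mul_of_nonneg_left cd hY0.le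
    have h2 : s₁ ^ 2 / s₂ ^ 2 * (b + d) ≤ s₂ ^ 2 * P := by
      refine le_trans (mul_le_mul_of_nonneg_right (div_le_self hX0.le hY) (by linarith)) ?_
      exact bd.trans (le_mul_of_one_le_left (by linarith) hY)
    linarith
  · have h1 := mul_le_mul_of_nonneg_left d2 hY0.le
    have h2 := mul_le_mul_of_nonneg_left d3 hY0.le
    have h3 := mul_le_mul_of_nonneg_left d1 hY0.le
    have h4 : s₁ ^ 2 * (c + d) ≤ s₂ ^ 2 * (s₁ ^ 2 * s₂ ^ 2 * (c + d)) := by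
      rw [show s₂ ^ 2 * (s₁ ^ 2 * s₂ ^ 2 * (c + d)) = s₁ ^ 2 * (c + d) * (s₂ ^ 2 * s₂ ^ 2) by ring]
      exact le_mul_of_one_le_right (mul_nonneg hX0.le (by linarith))
        (one_le_mul_of_one_le_of_one_le hY hY)
    rw [eXY] at h2
    have : s₁ ^ 2 * (b + c + d) ≤ s₁ ^ 2 * (c + d) + s₁ ^ 2 * (b + d) := by
      rw [← mul_add]; exact mul_le_mul_of_nonneg_left (by linarith) hX0.le
    linarith
  · have hXX : s₁ ^ 2 * s₂ ^ 2 ≤ s₁ ^ 2 * s₁ ^ 2 := mul_le_mul_of_nonneg_left hXY hX0.le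
    have e1 : s₁ ^ 2 * J = s₁ ^ 2 * s₁ ^ 2 * d + s₁ ^ 2 * s₂ ^ 2 * c +
        s₁ ^ 2 / s₂ ^ 2 * b + a := by
      rw [fJ]; field_simp
    have h1 := mul_le_mul_of_nonneg_right hXX d0
    have h2 := mul_le_mul_of_nonneg_right i10 d0
    have h3 := mul_le_mul_of_nonneg_right (one_le_mul_of_one_le_of_one_le (hY.trans hXY) hY) c0
    have h4 := mul_le_mul_of_nonneg_right i9 b0
    have h5 := mul_le_mul_of_nonneg_right (one_le_mul_of_one_le_of_one_le (hY.trans hXY) hY) d0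
    linarith
  · refine ⟨k *ᵥ Pi.single 0 1, (s₁ • Pi.single 0 1) ᵥ* k',
      k * (diag4 s₁ s₂ - vecMulVec (Pi.single 0 1) (s₁ • Pi.single 0 1)) * k', ?_, ?_⟩
    · rw [hg, ← mul_vecMulVec, ← vecMulVec_mul, ← Matrix.mul_assoc, Matrix.mul_sub,
        Matrix.sub_mul, add_sub_cancel]
    · rw [norm_frame hk hk', norm_sq_eq]
      simp [diag4, diagonal, vecMulVec_apply, Pi.single_apply, Fin.sum_univ_four, inv_pow]
      linarith
  · refine ⟨rep2 k *ᵥ wedge (Pi.single 0 1) (Pi.single 1 1),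
      ((s₁ * s₂ / 2) • wedge (Pi.single 0 1) (Pi.single 1 1)) ᵥ* rep2 k',
      rep2 k * (rep2 (diag4 s₁ s₂) - top s₁ s₂) * rep2 k', ?_, ?_, ?_, ?_⟩
    · rw [hR, ← mul_vecMulVec, ← vecMulVec_mul, ← Matrix.mul_assoc, Matrix.mul_sub,
        Matrix.sub_mul, top, add_sub_cancel]
    · rw [vecMul_vecMul, rep2_mul_lag hk'.2]
    · rw [norm_rep2_frame hk hk' (by rw [Matrix.mul_sub, hl, lag_mul_top])
        (by rw [Matrix.sub_mul, hr, top_mul_lag]), norm_sq_rep2_diag_sub n₁ n₂]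
      linarith
    · rw [norm_testD_frame hk hk' (by rw [Matrix.mul_sub, hl, lag_mul_top])
        (by rw [Matrix.sub_mul, hr, top_mul_lag])]
      have q3 := mul_le_mul i7 (by linarith : a + c ≤ 1) (by linarith) zero_le_one
      have q4 := mul_le_mul i5 (by linarith : a + b ≤ 1) (by linarith) zero_le_one
      have h1 := mul_le_mul_of_nonneg_left (le_of_eq fN) hY0.le
      have h2 := mul_le_mul_of_nonneg_left q3 hY0.le
      have h3 := mul_le_mul_of_nonneg_left q4 hY0.le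
      linarith

/-! ### Logarithms -/

theorem log_sub_le {x y K : ℝ} (hx : 0 < x) (hy : 0 < y) (hK : 0 < K) (h : x ≤ K * y) :
    Real.log x - Real.log y ≤ Real.log K := by
  have := Real.log_le_log hx h
  rw [Real.log_mul hK.ne' hy.ne'] at this
  linarith

theorem testP_ne_zero {v : Fin 4 → ℝ} (hv : IsUnit4 v) : testP v ≠ 0 := fun h => by
  have := congrArg trace h
  rw [testP, trace_sub, trace_one, trace_vecMulVec, show v ⬝ᵥ v = 1 from hv, trace_zero] at this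
  norm_num at this

theorem rowJ_ne_zero {v : Fin 4 → ℝ} (hv : IsUnit4 v) : rowJ v ≠ 0 := fun h => by
  have h' : ‖rowJ v‖ ^ 2 = 1 := by
    rw [rowJ, norm_sq_vecMulVec, dotProduct_mulVec, ← mulVec_transpose, mulVec_mulVec,
      J4_transpose, Matrix.neg_mul, J4_mul_J4, neg_neg, one_mulVec, show v ⬝ᵥ v = 1 from hv]
    simp
  rw [h, norm_zero] at h'
  norm_num at h'

/-- All inequalities between the sizes at one element. -/
theorem exists_cells : ∃ C, 0 ≤ C ∧ (∀ g, -C ≤ E.ra g ∧ -C ≤ E.rb g) ∧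
    (∀ v, IsUnit4 v → ∀ g, -C ≤ E.pv v g ∧ E.pv v g ≤ E.ra g + C) ∧
    (∀ v, IsUnit4 v → ∀ g, E.pv v g ≤ E.dv v g + C ∧ E.dv v g ≤ E.rb g + E.pv v g + C) ∧
    (∀ P, IsUnitLag P → ∀ g, E.cP P g ≤ E.rb g + C) ∧
    (∀ v, IsUnit4 v → ∀ g, E.jv v g ≤ E.ra g + E.dv v g + C) ∧
    ∀ v, IsUnit4 v → E.pv v 1 ≤ C ∧ E.dv v 1 ≤ C := by
  have h320 : (0 : ℝ) ≤ Real.log 320 := Real.log_nonneg (by norm_num)
  have tol : ∀ {x y : ℝ} (K : ℝ), 0 < x → 0 < y → 1 ≤ K → K ≤ 320 → x ≤ K * y →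
      Real.log x - Real.log y ≤ Real.log 320 := fun K hx hy h1 h2 h =>
    (log_sub_le hx hy (by linarith) h).trans (Real.log_le_log (by linarith) h2)
  have pG : ∀ g, 0 < ‖E.ρ g‖ ^ 2 := fun g => pow_pos (E.norm_rho_pos g) 2
  have pR : ∀ g, 0 < ‖rep2 (E.ρ g)‖ ^ 2 := fun g => pow_pos (E.norm_rep2_pos g) 2
  have lG : ∀ g, Real.log (‖E.ρ g‖ ^ 2) = 2 * E.m g := fun g => by
    rw [Real.log_pow, m]; norm_num
  have lR : ∀ g, Real.log (‖rep2 (E.ρ g)‖ ^ 2) = 2 * E.m2 g := fun g => by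
    rw [Real.log_pow, m2]; norm_num
  have lL : ∀ (Q : M4) g, 0 < ‖Q * E.ρ g‖ ^ 2 →
      2 * E.L Q g = Real.log (‖E.ρ g‖ ^ 2) - Real.log (‖Q * E.ρ g‖ ^ 2) := fun Q g h => by
    rw [L, ← Real.log_div (pG g).ne' h.ne', ← div_pow, Real.log_pow]; norm_num
  have lL2 : ∀ (Q : M16) g, 0 < ‖Q * rep2 (E.ρ g)‖ ^ 2 →
      2 * E.L2 Q g = Real.log (‖rep2 (E.ρ g)‖ ^ 2) - Real.log (‖Q * rep2 (E.ρ g)‖ ^ 2) :=
    fun Q g h => by
    rw [L2, ← Real.log_div (pR g).ne' h.ne', ← div_pow, Real.log_pow]; norm_num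
  refine ⟨Real.log 320, h320, fun g => ?_, fun v hv g => ?_, fun v hv g => ?_, fun P hP g => ?_,
    fun v hv g => ?_, fun v hv => ?_⟩
  · obtain ⟨X, Y, hY, hXY, g1, g2, r1, r2, -⟩ := E.exists_sizes g
    have a1 := tol 5 (pR g) (mul_pos (pG g) (pG g)) (by norm_num) (by norm_num) (r2.trans (by
      have : X * Y ≤ ‖E.ρ g‖ ^ 2 * ‖E.ρ g‖ ^ 2 :=
        mul_le_mul g1 (hXY.trans g1) (by linarith) (sq_nonneg _)
      linarith))
    have a2 := tol 4 (pG g) (pR g) (by norm_num) (by norm_num)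
      (g2.trans (by linarith [(le_mul_of_one_le_right (by linarith) hY : X ≤ X * Y)]))
    rw [Real.log_mul (pG g).ne' (pG g).ne', lG, lR] at a1
    rw [lG, lR] at a2
    rw [ra, rb]
    constructor <;> linarith
  · obtain ⟨X, Y, hY, hXY, g1, g2, r1, r2, -, hv'⟩ := E.exists_sizes g
    obtain ⟨p, -⟩ := hv' v hv
    have hP0 : 0 < ‖testP v * E.ρ g‖ ^ 2 := by linarith
    have a1 := tol 5 (pR g) (mul_pos (pG g) hP0) (by norm_num) (by norm_num) (r2.trans (by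
      have : X * Y ≤ ‖E.ρ g‖ ^ 2 * ‖testP v * E.ρ g‖ ^ 2 :=
        mul_le_mul g1 p (by linarith) (sq_nonneg _)
      linarith))
    have a2 := Real.log_le_log hP0
      (pow_le_pow_left₀ (norm_nonneg _) (norm_testP_le (show v ⬝ᵥ v = 1 from hv) (E.ρ g)) 2)
    rw [Real.log_mul (pG g).ne' hP0.ne', lR] at a1
    have e := lL _ g hP0
    rw [lG] at a1 a2 e
    rw [pv, ra]
    constructor <;> linarith
  · obtain ⟨X, Y, hY, hXY, g1, g2, r1, r2, -, hv'⟩ := E.exists_sizes g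
    obtain ⟨p, d, dp, pd, -⟩ := hv' v hv
    have hP0 : 0 < ‖testP v * E.ρ g‖ ^ 2 := by linarith
    have hD0 : 0 < ‖testD v * rep2 (E.ρ g)‖ ^ 2 := by linarith
    have a1 := tol 16 (mul_pos (pG g) hD0) (mul_pos (pR g) hP0) (by norm_num) (by norm_num) (by
      calc ‖E.ρ g‖ ^ 2 * ‖testD v * rep2 (E.ρ g)‖ ^ 2
          ≤ 4 * X * (4 * (Y * ‖testP v * E.ρ g‖ ^ 2)) :=
            mul_le_mul g2 dp (sq_nonneg _) (by linarith)
        _ = 16 * (X * Y * ‖testP v * E.ρ g‖ ^ 2) := by ring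
        _ ≤ _ := by linarith [mul_le_mul_of_nonneg_right r1 hP0.le])
    have a2 := tol 64 (mul_pos (pG g) hP0) (mul_pos (pR g) hD0) (by norm_num) (by norm_num) (by
      calc ‖E.ρ g‖ ^ 2 * ‖testP v * E.ρ g‖ ^ 2
          ≤ 4 * X * (16 * (Y * ‖testD v * rep2 (E.ρ g)‖ ^ 2)) :=
            mul_le_mul g2 pd (sq_nonneg _) (by linarith)
        _ = 64 * (X * Y * ‖testD v * rep2 (E.ρ g)‖ ^ 2) := by ring
        _ ≤ _ := by linarith [mul_le_mul_of_nonneg_right r1 hD0.le])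
    rw [Real.log_mul (pG g).ne' hD0.ne', Real.log_mul (pR g).ne' hP0.ne', lG, lR] at a1
    rw [Real.log_mul (pG g).ne' hP0.ne', Real.log_mul (pR g).ne' hD0.ne', lG, lR] at a2
    have e1 := lL _ g hP0
    have e2 := lL2 _ g hD0
    rw [lG] at e1
    rw [lR] at e2
    rw [pv, dv, rb]
    constructor <;> linarith
  · obtain ⟨X, Y, hY, hXY, g1, g2, r1, r2, hP', -⟩ := E.exists_sizes g
    have t := hP' P hP
    have hT : 0 < ‖testP P * rep2 (E.ρ g)‖ ^ 2 :=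
      (div_pos (by linarith) (by linarith)).trans_le t
    have a1 := tol 16 (mul_pos (pG g) (pG g)) (mul_pos (pR g) hT) (by norm_num) (by norm_num) (by
      calc ‖E.ρ g‖ ^ 2 * ‖E.ρ g‖ ^ 2 ≤ 4 * X * (4 * X) :=
            mul_le_mul g2 g2 (sq_nonneg _) (by linarith)
        _ = 16 * (X * Y * (X / Y)) := by
            have : Y ≠ 0 := by linarith
            field_simp; ring
        _ ≤ _ := mul_le_mul_of_nonneg_left
            (mul_le_mul r1 t (div_nonneg (by linarith) (by linarith)) (sq_nonneg _)) (by norm_num))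
    rw [Real.log_mul (pG g).ne' (pG g).ne', Real.log_mul (pR g).ne' hT.ne', lG, lR] at a1
    have e := lL2 _ g hT
    rw [lR] at e
    rw [cP, rb]
    linarith
  · obtain ⟨X, Y, hY, hXY, g1, g2, r1, r2, -, hv'⟩ := E.exists_sizes g
    obtain ⟨p, d, -, -, dj, -⟩ := hv' v hv
    have hD0 : 0 < ‖testD v * rep2 (E.ρ g)‖ ^ 2 := by linarith
    have hJ0 : 0 < ‖rowJ v * E.ρ g‖ ^ 2 :=
      pow_pos (norm_pos_iff.2 (E.mul_rho_ne_zero (rowJ_ne_zero hv) g)) 2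
    have a1 := tol 4 hD0 (mul_pos (pG g) hJ0) (by norm_num) (by norm_num) (dj.trans (by
      linarith [mul_le_mul_of_nonneg_right g1 hJ0.le]))
    rw [Real.log_mul (pG g).ne' hJ0.ne', lG] at a1
    have e1 := lL _ g hJ0
    have e2 := lL2 _ g hD0
    rw [lG] at e1
    rw [lR] at e2
    rw [jv, dv, ra]
    linarith
  · obtain ⟨X, Y, hY, hXY, g1, g2, r1, r2, -, hv'⟩ := E.exists_sizes 1
    obtain ⟨p, d, -⟩ := hv' v hv
    have h1 : ‖E.ρ 1‖ ^ 2 = 4 := by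
      rw [map_one, norm_sq_eq]; simp [Matrix.one_apply]
    have hP0 : 0 < ‖testP v * E.ρ 1‖ ^ 2 := by linarith
    have hD0 : 0 < ‖testD v * rep2 (E.ρ 1)‖ ^ 2 := by linarith
    have a1 := tol 4 (pG 1) hP0 (by norm_num) (by norm_num) (by linarith)
    have a2 := tol 320 (pR 1) hD0 (by norm_num) le_rfl (by nlinarith)
    have e1 := lL _ 1 hP0
    have e2 := lL2 _ 1 hD0
    rw [pv, dv]
    constructor <;> linarith

/-! ### Steps -/

theorem div_le_of_sq {x y z p q : ℝ} (hy : 0 < y) (hz : 0 ≤ z) (hq : 0 < q) (hz2 : z ^ 2 = p / q)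
    (K : ℝ) (hK : 0 ≤ K) (h : x ^ 2 * q ≤ K ^ 2 * (p * y ^ 2)) : x / y ≤ K * z := by
  rw [div_le_iff₀ hy]
  refine le_of_sq_le_sq ?_ (by positivity)
  rw [mul_pow, mul_pow, hz2, mul_div_assoc', div_mul_eq_mul_div, le_div_iff₀ hq]
  linarith

theorem exists_steps (t : Γ) : ∃ C, 0 ≤ C ∧ ∀ v, IsUnit4 v → ∀ g : Γ,
    |E.pv v (g * t) - E.pv v g| ≤ C * Real.exp (E.pv v g - E.ra g) ∧
      |E.dv v (g * t) - E.dv v g| ≤ C * Real.exp (E.dv v g - E.pv v g - E.rb g) := by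
  obtain ⟨M, hM, b1, b2, b3, b4⟩ : ∃ M : ℝ, 1 ≤ M ∧ ‖E.ρ t‖ ≤ M ∧ ‖E.ρ t⁻¹‖ ≤ M ∧
      ‖rep2 (E.ρ t)‖ ≤ M ∧ ‖rep2 (E.ρ t⁻¹)‖ ≤ M := by
    refine ⟨1 + ‖E.ρ t‖ + ‖E.ρ t⁻¹‖ + ‖rep2 (E.ρ t)‖ + ‖rep2 (E.ρ t⁻¹)‖, ?_, ?_, ?_, ?_, ?_⟩ <;>
      linarith [norm_nonneg (E.ρ t), norm_nonneg (E.ρ t⁻¹), norm_nonneg (rep2 (E.ρ t)),
        norm_nonneg (rep2 (E.ρ t⁻¹))]
  set K := 4 * M ^ 2 * (1 + 2 * Real.log M) with hKdef
  have hK : 0 ≤ K := mul_nonneg (by positivity) (by linarith [Real.log_nonneg hM])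
  refine ⟨16 * K, by linarith, fun v hv g => ?_⟩
  obtain ⟨X, Y, hY, hXY, g1, g2, r1, r2, -, hv'⟩ := E.exists_sizes g
  obtain ⟨p, d, dp, -, -, ⟨u, r, N, hA, hN⟩, u', r', N', hR, hr', hN', hDN⟩ := hv' v hv
  have hA0 := E.norm_rho_pos g
  have hR0 := E.norm_rep2_pos g
  have hP0 : 0 < ‖testP v * E.ρ g‖ := norm_pos_iff.2 (E.mul_rho_ne_zero (testP_ne_zero hv) g)
  have hD0 : 0 < ‖testD v * rep2 (E.ρ g)‖ := norm_pos_iff.2 fun h => by
    rw [h, norm_zero] at d; norm_num at d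
  have e2 : rep2 (E.ρ (g * t)) = rep2 (E.ρ g) * rep2 (E.ρ t) := E.rep2_rho_mul g t
  constructor
  · refine le_trans (le_of_eq_of_le ?_ (defect_step (P := testP v) hM b1 b2
      (by rw [E.rho_mul_inv, vecMul_one]) hA (E.rho_inv_eq t _) hP0)) ?_
    · rw [pv, pv, L, L, map_mul]
    have hz : Real.exp (E.pv v g - E.ra g) ^ 2 =
        ‖rep2 (E.ρ g)‖ ^ 2 / (‖E.ρ g‖ ^ 2 * ‖testP v * E.ρ g‖ ^ 2) := by
      rw [pv, L, ra, m, m2, Real.exp_sub, Real.exp_sub, Real.exp_log (div_pos hA0 hP0), two_mul,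
        Real.exp_add, Real.exp_log hA0, Real.exp_log hR0]
      field_simp
    have hGY : ‖E.ρ g‖ ^ 2 * ‖N‖ ^ 2 ≤ 12 * ‖rep2 (E.ρ g)‖ ^ 2 := by
      have := mul_le_mul g2 hN (sq_nonneg _) (by linarith)
      linarith
    have h1 : ‖N‖ / ‖E.ρ g‖ ≤ ‖N‖ / ‖testP v * E.ρ g‖ :=
      div_le_div_of_nonneg_left (norm_nonneg _) hP0 (norm_testP_le (show v ⬝ᵥ v = 1 from hv) _)
    have h2 : ‖testP v * N‖ / ‖testP v * E.ρ g‖ ≤ ‖N‖ / ‖testP v * E.ρ g‖ :=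
      div_le_div_of_nonneg_right (norm_testP_le (show v ⬝ᵥ v = 1 from hv) _) hP0.le
    have h3 : ‖N‖ / ‖testP v * E.ρ g‖ ≤ 8 * Real.exp (E.pv v g - E.ra g) := by
      refine div_le_of_sq hP0 (Real.exp_pos _).le (by positivity) hz 8 (by norm_num) ?_
      have := mul_le_mul_of_nonneg_right hGY (sq_nonneg ‖testP v * E.ρ g‖)
      linarith [mul_nonneg (sq_nonneg ‖rep2 (E.ρ g)‖) (sq_nonneg ‖testP v * E.ρ g‖)]
    exact (mul_le_mul_of_nonneg_left (show _ ≤ 16 * Real.exp (E.pv v g - E.ra g) by linarith)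
      hK).trans (le_of_eq (by ring))
  · refine le_trans (le_of_eq_of_le ?_ (defect_step (P := testD v) hM b3 b4
      (by rw [E.rep2_mul_inv, hr']) hR (by rw [E.rep2_mul_inv, rep2_mul_lag (E.symp g)]) hD0)) ?_
    · rw [dv, dv, L2, L2, e2]
    have hz : Real.exp (E.dv v g - E.pv v g - E.rb g) ^ 2 =
        ‖testP v * E.ρ g‖ ^ 2 * ‖E.ρ g‖ ^ 2 /
          (‖testD v * rep2 (E.ρ g)‖ ^ 2 * ‖rep2 (E.ρ g)‖ ^ 2) := by
      rw [dv, L2, pv, L, rb, m, m2, Real.exp_sub, Real.exp_sub, Real.exp_log (div_pos hR0 hD0),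
        Real.exp_log (div_pos hA0 hP0), two_mul, Real.exp_add, Real.exp_sub, Real.exp_log hA0,
        Real.exp_log hR0]
      field_simp
    have hX0 : 0 < X := by linarith
    have h1 : ‖N'‖ / ‖rep2 (E.ρ g)‖ ≤ 8 * Real.exp (E.dv v g - E.pv v g - E.rb g) := by
      refine div_le_of_sq hR0 (Real.exp_pos _).le (by positivity) hz 8 (by norm_num) ?_
      have h := mul_le_mul hN' dp (sq_nonneg _) (by positivity)
      rw [show 4 * (X / Y) * (4 * (Y * ‖testP v * E.ρ g‖ ^ 2)) =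
        16 * (X * ‖testP v * E.ρ g‖ ^ 2) by field_simp; ring] at h
      have h' := h.trans (mul_le_mul_of_nonneg_left
        (mul_le_mul_of_nonneg_right g1 (sq_nonneg ‖testP v * E.ρ g‖)) (by norm_num))
      have h'' := mul_le_mul_of_nonneg_right h' (sq_nonneg ‖rep2 (E.ρ g)‖)
      linarith [mul_nonneg (mul_nonneg (sq_nonneg ‖testP v * E.ρ g‖) (sq_nonneg ‖E.ρ g‖))
        (sq_nonneg ‖rep2 (E.ρ g)‖)]
    have h2 : ‖testD v * N'‖ / ‖testD v * rep2 (E.ρ g)‖ ≤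
        8 * Real.exp (E.dv v g - E.pv v g - E.rb g) := by
      refine div_le_of_sq hD0 (Real.exp_pos _).le (by positivity) hz 8 (by norm_num) ?_
      have h := mul_le_mul_of_nonneg_left hDN hX0.le
      have h' := mul_le_mul_of_nonneg_left r2 (sq_nonneg ‖testD v * N'‖)
      have h'' := mul_le_mul_of_nonneg_right g1 (sq_nonneg ‖testP v * E.ρ g‖)
      have key : ‖testD v * N'‖ ^ 2 * ‖rep2 (E.ρ g)‖ ^ 2 ≤
          10 * (‖E.ρ g‖ ^ 2 * ‖testP v * E.ρ g‖ ^ 2) := by linarith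
      have := mul_le_mul_of_nonneg_left key (sq_nonneg ‖testD v * rep2 (E.ρ g)‖)
      linarith [mul_nonneg (sq_nonneg ‖testD v * rep2 (E.ρ g)‖)
        (mul_nonneg (sq_nonneg ‖E.ρ g‖) (sq_nonneg ‖testP v * E.ρ g‖))]
    exact (mul_le_mul_of_nonneg_left
      (show _ ≤ 16 * Real.exp (E.dv v g - E.pv v g - E.rb g) by linarith) hK).trans
      (le_of_eq (by ring))

/-! ### Frames -/

/-- The logarithm of a product that is not far below the product of the sizes. -/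
theorem log_slot {n : Type} [Fintype n] [DecidableEq n] {U V W : Matrix n n ℝ} {c M : ℝ}
    (hc : 0 < c) (hM : 1 ≤ M) (hU : 0 < ‖U‖) (hW : 0 < ‖W‖) (hV : ‖V‖ ≤ M)
    (hlow : c * (‖U‖ * ‖W‖) ≤ ‖U * V * W‖) :
    |Real.log ‖U * V * W‖ - Real.log ‖U‖ - Real.log ‖W‖| ≤ |Real.log c| + Real.log M := by
  have hy : 0 < ‖U * V * W‖ := (mul_pos hc (mul_pos hU hW)).trans_le hlow
  have hup : ‖U * V * W‖ ≤ ‖U‖ * M * ‖W‖ :=
    (norm_mul_le _ _).trans (mul_le_mul_of_nonneg_right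
      ((norm_mul_le _ _).trans (mul_le_mul_of_nonneg_left hV (norm_nonneg _))) (norm_nonneg _))
  have l1 := Real.log_le_log (mul_pos hc (mul_pos hU hW)) hlow
  have l2 := Real.log_le_log hy hup
  have hM0 : 0 < M := by linarith
  rw [Real.log_mul hc.ne' (mul_pos hU hW).ne', Real.log_mul hU.ne' hW.ne'] at l1
  rw [Real.log_mul (mul_pos hU hM0).ne' hW.ne', Real.log_mul hU.ne' hM0.ne'] at l2
  rw [abs_le]
  constructor <;> linarith [neg_abs_le (Real.log c), abs_nonneg (Real.log c), Real.log_nonneg hM]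

theorem exists_frame_est : ∃ C, 0 ≤ C ∧ ∀ (Q : Fin 3 → M4) (Q' : Fin 3 → M16) (z h : Γ),
    ∃ σ ∈ E.F, |E.m (z * σ * h) - E.m z - E.m h| ≤ C ∧
      |E.m2 (z * σ * h) - E.m2 z - E.m2 h| ≤ C ∧
      ∀ i, (Q i ≠ 0 → |E.L (Q i) (z * σ * h) - E.L (Q i) z| ≤ C) ∧
        (Q' i * lag ≠ 0 → |E.L2 (Q' i) (z * σ * h) - E.L2 (Q' i) z| ≤ C) := by
  set M : ℝ := 1 + ∑ σ ∈ E.F, (‖E.ρ σ‖ + ‖rep2 (E.ρ σ)‖) with hMdef
  have hs : 0 ≤ ∑ σ ∈ E.F, (‖E.ρ σ‖ + ‖rep2 (E.ρ σ)‖) :=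
    sum_nonneg fun _ _ => add_nonneg (norm_nonneg _) (norm_nonneg _)
  have hM1 : 1 ≤ M := by linarith
  have hM : ∀ σ ∈ E.F, ‖E.ρ σ‖ ≤ M ∧ ‖rep2 (E.ρ σ)‖ ≤ M := fun σ hσ => by
    have h := single_le_sum (f := fun σ => ‖E.ρ σ‖ + ‖rep2 (E.ρ σ)‖)
      (fun _ _ => add_nonneg (norm_nonneg _) (norm_nonneg _)) hσ
    constructor <;> linarith [norm_nonneg (E.ρ σ), norm_nonneg (rep2 (E.ρ σ))]
  set D : ℝ := |Real.log E.c| + Real.log M
  have hlM : 0 ≤ Real.log M := Real.log_nonneg hM1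
  refine ⟨2 * D, by positivity, fun Q Q' z h => ?_⟩
  obtain ⟨σ, hσ, hfr⟩ := E.frames ![Q 0, Q 1, Q 2, 1] ![Q' 0, Q' 1, Q' 2, 1] z h
  obtain ⟨hσ1, hσ2⟩ := hM σ hσ
  have slot : ∀ P : M4, P ≠ 0 →
      E.c * (‖P * E.ρ z‖ * ‖E.ρ h‖) ≤ ‖P * E.ρ (z * σ * h)‖ →
      |Real.log ‖P * E.ρ (z * σ * h)‖ - Real.log ‖P * E.ρ z‖ - E.m h| ≤ D := by
    intro P hP hlow
    have e : P * E.ρ (z * σ * h) = P * E.ρ z * E.ρ σ * E.ρ h := by
      simp only [map_mul, Matrix.mul_assoc]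
    rw [e] at hlow ⊢
    exact log_slot E.c_pos hM1 (norm_pos_iff.2 (E.mul_rho_ne_zero hP z)) (E.norm_rho_pos h)
      hσ1 hlow
  have slot2 : ∀ P : M16, P * lag ≠ 0 →
      E.c * (‖P * rep2 (E.ρ z)‖ * ‖rep2 (E.ρ h)‖) ≤ ‖P * rep2 (E.ρ (z * σ * h))‖ →
      |Real.log ‖P * rep2 (E.ρ (z * σ * h))‖ - Real.log ‖P * rep2 (E.ρ z)‖ - E.m2 h| ≤ D := by
    intro P hP hlow
    have e : P * rep2 (E.ρ (z * σ * h)) =
        P * rep2 (E.ρ z) * rep2 (E.ρ σ) * rep2 (E.ρ h) := by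
      simp only [E.rep2_rho_mul, Matrix.mul_assoc]
    rw [e] at hlow ⊢
    exact log_slot E.c_pos hM1 (norm_pos_iff.2 (E.mul_rep2_ne_zero hP z)) (E.norm_rep2_pos h)
      hσ2 hlow
  have h3 : |E.m (z * σ * h) - E.m z - E.m h| ≤ D := by
    have := slot 1 one_ne_zero (by simpa using (hfr 3).1)
    simpa [m] using this
  have h3' : |E.m2 (z * σ * h) - E.m2 z - E.m2 h| ≤ D := by
    have := slot2 1 (by rw [Matrix.one_mul]; exact lag_ne_zero) (by simpa using (hfr 3).2)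
    simpa [m2] using this
  have hD : D ≤ 2 * D := by linarith [(abs_nonneg _).trans h3]
  refine ⟨σ, hσ, h3.trans hD, h3'.trans hD, fun i => ⟨fun hi => ?_, fun hi => ?_⟩⟩
  · have hs := slot (Q i) hi (by
      have := (hfr i.castSucc).1
      fin_cases i <;> simpa using this)
    rw [E.L_eq hi, E.L_eq hi]
    rw [abs_le] at hs h3 ⊢
    constructor <;> linarith
  · have hs := slot2 (Q' i) hi (by
      have := (hfr i.castSucc).2
      fin_cases i <;> simpa using this)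
    rw [E.L2_eq hi, E.L2_eq hi]
    rw [abs_le] at hs h3' ⊢
    constructor <;> linarith

/-- The estimates hold. -/
theorem est_ok [Fintype O] : E.EstOK := by
  obtain ⟨C₁, p₁, hfr⟩ := E.exists_frame_est
  obtain ⟨C₂, p₂, hr, hp, hd, hc, hj, h1⟩ := E.exists_cells
  choose Cf hC0 hCf using fun q : O × ι => E.exists_steps (E.nb (1, q.1) q.2).1
  have hS : 0 ≤ ∑ q, Cf q := sum_nonneg fun q _ => hC0 q
  have le : ∀ o i, Cf (o, i) ≤ C₁ + C₂ + ∑ q, Cf q := fun o i =>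
    (single_le_sum (fun q _ => hC0 q) (mem_univ (o, i))).trans (by linarith)
  refine ⟨C₁ + C₂ + ∑ q, Cf q, by linarith, fun Q Q' z h => ?_, fun g => ?_, fun v hv g => ?_,
    fun v hv g => ?_, fun P hP g => ?_, fun v hv g => ?_, fun v hv => ?_,
    fun v hv g o i => ?_, fun v hv g o i => ?_⟩
  · obtain ⟨σ, hσ, a, b, c⟩ := hfr Q Q' z h
    exact ⟨σ, hσ, a.trans (by linarith), b.trans (by linarith), fun i =>
      ⟨fun hi => ((c i).1 hi).trans (by linarith), fun hi => ((c i).2 hi).trans (by linarith)⟩⟩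
  · have := hr g; constructor <;> linarith
  · have := hp v hv g; constructor <;> linarith
  · have := hd v hv g; constructor <;> linarith
  · have := hc P hP g; linarith
  · have := hj v hv g; linarith
  · have := h1 v hv; constructor <;> linarith
  · exact ((hCf (o, i) v hv g).1).trans (mul_le_mul_of_nonneg_right (le o i) (Real.exp_pos _).le)
  · exact ((hCf (o, i) v hv g).2).trans (mul_le_mul_of_nonneg_right (le o i) (Real.exp_pos _).le)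

/-! ### The weight -/

theorem En_eq {v : Fin 4 → ℝ} (hv : IsUnit4 v) (g : Γ) :
    E.En v g = Real.log ‖rowJ v * E.ρ g‖ := by
  rw [En, jv, E.L_eq (rowJ_ne_zero hv)]
  ring

/-- The weight is a cocycle on points. -/
theorem cocycle_ok : E.CocycleOK := by
  intro v hv g
  set w : Fin 4 → ℝ := (J4 *ᵥ v) ᵥ* E.ρ g with hw
  set a : ℝ := ‖rowJ v * E.ρ g‖
  have ha : 0 < a := norm_pos_iff.2 (E.mul_rho_ne_zero (rowJ_ne_zero hv) g)
  have haw : a ^ 2 = w ⬝ᵥ w := by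
    simp only [a, rowJ, vecMulVec_mul, ← hw, norm_sq_vecMulVec]
    simp
  set v' : Fin 4 → ℝ := a⁻¹ • -(J4 *ᵥ w) with hv'
  have hJ : J4 *ᵥ v' = a⁻¹ • w := by
    rw [hv', mulVec_smul, mulVec_neg, mulVec_mulVec, J4_mul_J4, neg_mulVec, one_mulVec, neg_neg]
  have hrow : rowJ v' = a⁻¹ • (rowJ v * E.ρ g) := by
    rw [rowJ, hJ, vecMulVec_smul, rowJ, vecMulVec_mul, ← hw]
  have hu : IsUnit4 v' := by
    have e : v' ⬝ᵥ v' = (J4 *ᵥ v') ⬝ᵥ (J4 *ᵥ v') := by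
      rw [dotProduct_mulVec (J4 *ᵥ v'), ← mulVec_transpose, mulVec_mulVec, J4_transpose,
        Matrix.neg_mul, J4_mul_J4, neg_neg, one_mulVec]
    rw [IsUnit4, e, hJ, smul_dotProduct, dotProduct_smul, ← haw, smul_eq_mul, smul_eq_mul]
    field_simp
  refine ⟨v', hu, fun β h => ?_⟩
  rw [Wt, Wt, Wt, ← Real.exp_add, E.En_eq hv, E.En_eq hv, E.En_eq hu, hrow, Matrix.smul_mul,
    norm_smul, map_mul, ← Matrix.mul_assoc, Real.norm_eq_abs, abs_of_pos (inv_pos.2 ha),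
    Real.log_mul (inv_pos.2 ha).ne' (norm_pos_iff.2 (by
      rw [Matrix.mul_assoc, ← map_mul]
      exact E.mul_rho_ne_zero (rowJ_ne_zero hv) _)).ne', Real.log_inv]
  congr 1
  ring

theorem neg_m_inv_le {v : Fin 4 → ℝ} (hv : IsUnit4 v) (g : Γ) :
    -E.m g⁻¹ ≤ Real.log ‖rowJ v * E.ρ g‖ := by
  have h1 : ‖rowJ v‖ = 1 := by
    refine (sq_eq_sq₀ (norm_nonneg _) zero_le_one).1 ?_
    rw [rowJ, norm_sq_vecMulVec, dotProduct_mulVec, ← mulVec_transpose, mulVec_mulVec,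
      J4_transpose, Matrix.neg_mul, J4_mul_J4, neg_neg, one_mulVec, show v ⬝ᵥ v = 1 from hv]
    simp
  have h : (1 : ℝ) ≤ ‖rowJ v * E.ρ g‖ * ‖E.ρ g⁻¹‖ := by
    refine le_trans (le_of_eq ?_) (norm_mul_le _ _)
    rw [Matrix.mul_assoc, E.rho_mul_inv, Matrix.mul_one, h1]
  have := Real.log_nonneg h
  rw [Real.log_mul (norm_pos_iff.2 (E.mul_rho_ne_zero (rowJ_ne_zero hv) g)).ne'
    (E.norm_rho_pos g⁻¹).ne'] at this
  rw [m]
  linarith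

variable [DecidableEq Γ] [DecidableEq O] [Fintype O]

/-- Every finite window has some bound. -/
theorem init_ok : E.InitOK := by
  intro p β K h0 h1 hβ
  set b : Γ → ℝ := fun g => Real.exp (β * E.m g⁻¹) with hb
  have hb0 : ∀ g, 0 ≤ b g := fun g => (Real.exp_pos _).le
  refine ⟨∑ o : O, ∑ y ∈ QT.wball E.nb ((1 : Γ), o) K, b y.1,
    sum_nonneg fun _ _ => sum_nonneg fun y _ => hb0 _, fun v hv o S => ?_⟩
  have hW : ∀ g, E.Wt β v g ≤ b g := fun g => by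
    refine Real.exp_le_exp.2 ?_
    rw [← mul_neg]
    refine mul_le_mul_of_nonneg_left ?_ hβ
    rw [E.En_eq hv]
    linarith [E.neg_m_inv_le hv g]
  have hτ : ∀ y, E.tau p K ((1 : Γ), o) y ≤ 1 := fun y => FQ.tauW_le_one _ h0 h1 _ _ _
  set W := QT.wball E.nb ((1 : Γ), o) K
  calc ∑ y ∈ S, E.tau p K ((1 : Γ), o) y * E.Wt β v y.1
      = ∑ y ∈ S.filter (· ∈ W), E.tau p K ((1 : Γ), o) y * E.Wt β v y.1 := by
        refine (sum_filter_of_ne fun y _ hy => ?_).symm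
        by_contra hW'
        exact hy (by
          rw [show E.tau p K ((1 : Γ), o) y = 0 from
            FQ.tauW_eq_zero E.hl (QT.covers_wball E.hl K) _ p fun hc => hW' hc.1, zero_mul])
    _ ≤ ∑ y ∈ S.filter (· ∈ W), b y.1 := sum_le_sum fun y _ =>
        (mul_le_of_le_one_left (Real.exp_pos _).le (hτ y)).trans (hW y.1)
    _ ≤ ∑ y ∈ W, b y.1 :=
        sum_le_sum_of_subset_of_nonneg (fun y hy => (mem_filter.1 hy).2) fun y _ _ => hb0 _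
    _ ≤ _ := single_le_sum (f := fun o => ∑ y ∈ QT.wball E.nb ((1 : Γ), o) K, b y.1)
        (fun _ _ => sum_nonneg fun y _ => hb0 _) (mem_univ o)

end Vale.Agent.P165.SP.Env
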