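import Vale.Agent.P165.SP.Rep

/-!
# Rotated frames in `Sp(4, ℝ)`

Invariance of Frobenius norms under orthogonal symplectic matrices, and the test matrices of points
in a rotated frame.
-/

namespace Vale.Agent.P165.SP

open Finset Matrix
open scoped Matrix.Norms.Frobenius

theorem IsK.mul_transpose {k : M4} (hk : IsK k) : k * kᵀ = 1 := mul_eq_one_comm.1 hk.1

theorem IsK.transpose {k : M4} (hk : IsK k) : IsK kᵀ :=
  ⟨by rw [transpose_transpose]; exact hk.mul_transpose, hk.2.transpose⟩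

/-- An orthogonal symplectic matrix commutes with the form. -/
theorem IsK.transpose_mul_J {k : M4} (hk : IsK k) : kᵀ * J4 = J4 * kᵀ := by
  calc kᵀ * J4 = kᵀ * J4 * (k * kᵀ) := by rw [hk.mul_transpose, mul_one]
    _ = kᵀ * J4 * k * kᵀ := by simp only [mul_assoc]
    _ = J4 * kᵀ := by rw [hk.2]

theorem IsK.rep2_transpose_mul {k : M4} (hk : IsK k) : (rep2 k)ᵀ * rep2 k = lag := by
  rw [rep2_transpose, ← rep2_mul hk.2.transpose hk.2, hk.1, lag]

theorem IsK.rep2_mul_transpose {k : M4} (hk : IsK k) : rep2 k * (rep2 k)ᵀ = lag := by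
  rw [rep2_transpose, ← rep2_mul hk.2 hk.2.transpose, hk.mul_transpose, lag]

/-! ### Norms -/

section Norms

variable {l m n : Type} [Fintype l] [Fintype m] [Fintype n]

theorem norm_sq_eq (A : Matrix m n ℝ) : ‖A‖ ^ 2 = ∑ i, ∑ j, A i j ^ 2 := by
  rw [frobenius_norm_def, ← Real.sqrt_eq_rpow, Real.sq_sqrt (by positivity)]
  simp

theorem norm_sq_eq_trace (A : Matrix m n ℝ) : ‖A‖ ^ 2 = trace (A * Aᵀ) := by
  rw [norm_sq_eq, trace]
  exact sum_congr rfl fun i _ => sum_congr rfl fun j _ => sq (A i j)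

/-- Multiplying on the right by an isometry of the row space keeps the norm. -/
theorem norm_mul_right (X : Matrix l m ℝ) (A : Matrix m n ℝ) (h : X * (A * Aᵀ) = X) :
    ‖X * A‖ = ‖X‖ := by
  have e : ‖X * A‖ ^ 2 = ‖X‖ ^ 2 := by
    rw [norm_sq_eq_trace, norm_sq_eq_trace, transpose_mul, ← Matrix.mul_assoc,
      Matrix.mul_assoc X A Aᵀ, h]
  exact (sq_eq_sq₀ (norm_nonneg _) (norm_nonneg _)).1 e

/-- Multiplying on the left by an isometry of the column space keeps the norm. -/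
theorem norm_mul_left (A : Matrix l m ℝ) (X : Matrix m n ℝ) (h : Aᵀ * A * X = X) :
    ‖A * X‖ = ‖X‖ := by
  rw [← frobenius_norm_transpose (A * X), ← frobenius_norm_transpose X, transpose_mul]
  refine norm_mul_right _ _ ?_
  rw [← transpose_mul, ← transpose_mul, h]

end Norms

theorem IsK.norm_mul {k : M4} (hk : IsK k) (X : M4) : ‖k * X‖ = ‖X‖ :=
  norm_mul_left k X (by rw [hk.1, Matrix.one_mul])

theorem IsK.norm_mul' {k : M4} (hk : IsK k) {n : Type} [Fintype n] (X : Matrix (Fin 4) n ℝ) :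
    ‖k * X‖ = ‖X‖ :=
  norm_mul_left k X (by rw [hk.1, Matrix.one_mul])

theorem IsK.norm_mul_self {k : M4} (hk : IsK k) (X : M4) : ‖X * k‖ = ‖X‖ :=
  norm_mul_right X k (by rw [hk.mul_transpose, Matrix.mul_one])

theorem IsK.norm_rep2_mul {k : M4} (hk : IsK k) {X : M16} (hX : lag * X = X) :
    ‖rep2 k * X‖ = ‖X‖ :=
  norm_mul_left _ X (by rw [hk.rep2_transpose_mul, hX])

theorem IsK.norm_mul_rep2 {k : M4} (hk : IsK k) {X : M16} (hX : X * lag = X) :
    ‖X * rep2 k‖ = ‖X‖ :=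
  norm_mul_right X _ (by rw [hk.rep2_mul_transpose, hX])

theorem IsK.isUnit4 {k : M4} (hk : IsK k) {v : Fin 4 → ℝ} (hv : IsUnit4 v) :
    IsUnit4 (kᵀ *ᵥ v) := by
  rw [IsUnit4, dotProduct_mulVec, vecMul_transpose, mulVec_mulVec, hk.mul_transpose, one_mulVec]
  exact hv

/-- The test of a point in a rotated frame. -/
theorem IsK.testP_mul {k : M4} (hk : IsK k) (v : Fin 4 → ℝ) :
    testP v * k = k * testP (kᵀ *ᵥ v) := by
  rw [testP, testP, sub_mul, mul_sub, one_mul, mul_one, mul_vecMulVec, vecMulVec_mul,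
    mulVec_mulVec, hk.mul_transpose, one_mulVec, mulVec_transpose]

/-- The contraction of the columns with a vector. -/
def contract {n : Type} (y : Fin 4 → ℝ) (X : Matrix I2 n ℝ) : Matrix (Fin 4) n ℝ :=
  Matrix.of fun i c => ∑ b, X (i, b) c * y b

theorem norm_testD_mul (v : Fin 4 → ℝ) (X : M16) :
    ‖testD v * X‖ = ‖contract (J4 *ᵥ v) X‖ := by
  refine (sq_eq_sq₀ (norm_nonneg _) (norm_nonneg _)).1 ?_
  rw [norm_sq_eq, norm_sq_eq]
  have e : ∀ (i j : Fin 4) (c : I2), (testD v * X) (i, j) c =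
      if j = 0 then contract (J4 *ᵥ v) X i c else 0 := fun i j c => by
    simp only [testD, contract, mul_apply, of_apply, Fintype.sum_prod_type]
    split_ifs with h
    · simp [h, mul_comm]
    · simp [h]
  rw [Fintype.sum_prod_type]
  refine sum_congr rfl fun i _ => ?_
  rw [Fin.sum_univ_four]
  simp [e]

theorem contract_add {n : Type} (y : Fin 4 → ℝ) (X Y : Matrix I2 n ℝ) :
    contract y (X + Y) = contract y X + contract y Y := by
  ext i c
  simp [contract, add_mul, sum_add_distrib]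

/-- The contraction in a rotated frame. -/
theorem IsK.contract_rep2_mul {k : M4} (hk : IsK k) {h : M4} (hh : IsSymp h) (y : Fin 4 → ℝ) :
    contract y (rep2 k * rep2 h) = k * contract (kᵀ *ᵥ y) (rep2 h) := by
  rw [← rep2_mul hk.2 hh]
  have hJ : ∀ i, ∑ b, omega (i, b) * y b = ∑ a, k i a * ∑ b, omega (a, b) * (kᵀ *ᵥ y) b := by
    intro i
    have e : J4 *ᵥ y = k *ᵥ (J4 *ᵥ (kᵀ *ᵥ y)) := by
      rw [mulVec_mulVec (M := J4), ← hk.transpose_mul_J, mulVec_mulVec, ← Matrix.mul_assoc,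
        hk.mul_transpose, Matrix.one_mul]
    exact congrFun e i
  have hm : ∀ i (c : I2), ∑ b, minors (k * h) (i, b) c * y b =
      ∑ a, k i a * ∑ b, minors h (a, b) c * (kᵀ *ᵥ y) b := by
    intro i c
    simp only [minors, mulVec, dotProduct, of_apply, mul_apply, transpose_apply, Fin.sum_univ_four]
    ring
  ext i c
  simp only [contract, rep2, mul_apply, of_apply, Matrix.sub_apply, Matrix.smul_apply,
    vecMulVec_apply, smul_eq_mul, sub_mul, mul_assoc, sum_sub_distrib, mul_sub, ← mul_sum]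
  rw [hm i c]
  have := hJ i
  simp only [Fin.sum_univ_four] at this ⊢
  linear_combination (-(1 / 4 : ℝ) * omega c) * this

theorem norm_testD_rep2_frame {k : M4} (hk : IsK k) {h : M4} (hh : IsSymp h) (v : Fin 4 → ℝ) :
    ‖testD v * (rep2 k * rep2 h)‖ = ‖testD (kᵀ *ᵥ v) * rep2 h‖ := by
  rw [norm_testD_mul, norm_testD_mul, hk.contract_rep2_mul hh, hk.norm_mul', mulVec_mulVec,
    hk.transpose_mul_J, ← mulVec_mulVec]

end Vale.Agent.P165.SP
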