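import Vale.Agent.P165.SP.Count
import Vale.Agent.P165.SP.Frame

/-!
# The incidences of points and planes in `Sp(4, ℝ)`

Two test projections that are both small at one matrix are close. Every element has a top plane,
whose cell is as deep as its long root; a point deep at the element is killed by the contraction
with that plane, so the wedge of two such points is a multiple of the plane up to their depth.
-/

namespace Vale.Agent.P165.SP

open Finset Matrix
open scoped Matrix.Norms.Frobenius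

namespace Incidence

section Proj

variable {n : Type} [Fintype n] [DecidableEq n]

/-- The difference of the projections of two unit vectors. -/
noncomputable def pdist (u w : n → ℝ) : ℝ := ‖vecMulVec u u - vecMulVec w w‖

theorem pdist_nonneg (u w : n → ℝ) : 0 ≤ pdist u w := norm_nonneg _

theorem norm_vecMulVec_sq (x a : n → ℝ) : ‖vecMulVec x a‖ ^ 2 = (x ⬝ᵥ x) * (a ⬝ᵥ a) := by
  rw [norm_sq_eq, dotProduct, dotProduct, sum_mul_sum]
  exact sum_congr rfl fun i _ => sum_congr rfl fun j _ => by rw [vecMulVec_apply]; ring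

theorem norm_proj {u : n → ℝ} (hu : u ⬝ᵥ u = 1) : ‖vecMulVec u u‖ = 1 := by
  have h := norm_vecMulVec_sq u u
  rw [hu, mul_one] at h
  exact (sq_eq_one_iff.1 h).resolve_right (by linarith [norm_nonneg (vecMulVec u u)])

theorem norm_one_mul_le (M : Matrix n n ℝ) {u : n → ℝ} (hu : u ⬝ᵥ u = 1) :
    ‖testP u * M‖ ≤ 2 * ‖M‖ := by
  rw [testP, Matrix.sub_mul, Matrix.one_mul]
  refine (norm_sub_le _ _).trans ?_
  have := norm_mul_le (vecMulVec u u) M
  rw [norm_proj hu, one_mul] at this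
  linarith

/-- One projection removes little of another that is small at the same matrix. -/
theorem half_le {u w : n → ℝ} (hu : u ⬝ᵥ u = 1) (hw : w ⬝ᵥ w = 1) {A : Matrix n n ℝ} {δ : ℝ}
    (hA : 0 < ‖A‖) (hδ : δ ≤ 1 / 2) (h1 : ‖testP u * A‖ ≤ δ * ‖A‖)
    (h2 : ‖testP w * A‖ ≤ δ * ‖A‖) : ‖testP w * vecMulVec u u‖ ≤ 6 * δ := by
  set P := vecMulVec u u
  have hPA : ‖A‖ / 2 ≤ ‖P * A‖ := by
    have e : P * A + testP u * A = A := by rw [testP, Matrix.sub_mul, Matrix.one_mul]; abel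
    have := norm_add_le (P * A) (testP u * A)
    rw [e] at this
    nlinarith
  have hsmall : ‖testP w * (P * A)‖ ≤ 3 * δ * ‖A‖ := by
    have e : testP w * (P * A) = testP w * A - testP w * (testP u * A) := by
      simp only [testP, P, Matrix.sub_mul, Matrix.one_mul, Matrix.mul_sub]; abel
    rw [e]
    refine (norm_sub_le _ _).trans ?_
    have := norm_one_mul_le (testP u * A) hw
    linarith
  -- both are rank one with the same row space
  have hsq : ‖testP w * P‖ ^ 2 * ‖P * A‖ ^ 2 = ‖testP w * (P * A)‖ ^ 2 := by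
    simp only [P, vecMulVec_mul, mul_vecMulVec, norm_vecMulVec_sq, hu]
    ring
  have key : ‖testP w * P‖ * ‖P * A‖ = ‖testP w * (P * A)‖ :=
    (sq_eq_sq₀ (by positivity) (norm_nonneg _)).1 (by rw [mul_pow]; exact hsq)
  refine le_of_mul_le_mul_right ?_ hA
  have := mul_le_mul_of_nonneg_left hPA (norm_nonneg (testP w * P))
  linarith

/-- Two projections that are small at one matrix are close. -/
theorem pdist_le {u w : n → ℝ} (hu : u ⬝ᵥ u = 1) (hw : w ⬝ᵥ w = 1) {A : Matrix n n ℝ} {δ : ℝ}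
    (hA : 0 < ‖A‖) (h1 : ‖testP u * A‖ ≤ δ * ‖A‖) (h2 : ‖testP w * A‖ ≤ δ * ‖A‖) :
    pdist u w ≤ 12 * δ := by
  by_cases hδ : δ ≤ 1 / 2
  · have e : vecMulVec u u - vecMulVec w w =
        testP w * vecMulVec u u - (testP u * vecMulVec w w)ᵀ := by
      simp only [testP, Matrix.sub_mul, Matrix.one_mul, transpose_sub, transpose_mul,
        transpose_vecMulVec]
      abel
    rw [pdist, e]
    refine (norm_sub_le _ _).trans ?_
    rw [frobenius_transpose]
    linarith [half_le hu hw hA hδ h1 h2, half_le hw hu hA hδ h2 h1]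
  · refine (norm_sub_le _ _).trans ?_
    rw [norm_proj hu, norm_proj hw]
    linarith

/-- Moving the point of a test changes it by the distance. -/
theorem testP_le (u w : n → ℝ) (A : Matrix n n ℝ) :
    ‖testP u * A‖ ≤ ‖testP w * A‖ + pdist u w * ‖A‖ := by
  have e : testP u * A = testP w * A + (vecMulVec w w - vecMulVec u u) * A := by
    simp only [testP, Matrix.sub_mul, Matrix.one_mul]; abel
  rw [e, pdist, norm_sub_rev]
  exact (norm_add_le _ _).trans (add_le_add le_rfl (norm_mul_le _ _))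

theorem pdist_sq {u w : n → ℝ} (hu : u ⬝ᵥ u = 1) (hw : w ⬝ᵥ w = 1) :
    pdist u w ^ 2 = 2 * (1 - (u ⬝ᵥ w) ^ 2) := by
  rw [pdist, norm_sq_eq]
  have h : ∀ x y : n → ℝ, ∑ i, ∑ j, x i * x j * (y i * y j) = (x ⬝ᵥ y) ^ 2 := fun x y => by
    rw [sq, dotProduct, sum_mul_sum]
    exact sum_congr rfl fun i _ => sum_congr rfl fun j _ => by ring
  calc ∑ i, ∑ j, (vecMulVec u u - vecMulVec w w) i j ^ 2
      = ∑ i, ∑ j, (u i * u j * (u i * u j) - 2 * (u i * u j * (w i * w j)) +
          w i * w j * (w i * w j)) :=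
        sum_congr rfl fun i _ => sum_congr rfl fun j _ => by
          simp only [Matrix.sub_apply, vecMulVec_apply]; ring
    _ = _ := by
        simp only [sum_add_distrib, sum_sub_distrib, ← mul_sum, h, hu, hw]
        ring

omit [DecidableEq n] in
theorem sq_norm_le_dot (x : n → ℝ) : ‖x‖ ^ 2 ≤ x ⬝ᵥ x := by
  have h0 : 0 ≤ x ⬝ᵥ x := sum_nonneg fun i _ => mul_self_nonneg (x i)
  have h : ‖x‖ ≤ √(x ⬝ᵥ x) := (pi_norm_le_iff_of_nonneg (Real.sqrt_nonneg _)).2 fun i => by
    rw [Real.norm_eq_abs]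
    exact Real.abs_le_sqrt (by
      rw [sq]; exact single_le_sum (f := fun j => x j * x j) (fun j _ => mul_self_nonneg _)
        (mem_univ i))
  nlinarith [Real.sq_sqrt h0, norm_nonneg x, Real.sqrt_nonneg (x ⬝ᵥ x)]

omit [DecidableEq n] in
theorem norm_le_one {x : n → ℝ} (hx : x ⬝ᵥ x = 1) : ‖x‖ ≤ 1 := by
  nlinarith [sq_norm_le_dot x, norm_nonneg x]

theorem norm_vecMulVec_le (x a : n → ℝ) :
    ‖vecMulVec x a‖ ≤ (Fintype.card n : ℝ) * (‖x‖ * ‖a‖) := by
  refine Pack.norm_le_of_entries _ (by positivity) fun i j => ?_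
  rw [vecMulVec_apply, abs_mul]
  exact mul_le_mul (norm_le_pi_norm x i) (norm_le_pi_norm a j) (abs_nonneg _) (norm_nonneg _)

/-- Two points near one nonzero vector are close. -/
theorem pdist_le_of_vec [Nonempty n] {u w : n → ℝ} (hu : u ⬝ᵥ u = 1) (hw : w ⬝ᵥ w = 1)
    {W : n → ℝ} {δ η : ℝ} (hη : 0 < η) (hW : η ≤ ‖W‖) (h1 : ‖testP u *ᵥ W‖ ≤ δ)
    (h2 : ‖testP w *ᵥ W‖ ≤ δ) : pdist u w ≤ 12 * Fintype.card n * (δ / η) := by
  obtain ⟨i⟩ := ‹Nonempty n›
  set e : n → ℝ := Pi.single i 1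
  have he : e ⬝ᵥ e = 1 := by simp [e]
  have hA : η ≤ ‖vecMulVec W e‖ := by
    have h := norm_vecMulVec_sq W e
    rw [he, mul_one] at h
    nlinarith [sq_norm_le_dot W, norm_nonneg (vecMulVec W e), norm_nonneg W]
  have hδ : 0 ≤ δ := (norm_nonneg _).trans h1
  have key : ∀ x : n → ℝ, ‖testP x *ᵥ W‖ ≤ δ →
      ‖testP x * vecMulVec W e‖ ≤ Fintype.card n * (δ / η) * ‖vecMulVec W e‖ := fun x hx => by
    rw [mul_vecMulVec]
    refine (norm_vecMulVec_le _ _).trans ?_
    rw [mul_assoc]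
    refine mul_le_mul_of_nonneg_left ?_ (Nat.cast_nonneg _)
    refine (mul_le_mul hx (norm_le_one he) (norm_nonneg _) hδ).trans ?_
    rw [mul_one, div_mul_eq_mul_div, le_div_iff₀ hη]
    exact mul_le_mul_of_nonneg_left hA hδ
  exact (pdist_le hu hw (hη.trans_le hA) (key u h1) (key w h2)).trans_eq (by ring)

end Proj

/-! ### Planes -/

theorem testD_mulVec (v : Fin 4 → ℝ) (B : I2 → ℝ) (r : I2) :
    (testD v *ᵥ B) r = if r.2 = 0 then Pack.contract B v r.1 else 0 := by
  obtain ⟨i, j⟩ := r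
  simp only [testD, mulVec, dotProduct, of_apply, Fintype.sum_prod_type, Pack.contract]
  split_ifs with h
  · simp [h, mul_comm]
  · simp [h]

theorem norm_testD_le (v : Fin 4 → ℝ) : ‖testD v‖ ≤ 16 * ‖v‖ := by
  refine (Pack.norm_le_of_entries _ (norm_nonneg v) fun r c => ?_).trans_eq (by simp)
  simp only [testD, of_apply]
  split_ifs
  · obtain ⟨i, j⟩ := c
    have h := fun k => norm_le_pi_norm v k
    simp only [Real.norm_eq_abs] at h
    fin_cases j <;> simp [J4, mulVec, dotProduct, Fin.sum_univ_four, h]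
  · simp

theorem pdist_comm {n : Type} [Fintype n] [DecidableEq n] (u w : n → ℝ) : pdist u w = pdist w u :=
  norm_sub_rev _ _

/-- Moving the point of the second test changes it by the distance. -/
theorem testD_le {u w : Fin 4 → ℝ} (hu : IsUnit4 u) (hw : IsUnit4 w) (A : M16) :
    ‖testD u * A‖ ≤ ‖testD w * A‖ + 16 * pdist u w * ‖A‖ := by
  set t := u ⬝ᵥ w
  have ht : |t| ≤ 1 := by
    have h := pdist_sq hu hw
    rw [← sq_le_one_iff_abs_le_one]
    nlinarith [sq_nonneg (pdist u w)]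
  have hlin : testD u = t • testD w + testD (u - t • w) := by
    ext r c
    simp only [testD, of_apply, Matrix.add_apply, Matrix.smul_apply, mulVec_sub, mulVec_smul,
      Pi.sub_apply, Pi.smul_apply, smul_eq_mul]
    split_ifs <;> ring
  have hd : ‖u - t • w‖ ≤ pdist u w := by
    have h := pdist_sq hu hw
    have e : (u - t • w) ⬝ᵥ (u - t • w) = 1 - t ^ 2 := by
      simp only [sub_dotProduct, dotProduct_sub, smul_dotProduct, dotProduct_smul, smul_eq_mul,
        dotProduct_comm w u]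
      rw [IsUnit4] at hu hw
      rw [hu, hw]
      ring
    nlinarith [sq_norm_le_dot (u - t • w), norm_nonneg (u - t • w), pdist_nonneg u w,
      sq_nonneg t]
  rw [hlin, Matrix.add_mul, Matrix.smul_mul]
  refine (norm_add_le _ _).trans (add_le_add ?_ ?_)
  · rw [norm_smul, Real.norm_eq_abs]
    exact mul_le_of_le_one_left (norm_nonneg _) ht
  · refine (norm_mul_le _ _).trans (mul_le_mul_of_nonneg_right ?_ (norm_nonneg _))
    exact (norm_testD_le _).trans (mul_le_mul_of_nonneg_left hd (by norm_num))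

/-- A unit wedge. -/
noncomputable def plane (k : M4) : I2 → ℝ := (√2)⁻¹ • wedge (Pack.col k 0) (Pack.col k 1)

theorem plane_lag {k : M4} (hk : IsK k) : IsUnitLag (plane k) := by
  have hd : ∀ i j, Pack.col k i ⬝ᵥ Pack.col k j = (1 : M4) i j := fun i j => by
    rw [← hk.1]
    simp [Pack.col, mulVec, dotProduct, mul_apply, Pi.single_apply]
  constructor
  · have e : ∀ a b : Fin 4 → ℝ, wedge a b ⬝ᵥ wedge a b =
        2 * ((a ⬝ᵥ a) * (b ⬝ᵥ b) - (a ⬝ᵥ b) ^ 2) := fun a b => by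
      simp only [wedge, dotProduct, Fintype.sum_prod_type, Fin.sum_univ_four]; ring
    rw [plane, smul_dotProduct, dotProduct_smul, e, hd, hd, hd]
    simp
    field_simp
    norm_num
  · rw [plane, mulVec_smul, lag, rep2_wedge _ ?_, one_mulVec, one_mulVec]
    rw [Pack.col, Pack.col, hk.2.apply]
    simp [J4]

/-- The top plane of an element. -/
theorem exists_topFrame {g : M4} (hg : IsSymp g) : ∃ k : M4, IsK k ∧
    ‖testP (plane k) * rep2 g‖ * ‖rep2 g‖ ≤ 2 ^ 40 * ‖g‖ ^ 2 ∧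
    ∀ Q : M16, ‖Q *ᵥ plane k‖ * ‖rep2 g‖ ≤ 2 ^ 24 * ‖Q * rep2 g‖ := by
  obtain ⟨k, k', s₁, s₂, hk, hk', h2, h12, hgk⟩ := cartan hg
  have hs1 : 0 < s₁ := by linarith
  have hs2 : 0 < s₂ := by linarith
  have hD : IsSymp (diag4 s₁ s₂) := by
    rw [IsSymp]
    ext i j
    fin_cases i <;> fin_cases j <;>
      simp [diag4, J4, mul_apply, Fin.sum_univ_four, hs1.ne', hs2.ne']
  have hg1 : s₁ ≤ ‖g‖ := by
    rw [hgk, hk'.norm_mul_self, hk.norm_mul]
    refine le_trans ?_ (Pack.abs_entry_le (diag4 s₁ s₂) 0 0)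
    simp [diag4, abs_of_pos hs1]
  have hgn : ‖rep2 g‖ ≤ 2 ^ 15 * (s₁ * s₂) := by
    rw [hgk, rep2_mul (hk.2.mul hD) hk'.2, rep2_mul hk.2 hD]
    refine (norm_mul_le _ _).trans ((mul_le_mul (norm_mul_le _ _) (Pack.norm_rep2_isK_le hk')
      (norm_nonneg _) (by positivity)).trans ?_)
    nlinarith [Pack.norm_rep2_isK_le hk, Pack.norm_rep2_diag4_le h2 h12, norm_nonneg (rep2 k),
      norm_nonneg (rep2 (diag4 s₁ s₂))]
  refine ⟨k, hk, ?_, fun Q => ?_⟩
  · set e := plane 1 with he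
    have hke : rep2 k *ᵥ e = plane k := by
      rw [he, plane, plane, mulVec_smul, rep2_wedge]
      · rw [Pack.col, Pack.col, Pack.col, Pack.col, one_mulVec, one_mulVec]
      · simp [Pack.col, J4, mulVec, dotProduct, Fin.sum_univ_four]
    have hek : plane k ᵥ* rep2 k = e := by
      have h1 : IsK (1 : M4) := ⟨by simp, isSymp_one⟩
      rw [← hke, ← mulVec_transpose, mulVec_mulVec, hk.rep2_transpose_mul]
      exact (plane_lag h1).2
    have hmain : testP (plane k) * rep2 g =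
        rep2 k * (testP e * rep2 (diag4 s₁ s₂)) * rep2 k' := by
      have hc : testP (plane k) * rep2 k = rep2 k * testP e := by
        simp only [testP, Matrix.sub_mul, Matrix.mul_sub, Matrix.one_mul, Matrix.mul_one,
          mul_vecMulVec, vecMulVec_mul, hek, hke]
      rw [hgk, rep2_mul (hk.2.mul hD) hk'.2, rep2_mul hk.2 hD, ← Matrix.mul_assoc,
        ← Matrix.mul_assoc (testP _), hc]
      simp only [Matrix.mul_assoc]
    have hent : ‖testP e * rep2 (diag4 s₁ s₂)‖ ≤ 16 * (64 * (s₁ / s₂)) := by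
      have h1 : 1 ≤ s₁ / s₂ := (one_le_div hs2).2 h12
      refine (Pack.norm_le_of_entries _ (B := 64 * (s₁ / s₂)) (by positivity) fun r c =>
        ?_).trans_eq (by simp)
      set d : Fin 4 → ℝ := ![s₁, s₂, s₂⁻¹, s₁⁻¹] with hd
      set M := testP e * minors 1 with hM
      have hfac : minors (diag4 s₁ s₂) = minors 1 * diagonal (fun x : I2 => d x.1 * d x.2) := by
        ext ⟨i, j⟩ ⟨i', j'⟩
        rw [mul_diagonal]
        simp only [minors, of_apply, diag4, ← hd, diagonal_apply, one_apply]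
        split_ifs <;> subst_vars <;> ring
      have hom : testP e *ᵥ omega = omega := by
        have : e ⬝ᵥ omega = 0 := by
          simp [he, plane, wedge, Pack.col, omega, J4, dotProduct, Fintype.sum_prod_type,
            Fin.sum_univ_four]
        rw [testP, sub_mulVec, one_mulVec, vecMulVec_mulVec, this]
        simp
      have hMn : ∀ r c, |M r c| ≤ 32 := fun r c => by
        refine (Pack.abs_entry_le _ _ _).trans ((norm_one_mul_le _ (plane_lag ⟨by simp,
          isSymp_one⟩).1).trans ?_)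
        have h := Pack.norm_le_of_entries (minors 1) (B := 1) zero_le_one fun r c => by
          simpa using Pack.abs_minors_le (B := 1) (fun i j => by
            rw [one_apply]; split_ifs <;> simp) r c
        simp at h
        linarith
      have hzero : ∀ c : I2, c = (0, 1) ∨ c = (1, 0) ∨ c.1 = c.2 → M r c = 0 := by
        intro c hc
        have hcol : ∀ r, (minors 1) r c = ((minors 1) (0, 1) c * √2) * e r := fun r => by
          obtain ⟨i, j⟩ := r
          rcases hc with rfl | rfl | hc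
          · fin_cases i <;> fin_cases j <;>
              simp [minors, he, plane, wedge, Pack.col] <;> field_simp
          · fin_cases i <;> fin_cases j <;>
              simp [minors, he, plane, wedge, Pack.col] <;> field_simp
          · obtain ⟨c1, c2⟩ := c
            simp only at hc
            subst hc
            simp [minors]
        have hee : e ⬝ᵥ e = 1 := (plane_lag ⟨by simp, isSymp_one⟩).1
        calc M r c = (testP e *ᵥ fun r => minors 1 r c) r := rfl
          _ = 0 := by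
            rw [show (fun r => minors 1 r c) = (minors 1 (0, 1) c * √2) • e from funext hcol,
              mulVec_smul, testP, sub_mulVec, one_mulVec, vecMulVec_mulVec, hee]
            simp
      have hdd : c = (0, 1) ∨ c = (1, 0) ∨ c.1 = c.2 ∨ |d c.1 * d c.2| ≤ s₁ / s₂ := by
        have a := inv_le_one_of_one_le₀ (h2.trans h12)
        have b := inv_le_one_of_one_le₀ h2
        have p1 : 0 < s₁⁻¹ := inv_pos.2 hs1
        have p2 : 0 < s₂⁻¹ := inv_pos.2 hs2
        have hab : s₁⁻¹ * s₂⁻¹ ≤ 1 := mul_le_one₀ a p2.le b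
        have hr : s₂ * s₁⁻¹ ≤ 1 := by
          rw [← div_eq_mul_inv]; exact (div_le_one hs1).2 h12
        rw [div_eq_mul_inv] at h1
        obtain ⟨i, j⟩ := c
        fin_cases i <;> fin_cases j <;>
          simp [hd, abs_mul, abs_of_pos hs1, abs_of_pos hs2, div_eq_mul_inv, hs1.ne', hs2.ne'] <;> linarith
      have hval : (testP e * rep2 (diag4 s₁ s₂)) r c =
          M r c * (d c.1 * d c.2) - (4 : ℝ)⁻¹ * (omega r * omega c) := by
        rw [rep2, Matrix.mul_sub, Matrix.mul_smul, mul_vecMulVec, hom, hfac, ← Matrix.mul_assoc,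
          ← hM, Matrix.sub_apply, Matrix.smul_apply, mul_diagonal, vecMulVec_apply, smul_eq_mul]
      have hMd : |M r c * (d c.1 * d c.2)| ≤ 32 * (s₁ / s₂) := by
        rcases hdd with h | h | h | h
        · rw [hzero c (Or.inl h), zero_mul, abs_zero]; positivity
        · rw [hzero c (Or.inr (Or.inl h)), zero_mul, abs_zero]; positivity
        · rw [hzero c (Or.inr (Or.inr h)), zero_mul, abs_zero]; positivity
        · rw [abs_mul]; exact mul_le_mul (hMn r c) h (abs_nonneg _) (by norm_num)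
      rw [hval]
      have := abs_sub (M r c * (d c.1 * d c.2)) ((4 : ℝ)⁻¹ * (omega r * omega c))
      have := Pack.abs_omega2_le r c
      linarith
    have hts : ‖testP (plane k) * rep2 g‖ ≤ 2 ^ 20 * (s₁ / s₂) := by
      rw [hmain]
      refine (norm_mul_le _ _).trans ((mul_le_mul ((norm_mul_le _ _).trans
        (mul_le_mul (Pack.norm_rep2_isK_le hk) hent (norm_nonneg _) (by norm_num)))
        (Pack.norm_rep2_isK_le hk') (norm_nonneg _) (by positivity)).trans_eq (by ring))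
    calc ‖testP (plane k) * rep2 g‖ * ‖rep2 g‖ ≤ 2 ^ 20 * (s₁ / s₂) * (2 ^ 15 * (s₁ * s₂)) :=
          mul_le_mul hts hgn (norm_nonneg _) (by positivity)
      _ = 2 ^ 35 * s₁ ^ 2 := by field_simp
      _ ≤ _ := by
          have h := pow_le_pow_left₀ hs1.le hg1 2
          nlinarith [sq_nonneg s₁]
  · have hkt : IsK k'ᵀ := hk'.transpose
    have hgp : rep2 g *ᵥ plane k'ᵀ = (s₁ * s₂) • plane k := by
      have hcol : ∀ i, g *ᵥ Pack.col k'ᵀ i = ![s₁, s₂, s₂⁻¹, s₁⁻¹] i • Pack.col k i := fun i => by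
        rw [Pack.col, Pack.col, mulVec_mulVec, hgk, Matrix.mul_assoc, hk'.mul_transpose,
          Matrix.mul_one, ← mulVec_mulVec, ← mulVec_smul, diag4, diagonal_mulVec_single]
        congr 1
        funext j
        simp [Pi.single_apply]
      rw [plane, plane, mulVec_smul, rep2_wedge, hcol, hcol, smul_comm]
      · congr 1
        funext r
        simp [wedge]
        ring
      · rw [Pack.col, Pack.col, hkt.2.apply]
        simp [J4]
    have h := Pack.norm_mulVec_le (Q * rep2 g) (plane k'ᵀ)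
    rw [← mulVec_mulVec, hgp, mulVec_smul, norm_smul, Real.norm_eq_abs,
      abs_of_pos (by positivity)] at h
    have h' : s₁ * s₂ * ‖Q *ᵥ plane k‖ ≤ 16 * ‖Q * rep2 g‖ := by
      refine h.trans ((mul_le_of_le_one_right (by positivity)
        (norm_le_one (plane_lag hkt).1)).trans_eq (by simp))
    nlinarith [mul_le_mul_of_nonneg_left hgn (norm_nonneg (Q *ᵥ plane k)), norm_nonneg (Q * rep2 g)]

/-- The contraction of a plane with a point, in the frame of the plane. -/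
theorem contract_plane {k : M4} (hk : IsK k) (x : Fin 4 → ℝ) :
    Pack.contract (plane k) x = (√2)⁻¹ •
      ((kᵀ *ᵥ x) 2 • Pack.col k 0 - (kᵀ *ᵥ x) 3 • Pack.col k 1) := by
  have hJ : ∀ j, Pack.col k j ⬝ᵥ (J4 *ᵥ x) = Pi.single j 1 ⬝ᵥ (J4 *ᵥ (kᵀ *ᵥ x)) := fun j => by
    conv_lhs => rw [show x = k *ᵥ (kᵀ *ᵥ x) by rw [mulVec_mulVec, hk.mul_transpose, one_mulVec]]
    rw [Pack.col, hk.2.apply]
  have hlin : Pack.contract (plane k) x =
      (√2)⁻¹ • Pack.contract (wedge (Pack.col k 0) (Pack.col k 1)) x := by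
    funext i
    simp [Pack.contract, plane, mul_sum, mul_assoc]
  rw [hlin, Pack.contract_wedge, hJ, hJ]
  congr 1
  simp [J4, mulVec, dotProduct, Fin.sum_univ_four]

/-- A point killed by a plane lies in it. -/
theorem frame_coord_le {k : M4} (hk : IsK k) {x : Fin 4 → ℝ} {δ : ℝ}
    (h : ‖testD x *ᵥ plane k‖ ≤ δ) : |(kᵀ *ᵥ x) 2| ≤ 64 * δ ∧ |(kᵀ *ᵥ x) 3| ≤ 64 * δ := by
  have hc : ∀ i, |Pack.contract (plane k) x i| ≤ δ := fun i => by
    have h' := (norm_le_pi_norm (testD x *ᵥ plane k) (i, 0)).trans h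
    rwa [testD_mulVec, if_pos rfl, Real.norm_eq_abs] at h'
  have e := contract_plane hk x
  have hd : ∀ i : Fin 4, |Pack.col k i ⬝ᵥ Pack.contract (plane k) x| ≤ 4 * δ := fun i => by
    refine ((abs_sum_le_sum_abs _ _).trans (sum_le_card_nsmul _ _ δ fun j _ => ?_)).trans_eq (by simp)
    rw [abs_mul]
    have h1 := (norm_le_pi_norm (Pack.col k i) j).trans (Pack.norm_col_le hk i)
    exact (mul_le_mul h1 (hc j) (abs_nonneg _) zero_le_one).trans_eq (one_mul δ)
  have hdd : ∀ i j, Pack.col k i ⬝ᵥ Pack.col k j = (1 : M4) i j := fun i j => by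
    rw [← hk.1]
    simp [Pack.col, mulVec, dotProduct, mul_apply, Pi.single_apply]
  have h0 := hd 0
  have h1 := hd 1
  rw [e, dotProduct_smul, dotProduct_sub, dotProduct_smul, dotProduct_smul, hdd, hdd] at h0 h1
  simp [abs_mul] at h0 h1
  have hs : (√2 : ℝ) ≤ 2 := by rw [Real.sqrt_le_left] <;> norm_num
  have hs0 : (0 : ℝ) < √2 := by positivity
  rw [abs_of_pos hs0, inv_mul_le_iff₀ hs0] at h0 h1
  have hδ : 0 ≤ δ := (norm_nonneg _).trans h
  exact ⟨by nlinarith, by nlinarith⟩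

/-- The wedge of two points killed by a plane is near a multiple of it. -/
theorem wedge_near {k : M4} (hk : IsK k) {x z : Fin 4 → ℝ} (hx : IsUnit4 x) (hz : IsUnit4 z)
    {δ : ℝ} (h1 : ‖testD x *ᵥ plane k‖ ≤ δ) (h2 : ‖testD z *ᵥ plane k‖ ≤ δ) :
    ‖testP (plane k) *ᵥ wedge x z‖ ≤ 2 ^ 26 * δ := by
  obtain ⟨a2, a3⟩ := frame_coord_le hk h1
  obtain ⟨b2, b3⟩ := frame_coord_le hk h2
  set a := kᵀ *ᵥ x with ha
  set b := kᵀ *ᵥ z with hb
  have hδ : 0 ≤ δ := (norm_nonneg _).trans h1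
  have hxe : x = k *ᵥ a := by rw [ha, mulVec_mulVec, hk.mul_transpose, one_mulVec]
  have hze : z = k *ᵥ b := by rw [hb, mulVec_mulVec, hk.mul_transpose, one_mulVec]
  set a' : Fin 4 → ℝ := ![a 0, a 1, 0, 0]
  set b' : Fin 4 → ℝ := ![b 0, b 1, 0, 0]
  have hna : ‖a‖ ≤ 1 := norm_le_one (hk.isUnit4 hx)
  have hnb : ‖b‖ ≤ 1 := norm_le_one (hk.isUnit4 hz)
  have hna' : ‖a'‖ ≤ 1 := (pi_norm_le_iff_of_nonneg zero_le_one).2 fun i => by
    fin_cases i <;> simp [a'] <;> exact (norm_le_pi_norm a _).trans hna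
  have hda : ‖a - a'‖ ≤ 64 * δ := (pi_norm_le_iff_of_nonneg (by positivity)).2 fun i => by
    fin_cases i <;> simp [a', a2, a3] <;> linarith
  have hdb : ‖b - b'‖ ≤ 64 * δ := (pi_norm_le_iff_of_nonneg (by positivity)).2 fun i => by
    fin_cases i <;> simp [b', b2, b3] <;> linarith
  have hker : testP (plane k) *ᵥ wedge (k *ᵥ a') (k *ᵥ b') = 0 := by
    have e : wedge (k *ᵥ a') (k *ᵥ b') =
        ((a 0 * b 1 - a 1 * b 0) * √2) • plane k := by
      rw [plane, smul_smul, mul_assoc, mul_inv_cancel₀ (by positivity), mul_one]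
      funext r
      simp [wedge, mulVec, dotProduct, Fin.sum_univ_four, Pack.col, a', b']
      ring
    rw [e, mulVec_smul, testP, sub_mulVec, one_mulVec, vecMulVec_mulVec]
    simp [(plane_lag hk).1]
  have hsplit : wedge x z = wedge (k *ᵥ a') (k *ᵥ b') +
      (wedge (k *ᵥ (a - a')) (k *ᵥ b) + wedge (k *ᵥ a') (k *ᵥ (b - b'))) := by
    rw [hxe, hze]
    funext r
    simp only [wedge, mulVec_sub, Pi.sub_apply, Pi.add_apply]
    ring
  rw [hsplit, mulVec_add, hker, zero_add]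
  have hk4 : ∀ v : Fin 4 → ℝ, ‖k *ᵥ v‖ ≤ 16 * ‖v‖ := fun v =>
    (Pack.norm_mulVec_le k v).trans (mul_le_mul_of_nonneg_right
      (by have := Pack.norm_isK_le hk; simp; linarith) (norm_nonneg v))
  have hwb : ∀ u v : Fin 4 → ℝ, ‖wedge (k *ᵥ u) (k *ᵥ v)‖ ≤ 512 * (‖u‖ * ‖v‖) := fun u v =>
    ((Pack.norm_wedge_le _ _).trans (mul_le_mul_of_nonneg_left
      (mul_le_mul (hk4 u) (hk4 v) (norm_nonneg _) (by positivity)) zero_le_two)).trans_eq (by ring)
  have hP : ‖testP (plane k)‖ ≤ 32 := by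
    have h := norm_one_mul_le (1 : M16) (plane_lag hk).1
    rw [Matrix.mul_one] at h
    have : ‖(1 : M16)‖ ≤ 16 := (Pack.norm_le_of_entries _ zero_le_one fun i j => by
      rw [one_apply]; split_ifs <;> simp).trans_eq (by simp)
    linarith
  refine (Pack.norm_mulVec_le _ _).trans ?_
  refine (mul_le_mul (mul_le_mul_of_nonneg_left hP (Nat.cast_nonneg _))
    ((norm_add_le _ _).trans (add_le_add ((hwb _ _).trans (mul_le_mul_of_nonneg_left
      (mul_le_mul hda hnb (norm_nonneg _) (by positivity)) (by norm_num)))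
      ((hwb _ _).trans (mul_le_mul_of_nonneg_left
        (mul_le_mul hna' hdb (norm_nonneg _) zero_le_one) (by norm_num)))))
    (norm_nonneg _) (by positivity)).trans ?_
  simp
  linarith

/-- Points killed by a plane pair to little. -/
theorem omega_le {k : M4} (hk : IsK k) {x z : Fin 4 → ℝ} (hx : IsUnit4 x) (hz : IsUnit4 z)
    {δ : ℝ} (h1 : ‖testD x *ᵥ plane k‖ ≤ δ) (h2 : ‖testD z *ᵥ plane k‖ ≤ δ) :
    |x ⬝ᵥ (J4 *ᵥ z)| ≤ 256 * δ := by
  obtain ⟨a2, a3⟩ := frame_coord_le hk h1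
  obtain ⟨b2, b3⟩ := frame_coord_le hk h2
  have hxe : x = k *ᵥ (kᵀ *ᵥ x) := by rw [mulVec_mulVec, hk.mul_transpose, one_mulVec]
  have hze : z = k *ᵥ (kᵀ *ᵥ z) := by rw [mulVec_mulVec, hk.mul_transpose, one_mulVec]
  rw [hxe, hze, hk.2.apply]
  have ha := fun i => (norm_le_pi_norm (kᵀ *ᵥ x) i).trans (norm_le_one (hk.isUnit4 hx))
  have hb := fun i => (norm_le_pi_norm (kᵀ *ᵥ z) i).trans (norm_le_one (hk.isUnit4 hz))
  simp only [Real.norm_eq_abs] at ha hb
  generalize kᵀ *ᵥ x = a at a2 a3 ha ⊢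
  generalize kᵀ *ᵥ z = b at b2 b3 hb ⊢
  have t : ∀ {p q B : ℝ}, |p| ≤ 1 → |q| ≤ B → |p * q| ≤ B := fun hp hq => by
    rw [abs_mul]
    exact (mul_le_mul hp hq (abs_nonneg _) zero_le_one).trans_eq (one_mul _)
  have t0 := abs_le.1 (t (ha 0) b3)
  have t1 := abs_le.1 (t (ha 1) b2)
  have t2 := abs_le.1 (t (hb 1) a2)
  have t3 := abs_le.1 (t (hb 0) a3)
  simp [J4, mulVec, dotProduct, Fin.sum_univ_four]
  rw [abs_le]
  constructor <;> linarith

/-- A point pairing to little with two separate points of a plane is killed by it. -/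
theorem in_plane {k : M4} (hk : IsK k) {x z w : Fin 4 → ℝ} (hx : IsUnit4 x) (hz : IsUnit4 z)
    (hw : IsUnit4 w) {δ η : ℝ} (h1 : ‖testD x *ᵥ plane k‖ ≤ δ)
    (h2 : ‖testD z *ᵥ plane k‖ ≤ δ) (hη : η ≤ ‖wedge x z‖) (hsep : 2 ^ 28 * δ ≤ η)
    (o1 : |x ⬝ᵥ (J4 *ᵥ w)| ≤ 256 * δ) (o2 : |z ⬝ᵥ (J4 *ᵥ w)| ≤ 256 * δ) (hpos : 0 < η) :
    ‖testD w *ᵥ plane k‖ ≤ 2 ^ 27 * (δ / η) := by
  have hwn := wedge_near hk hx hz h1 h2
  obtain ⟨a2, a3⟩ := frame_coord_le hk h1
  obtain ⟨b2, b3⟩ := frame_coord_le hk h2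
  have hxe : x = k *ᵥ (kᵀ *ᵥ x) := by rw [mulVec_mulVec, hk.mul_transpose, one_mulVec]
  have hze : z = k *ᵥ (kᵀ *ᵥ z) := by rw [mulVec_mulVec, hk.mul_transpose, one_mulVec]
  have hwe : w = k *ᵥ (kᵀ *ᵥ w) := by rw [mulVec_mulVec, hk.mul_transpose, one_mulVec]
  -- the determinant of the two points in the plane
  have hdet : η / 32 ≤ |(kᵀ *ᵥ x) 0 * (kᵀ *ᵥ z) 1 - (kᵀ *ᵥ x) 1 * (kᵀ *ᵥ z) 0| := by
    have e : plane k ⬝ᵥ wedge x z =
        √2 * ((kᵀ *ᵥ x) 0 * (kᵀ *ᵥ z) 1 - (kᵀ *ᵥ x) 1 * (kᵀ *ᵥ z) 0) := by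
      have e' : ∀ a b c d : Fin 4 → ℝ, wedge a b ⬝ᵥ wedge c d =
          2 * ((a ⬝ᵥ c) * (b ⬝ᵥ d) - (a ⬝ᵥ d) * (b ⬝ᵥ c)) := fun a b c d => by
        simp only [wedge, dotProduct, Fintype.sum_prod_type, Fin.sum_univ_four]; ring
      have ec : ∀ i (v : Fin 4 → ℝ), Pack.col k i ⬝ᵥ v = (kᵀ *ᵥ v) i := fun i v => by
        simp [Pack.col, mulVec, dotProduct, Pi.single_apply]
      rw [plane, smul_dotProduct, e', ec, ec, ec, ec, smul_eq_mul, ← mul_assoc,
        show (√2)⁻¹ * 2 = √2 by field_simp; norm_num]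
      ring
    have hsum : wedge x z = testP (plane k) *ᵥ wedge x z +
        (plane k ⬝ᵥ wedge x z) • plane k := by
      rw [testP, sub_mulVec, one_mulVec, vecMulVec_mulVec]
      simp
    have hn := norm_add_le (testP (plane k) *ᵥ wedge x z) ((plane k ⬝ᵥ wedge x z) • plane k)
    rw [← hsum, norm_smul, Real.norm_eq_abs, e, abs_mul, abs_of_pos (show (0:ℝ) < √2 by positivity)]
      at hn
    have hp1 := norm_le_one (plane_lag hk).1
    have hs : (√2 : ℝ) ≤ 2 := by rw [Real.sqrt_le_left] <;> norm_num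
    set q := |(kᵀ *ᵥ x) 0 * (kᵀ *ᵥ z) 1 - (kᵀ *ᵥ x) 1 * (kᵀ *ᵥ z) 0|
    have : √2 * q * ‖plane k‖ ≤ 2 * q * 1 :=
      mul_le_mul (mul_le_mul_of_nonneg_right hs (abs_nonneg _)) hp1 (norm_nonneg _) (by positivity)
    linarith
  rw [hxe, hwe, hk.2.apply] at o1
  rw [hze, hwe, hk.2.apply] at o2
  have ha := fun i => (norm_le_pi_norm (kᵀ *ᵥ x) i).trans (norm_le_one (hk.isUnit4 hx))
  have hb := fun i => (norm_le_pi_norm (kᵀ *ᵥ z) i).trans (norm_le_one (hk.isUnit4 hz))
  have hc := fun i => (norm_le_pi_norm (kᵀ *ᵥ w) i).trans (norm_le_one (hk.isUnit4 hw))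
  simp only [Real.norm_eq_abs] at ha hb hc
  have hcoord : |(kᵀ *ᵥ w) 2| ≤ 2 ^ 16 * (δ / η) ∧ |(kᵀ *ᵥ w) 3| ≤ 2 ^ 16 * (δ / η) := by
    generalize kᵀ *ᵥ x = a at a2 a3 ha hdet o1
    generalize kᵀ *ᵥ z = b at b2 b3 hb hdet o2
    generalize kᵀ *ᵥ w = c at hc o1 o2 ⊢
    simp [J4, mulVec, dotProduct, Fin.sum_univ_four] at o1 o2
    have t : ∀ {p q B : ℝ}, |p| ≤ 1 → |q| ≤ B → |p * q| ≤ B := fun hp hq => by
      rw [abs_mul]
      exact (mul_le_mul hp hq (abs_nonneg _) zero_le_one).trans_eq (one_mul _)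
    have r : ∀ {a : Fin 4 → ℝ}, |a 2| ≤ 64 * δ → |a 3| ≤ 64 * δ →
        |a 0 * c 3 + a 1 * c 2 + -(a 2 * c 1) + -(a 3 * c 0)| ≤ 256 * δ →
        |a 0 * c 3 + a 1 * c 2| ≤ 384 * δ := by
      intro a h2 h3 h
      have u2 := abs_le.1 (t (hc 1) h2)
      have u3 := abs_le.1 (t (hc 0) h3)
      have u := abs_le.1 h
      rw [abs_le]
      constructor <;> linarith
    have r1 := r a2 a3 o1
    have r2 := r b2 b3 o2
    set A := a 0 * c 3 + a 1 * c 2
    set B := b 0 * c 3 + b 1 * c 2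
    set d := a 0 * b 1 - a 1 * b 0
    have hsolve : ∀ {p q u : ℝ}, |p| ≤ 1 → |q| ≤ 1 → u * d = p * A - q * B →
        |u| ≤ 2 ^ 16 * (δ / η) := by
      intro p q u hp hq e
      have h := congrArg abs e
      rw [abs_mul] at h
      have h' : |u| * |d| ≤ 768 * δ := by
        rw [h]
        linarith [abs_sub (p * A) (q * B), t hp r1, t hq r2]
      rw [mul_div_assoc', le_div_iff₀ hpos]
      have := mul_le_mul_of_nonneg_left hdet (abs_nonneg u)
      nlinarith [(abs_nonneg A).trans r1]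
    exact ⟨hsolve (p := -(b 0)) (q := -(a 0)) (by rw [abs_neg]; exact hb 0)
        (by rw [abs_neg]; exact ha 0) (by simp only [A, B, d]; ring),
      hsolve (hb 1) (ha 1) (by simp only [A, B, d]; ring)⟩
  have hδ : 0 ≤ δ / η := div_nonneg ((norm_nonneg _).trans h1) hpos.le
  have hcon : ‖testD w *ᵥ plane k‖ ≤ 2 * (2 ^ 16 * (δ / η)) := by
    refine (pi_norm_le_iff_of_nonneg (by positivity)).2 fun r => ?_
    rw [testD_mulVec]
    split_ifs
    · have hs : |(√2)⁻¹| ≤ 1 := by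
        rw [abs_of_pos (by positivity)]
        exact inv_le_one_of_one_le₀ (Real.one_le_sqrt.2 one_le_two)
      have q : ∀ i, |Pack.col k i r.1| ≤ 1 := fun i => by
        simpa [Real.norm_eq_abs] using (norm_le_pi_norm (Pack.col k i) r.1).trans
          (Pack.norm_col_le hk i)
      rw [contract_plane hk, Real.norm_eq_abs, Pi.smul_apply, Pi.sub_apply, Pi.smul_apply,
        Pi.smul_apply, smul_eq_mul, smul_eq_mul, smul_eq_mul, abs_mul]
      refine (mul_le_of_le_one_left (abs_nonneg _) hs).trans ((abs_sub _ _).trans ?_)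
      rw [abs_mul, abs_mul, two_mul]
      exact add_le_add (le_trans (mul_le_of_le_one_right (abs_nonneg _) (q 0)) hcoord.1)
        (le_trans (mul_le_of_le_one_right (abs_nonneg _) (q 1)) hcoord.2)
    · rw [norm_zero]; positivity
  linarith

theorem norm_wedge_ge {x z : Fin 4 → ℝ} (hx : IsUnit4 x) (hz : IsUnit4 z) :
    pdist x z ≤ 4 * ‖wedge x z‖ := by
  have e : wedge x z ⬝ᵥ wedge x z = 2 * (1 - (x ⬝ᵥ z) ^ 2) := by
    have e' : wedge x z ⬝ᵥ wedge x z = 2 * ((x ⬝ᵥ x) * (z ⬝ᵥ z) - (x ⬝ᵥ z) ^ 2) := by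
      simp only [wedge, dotProduct, Fintype.sum_prod_type, Fin.sum_univ_four]; ring
    rw [e', hx, hz, one_mul]
  have h : wedge x z ⬝ᵥ wedge x z ≤ 16 * ‖wedge x z‖ ^ 2 := by
    refine (sum_le_card_nsmul _ _ (‖wedge x z‖ ^ 2) fun i _ => ?_).trans_eq (by simp)
    have hi := norm_le_pi_norm (wedge x z) i
    rw [Real.norm_eq_abs] at hi
    nlinarith [abs_nonneg (wedge x z i), abs_mul_abs_self (wedge x z i)]
  nlinarith [pdist_sq hx hz, pdist_nonneg x z, norm_nonneg (wedge x z)]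

theorem le_log_div_iff {a b n : ℝ} (ha : 0 < a) (hb : 0 < b) :
    n ≤ Real.log (a / b) ↔ b ≤ Real.exp (-n) * a := by
  rw [Real.le_log_iff_exp_le (div_pos ha hb), le_div_iff₀ hb, Real.exp_neg, inv_mul_eq_div,
    le_div_iff₀ (Real.exp_pos n), mul_comm]

theorem testP_pos {v : Fin 4 → ℝ} {g gi : M4} (h : g * gi = 1) :
    0 < ‖testP v * g‖ := by
  refine norm_pos_iff.2 fun h0 => ?_
  have e : testP v = 0 := by
    rw [← Matrix.mul_one (testP v), ← h, ← Matrix.mul_assoc, h0, Matrix.zero_mul]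
  have e00 := congrFun (congrFun e 0) 0
  have e01 := congrFun (congrFun e 0) 1
  have e11 := congrFun (congrFun e 1) 1
  simp [testP, vecMulVec_apply, one_apply] at e00 e01 e11
  rcases e01 with h' | h' <;> simp [h'] at e00 e11

theorem testP2_pos {P : I2 → ℝ} {g gi : M4} (hg : IsSymp g) (hgi : IsSymp gi) (h : g * gi = 1) :
    0 < ‖testP P * rep2 g‖ := by
  refine norm_pos_iff.2 fun h0 => ?_
  have e : testP P * lag = 0 := by
    rw [lag, ← h, rep2_mul hg hgi, ← Matrix.mul_assoc, h0, Matrix.zero_mul]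
  rw [testP, Matrix.sub_mul, Matrix.one_mul, sub_eq_zero, vecMulVec_mul] at e
  have e1 := congrFun (congrFun e (0, 1)) (0, 1)
  have e2 := congrFun (congrFun e (0, 2)) (0, 2)
  have e3 := congrFun (congrFun e (0, 1)) (0, 2)
  rw [vecMulVec_apply] at e1 e2 e3
  generalize (P ᵥ* lag) (0, 1) = a at e1
  generalize (P ᵥ* lag) (0, 2) = b at e2 e3
  simp [lag, rep2, minors, omega, J4, vecMulVec_apply] at e1 e2 e3
  rcases e3 with h' | h' <;> simp [h'] at e1 e2

theorem testD_pos {v : Fin 4 → ℝ} (hv : IsUnit4 v) {g gi : M4} (hg : IsSymp g) (hgi : IsSymp gi)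
    (h : g * gi = 1) : 0 < ‖testD v * rep2 g‖ := by
  refine norm_pos_iff.2 fun h0 => ?_
  have e : testD v * lag = 0 := by
    rw [lag, ← h, rep2_mul hg hgi, ← Matrix.mul_assoc, h0, Matrix.zero_mul]
  have hz : ∀ k, IsK k → (kᵀ *ᵥ v) 2 = 0 ∧ (kᵀ *ᵥ v) 3 = 0 := fun k hk => by
    have h1 := frame_coord_le hk (x := v) (δ := 0) (by
      rw [← (plane_lag hk).2, mulVec_mulVec, e, zero_mulVec, norm_zero])
    simpa using h1
  obtain ⟨a2, a3⟩ := hz 1 ⟨by simp, isSymp_one⟩
  obtain ⟨b2, b3⟩ := hz J4 ⟨by rw [J4_transpose, Matrix.neg_mul, J4_mul_J4, neg_neg], isSymp_J4⟩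
  simp [J4, mulVec, dotProduct, Fin.sum_univ_four] at a2 a3 b2 b3
  simp [IsUnit4, dotProduct, Fin.sum_univ_four, a2, a3, b2, b3] at hv

theorem const_le_exp {t : ℕ} {c x : ℝ} (hc : c ≤ 2 ^ t) (hx : (t : ℝ) ≤ x) :
    c ≤ Real.exp x := by
  refine hc.trans ((pow_le_pow_left₀ zero_le_two (b := Real.exp 1) ?_ t).trans ?_)
  · exact (by norm_num : (2 : ℝ) ≤ 1 + 1).trans (Real.add_one_le_exp 1)
  · rw [← Real.exp_nat_mul]
    exact Real.exp_le_exp.2 (by linarith)

end Incidence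

namespace Env

open Incidence

variable {Γ O ι : Type} [Group Γ] [Fintype ι] (E : Env Γ O ι)

theorem le_pv_iff (v : Fin 4 → ℝ) (g : Γ) (n : ℝ) :
    n ≤ E.pv v g ↔ ‖testP v * E.ρ g‖ ≤ Real.exp (-n) * ‖E.ρ g‖ :=
  le_log_div_iff (E.norm_rho_pos g) (testP_pos (E.rho_mul_inv g))

theorem le_dv_iff {v : Fin 4 → ℝ} (hv : IsUnit4 v) (g : Γ) (n : ℝ) :
    n ≤ E.dv v g ↔ ‖testD v * rep2 (E.ρ g)‖ ≤ Real.exp (-n) * ‖rep2 (E.ρ g)‖ :=
  le_log_div_iff (E.norm_rep2_pos g) (testD_pos hv (E.symp g) (E.symp _) (E.rho_mul_inv g))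

theorem le_cP_iff (P : I2 → ℝ) (g : Γ) (n : ℝ) :
    n ≤ E.cP P g ↔ ‖testP P * rep2 (E.ρ g)‖ ≤ Real.exp (-n) * ‖rep2 (E.ρ g)‖ :=
  le_log_div_iff (E.norm_rep2_pos g) (testP2_pos (E.symp g) (E.symp _) (E.rho_mul_inv g))

/-- The top plane of a group element. -/
theorem exists_top_plane (g : Γ) : ∃ k : M4, IsK k ∧
    ‖testP (plane k) * rep2 (E.ρ g)‖ ≤ 2 ^ 40 * Real.exp (-E.rb g) * ‖rep2 (E.ρ g)‖ ∧
    ∀ (w : Fin 4 → ℝ) (n : ℝ), IsUnit4 w → n ≤ E.dv w g →
      ‖testD w *ᵥ plane k‖ ≤ 2 ^ 24 * Real.exp (-n) := by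
  obtain ⟨k, hk, h1, h2⟩ := exists_topFrame (E.symp g)
  have hR := E.norm_rep2_pos g
  refine ⟨k, hk, ?_, fun w n hw hn => ?_⟩
  · have e : Real.exp (-E.rb g) * ‖rep2 (E.ρ g)‖ * ‖rep2 (E.ρ g)‖ = ‖E.ρ g‖ ^ 2 := by
      rw [← E.exp_m2, ← E.exp_m, ← Real.exp_add, ← Real.exp_add, ← Real.exp_nat_mul, rb]
      congr 1
      push_cast
      ring
    refine le_of_mul_le_mul_right ?_ hR
    refine h1.trans_eq ?_
    rw [mul_assoc, mul_assoc, ← mul_assoc (Real.exp _), e]
  · refine le_of_mul_le_mul_right ((h2 _).trans ?_) hR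
    rw [mul_assoc]
    exact mul_le_mul_of_nonneg_left ((E.le_dv_iff hw g n).1 hn) (by norm_num)

theorem neg_one_le_cP {P : I2 → ℝ} (hP : P ⬝ᵥ P = 1) (g : Γ) : -1 ≤ E.cP P g := by
  rw [E.le_cP_iff, neg_neg]
  exact (norm_one_mul_le _ hP).trans (mul_le_mul_of_nonneg_right
    ((by norm_num : (2 : ℝ) ≤ 1 + 1).trans (Real.add_one_le_exp 1)) (norm_nonneg _))

theorem neg_le_dv {v : Fin 4 → ℝ} (hv : IsUnit4 v) (g : Γ) : -4 ≤ E.dv v g := by
  rw [E.le_dv_iff hv, neg_neg]
  refine (norm_mul_le _ _).trans (mul_le_mul_of_nonneg_right ?_ (norm_nonneg _))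
  refine ((norm_testD_le v).trans (mul_le_mul_of_nonneg_left (norm_le_one hv) (by norm_num))).trans ?_
  exact const_le_exp (t := 4) (by norm_num) (by norm_num)

/-- Cells are transferred by points that are near at a common element. -/
theorem geo_ok : E.GeoOK := by
  have big : ∀ (t : ℕ) {x c : ℝ}, t ≤ 300 → c ≤ 2 ^ t → c * Real.exp (-x) ≤ Real.exp (-(x - 300)) :=
    fun t x c ht hc => by
      rw [show -(x - 300) = 300 + -x by ring, Real.exp_add]
      exact mul_le_mul_of_nonneg_right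
        (const_le_exp hc (by exact_mod_cast ht)) (Real.exp_pos _).le
  refine ⟨300, by norm_num, ?_, ?_, ?_, ?_, ?_⟩
  · intro w w' hw hw' y y' n h1 h2 h3
    rw [E.le_pv_iff w] at h1 ⊢
    rw [E.le_pv_iff w'] at h2 h3
    have hd := pdist_le hw hw' (E.norm_rho_pos y) h1 h2
    refine (testP_le w w' _).trans ?_
    have := mul_le_mul_of_nonneg_right hd (norm_nonneg (E.ρ y'))
    have := mul_le_mul_of_nonneg_right (big 4 (x := n) (c := 13) (by norm_num) (by norm_num))
      (norm_nonneg (E.ρ y'))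
    linarith
  · intro w w' hw hw' y y' n h1 h2 h3
    rw [E.le_pv_iff w] at h1
    rw [E.le_pv_iff w'] at h2
    rw [E.le_dv_iff hw'] at h3
    rw [E.le_dv_iff hw]
    have hd := pdist_le hw hw' (E.norm_rho_pos y) h1 h2
    refine (testD_le hw hw' _).trans ?_
    have := mul_le_mul_of_nonneg_right hd (norm_nonneg (rep2 (E.ρ y')))
    have := mul_le_mul_of_nonneg_right (big 8 (x := n) (c := 193) (by norm_num) (by norm_num))
      (norm_nonneg (rep2 (E.ρ y')))
    linarith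
  · intro P P' hP hP' y y' n h1 h2 h3
    rw [E.le_cP_iff] at h1 h2 h3 ⊢
    have hd := pdist_le hP.1 hP'.1 (E.norm_rep2_pos y) h1 h2
    refine (testP_le P P' _).trans ?_
    have := mul_le_mul_of_nonneg_right hd (norm_nonneg (rep2 (E.ρ y')))
    have := mul_le_mul_of_nonneg_right (big 4 (x := n) (c := 13) (by norm_num) (by norm_num))
      (norm_nonneg (rep2 (E.ρ y')))
    linarith
  · intro w₀ w₁ w₂ h0 h1 h2 y₁ y₂ y n k hk1 hk2 a01 a11 a02 a22 a1 a2
    obtain ⟨K₁, hK1, ht1, hs1⟩ := E.exists_top_plane y₁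
    obtain ⟨K₂, hK2, ht2, hs2⟩ := E.exists_top_plane y₂
    obtain ⟨K, hK, -, hs⟩ := E.exists_top_plane y
    by_cases hkC : k ≤ 200
    · exact Or.inl ⟨_, plane_lag hK1,
        by linarith [E.neg_one_le_cP (plane_lag hK1).1 y₁],
        by linarith [E.neg_one_le_cP (plane_lag hK1).1 y₂]⟩
    by_cases hnk : n ≤ k
    · exact Or.inr (by linarith [E.neg_le_dv h0 y])
    push Not at hkC hnk
    set η := Real.exp (-((n - k) / 2)) with hη
    have hη0 : 0 < η := Real.exp_pos _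
    have hδη : Real.exp (-n) ≤ η := Real.exp_le_exp.2 (by linarith)
    by_cases hnear : pdist w₀ w₁ ≤ η ∨ pdist w₀ w₂ ≤ η
    · refine Or.inr ((E.le_dv_iff h0 y _).2 ?_)
      have go : ∀ w, IsUnit4 w → n ≤ E.dv w y → pdist w₀ w ≤ η → ‖testD w₀ * rep2 (E.ρ y)‖ ≤
          Real.exp (-((n - k) / 2 - 300)) * ‖rep2 (E.ρ y)‖ := by
        intro w hw ha hd
        rw [E.le_dv_iff hw] at ha
        refine (testD_le h0 hw _).trans ?_
        have := mul_le_mul_of_nonneg_right hd (norm_nonneg (rep2 (E.ρ y)))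
        have := mul_le_mul_of_nonneg_right hδη (norm_nonneg (rep2 (E.ρ y)))
        have := mul_le_mul_of_nonneg_right
          (big 5 (x := (n - k) / 2) (c := 17) (by norm_num) (by norm_num))
          (norm_nonneg (rep2 (E.ρ y)))
        rw [← hη] at this
        linarith
      rcases hnear with hd | hd
      · exact go w₁ h1 a1 hd
      · exact go w₂ h2 a2 hd
    push Not at hnear
    left
    set δ := 2 ^ 24 * Real.exp (-n) with hδ
    have hW : ∀ w, IsUnit4 w → η < pdist w₀ w → η / 4 ≤ ‖wedge w₀ w‖ := fun w hw h => by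
      linarith [norm_wedge_ge h0 hw]
    have o1 := omega_le hK2 h0 h2 (hs2 _ _ h0 a02) (hs2 _ _ h2 a22)
    have o2 := omega_le hK h1 h2 (hs _ _ h1 a1) (hs _ _ h2 a2)
    have hsep : 2 ^ 28 * δ ≤ η / 4 := by
      have h := const_le_exp (t := 60) (c := 2 ^ 54) (x := (n + k) / 2) (by norm_num)
        (by push_cast; linarith)
      have e : Real.exp (-n) * Real.exp ((n + k) / 2) = η := by
        rw [← Real.exp_add, hη]; congr 1; ring
      have := mul_le_mul_of_nonneg_left h (Real.exp_pos (-n)).le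
      rw [e] at this
      rw [hδ]
      linarith
    have hin := in_plane hK1 h0 h1 h2 (hs1 _ _ h0 a01) (hs1 _ _ h1 a11) (hW _ h1 hnear.1) hsep
      o1 o2 (by positivity)
    set δ' := 2 ^ 27 * (δ / (η / 4))
    have hη1 : η ≤ 1 := Real.exp_le_one_iff.2 (by linarith)
    have hδ' : δ ≤ δ' := by
      have h0' : 0 ≤ δ := by positivity
      have : δ ≤ δ / (η / 4) / (1 / 4) := by
        rw [le_div_iff₀ (by norm_num), le_div_iff₀ (by positivity)]
        nlinarith
      have : 0 ≤ δ / (η / 4) := by positivity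
      simp only [δ']
      linarith
    have n1 := wedge_near hK1 h0 h2 ((hs1 _ _ h0 a01).trans hδ') hin
    have n2 := wedge_near hK2 h0 h2 ((hs2 _ _ h0 a02).trans hδ') ((hs2 _ _ h2 a22).trans hδ')
    have hd := pdist_le_of_vec (plane_lag hK1).1 (plane_lag hK2).1 (by positivity)
      (hW _ h2 hnear.2) n1 n2
    have hd' : pdist (plane K₁) (plane K₂) ≤ 2 ^ 90 * Real.exp (-k) := by
      refine hd.trans ?_
      have e : Real.exp (-k) = Real.exp (-n) / (η * η) := by
        rw [hη, ← Real.exp_add, ← Real.exp_sub]; congr 1; ring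
      rw [e]
      simp only [δ', hδ, Fintype.card_prod, Fintype.card_fin]
      have : 0 < Real.exp (-n) / (η * η) := by positivity
      field_simp at this ⊢
      push_cast
      linarith [Real.exp_pos (-n)]
    have hmul := mul_le_mul_of_nonneg_right (big 91 (x := k) (c := 2 ^ 91) (by norm_num) le_rfl)
      (norm_nonneg (rep2 (E.ρ y₂)))
    have hb1 := mul_le_mul_of_nonneg_right (Real.exp_le_exp.2 (neg_le_neg hk1))
      (norm_nonneg (rep2 (E.ρ y₁)))
    have hb2 := mul_le_mul_of_nonneg_right (Real.exp_le_exp.2 (neg_le_neg hk2))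
      (norm_nonneg (rep2 (E.ρ y₂)))
    refine ⟨_, plane_lag hK1, (E.le_cP_iff _ y₁ _).2 ?_, (E.le_cP_iff _ y₂ _).2 ?_⟩
    · have := mul_le_mul_of_nonneg_right (big 40 (x := k) (c := 2 ^ 40) (by norm_num) le_rfl)
        (norm_nonneg (rep2 (E.ρ y₁)))
      linarith
    · refine (testP_le _ (plane K₂) _).trans ?_
      have := mul_le_mul_of_nonneg_right hd' (norm_nonneg (rep2 (E.ρ y₂)))
      have := mul_nonneg (Real.exp_pos (-k)).le (norm_nonneg (rep2 (E.ρ y₂)))
      linarith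
  · intro v w hv hw y y' n l hpv hpw a b a' b' hby hby'
    obtain ⟨K, hK, ht, hs⟩ := E.exists_top_plane y
    obtain ⟨K', hK', ht', hs'⟩ := E.exists_top_plane y'
    have hsep : Real.exp (-l) / 2 ≤ pdist v w := by
      have h1 : Real.exp (-l) * ‖E.ρ y‖ ≤ ‖testP v * E.ρ y‖ := by
        have hb := testP_pos (v := v) (E.rho_mul_inv y)
        have hl : Real.log (‖E.ρ y‖ / ‖testP v * E.ρ y‖) ≤ l := hpv
        rw [Real.log_le_iff_le_exp (div_pos (E.norm_rho_pos y) hb), div_le_iff₀ hb] at hl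
        rw [Real.exp_neg, inv_mul_le_iff₀ (Real.exp_pos l)]
        exact hl
      have h2 := (E.le_pv_iff w y _).1 hpw
      have h3 : Real.exp (-(l + 300)) ≤ Real.exp (-l) / 2 := by
        rw [le_div_iff₀ two_pos, neg_add, Real.exp_add, mul_assoc]
        refine mul_le_of_le_one_right (Real.exp_pos _).le ?_
        rw [Real.exp_neg, inv_mul_le_iff₀ (Real.exp_pos _), mul_one]
        exact const_le_exp (t := 1) (by norm_num) (by norm_num)
      refine le_of_mul_le_mul_right ?_ (E.norm_rho_pos y)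
      have := mul_le_mul_of_nonneg_right h3 (norm_nonneg (E.ρ y))
      linarith [testP_le v w (E.ρ y)]
    have hW : Real.exp (-l) / 8 ≤ ‖wedge v w‖ := by linarith [norm_wedge_ge hv hw]
    have n1 := wedge_near hK hv hw (hs _ _ hv a) (hs _ _ hw b)
    have n2 := wedge_near hK' hv hw (hs' _ _ hv a') (hs' _ _ hw b')
    have hd := pdist_le_of_vec (plane_lag hK').1 (plane_lag hK).1 (by positivity) hW n2 n1
    have hd' : pdist (plane K) (plane K') ≤ 2 ^ 61 * Real.exp (-(n - l)) := by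
      rw [pdist_comm]
      refine hd.trans ?_
      have e : Real.exp (-(n - l)) = Real.exp (-n) / Real.exp (-l) := by
        rw [← Real.exp_sub]; congr 1; ring
      rw [e]
      simp only [Fintype.card_prod, Fintype.card_fin]
      field_simp
      push_cast
      linarith [Real.exp_pos (-n)]
    have hb : ∀ g, n ≤ E.rb g + l → Real.exp (-E.rb g) ≤ Real.exp (-(n - l)) := fun g h =>
      Real.exp_le_exp.2 (by linarith)
    have hmul : ∀ (g : Γ) (t : ℕ), t ≤ 300 → (2 : ℝ) ^ t * Real.exp (-(n - l)) *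
        ‖rep2 (E.ρ g)‖ ≤ Real.exp (-(n - l - 300)) * ‖rep2 (E.ρ g)‖ := fun g t ht =>
      mul_le_mul_of_nonneg_right (big t ht le_rfl) (norm_nonneg _)
    refine ⟨_, plane_lag hK, (E.le_cP_iff _ y _).2 ?_, (E.le_cP_iff _ y' _).2 ?_⟩
    · have := mul_le_mul_of_nonneg_right (hb y hby) (norm_nonneg (rep2 (E.ρ y)))
      linarith [hmul y 40 (by norm_num)]
    · refine (testP_le _ (plane K') _).trans ?_
      have := mul_le_mul_of_nonneg_right hd' (norm_nonneg (rep2 (E.ρ y')))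
      have := mul_le_mul_of_nonneg_right (hb y' hby') (norm_nonneg (rep2 (E.ρ y')))
      have := mul_nonneg (Real.exp_pos (-(n - l))).le (norm_nonneg (rep2 (E.ρ y')))
      linarith [hmul y' 62 (by norm_num)]

end Env

end Vale.Agent.P165.SP
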