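import Vale.Agent.P165.SP.Compose
import Vale.Agent.P165.SP.Elementary
import Vale.Agent.P165.SP.Est
import Vale.Agent.P165.SP.Geo

/-!
# Discrete dense subgroups of `Sp(4, ℝ)`: the theorem and the examples
-/

namespace Vale.Agent.P165.SP

open Matrix
open scoped Matrix.Norms.Frobenius

/-- Every discrete dense symplectic representation gives a nonuniqueness phase. -/
theorem nonuniquePhase_of_dense {Γ : Type} [Group Γ] (ρ : Γ →* M4) (symp : ∀ g, IsSymp (ρ g))
    (hfin : ∀ R : ℝ, {g | ∀ i j, |ρ g i j| ≤ R}.Finite) (hρ : Dense ρ) : SG.NonuniquePhase Γ :=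
  nonuniquePhase_of_linear
    (fun _ _ _ _ _ _ _ _ E => ⟨E.est_ok, E.geo_ok, E.cocycle_ok, E.init_ok⟩) ρ symp hfin hρ

/-- The integer symplectic group of degree four. -/
theorem nonuniquePhase_intSp : SG.NonuniquePhase intSp :=
  nonuniquePhase_of_dense intHom intHom_symp intHom_discrete intHom_dense

/-- The group of five transvections with these generators. -/
theorem pc_lt_pu_elemSp :
    pc (SimpleGraph.mulCayley ((Subgroup.closure elemSp).subtype ⁻¹' elemSp)) <
      pu (SimpleGraph.mulCayley ((Subgroup.closure elemSp).subtype ⁻¹' elemSp)) := by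
  have hinj : Function.Injective (Subgroup.closure elemSp).subtype := Subgroup.subtype_injective _
  refine (nonuniquePhase_of_dense (intHom.comp (Subgroup.closure elemSp).subtype)
    (fun g => intHom_symp _) (fun R => ?_) elemSp_dense).2 _ _ ?_ ?_ (MonoidHom.id _)
    Function.injective_id ?_
  · exact ((intHom_discrete R).preimage hinj.injOn).subset fun g hg => hg
  · exact elemSp_finite.preimage hinj.injOn
  · exact Subgroup.closure_closure_coe_preimage
  · rw [MonoidHom.range_eq_top_of_surjective _ Function.surjective_id]; infer_instance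

end Vale.Agent.P165.SP
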