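import Vale.Agent.P165.SP.Rep

/-!
# Intervals of additive sizes in `Sp(4, ℝ)`

If `y = z x = z' x'` with the sizes of both representations multiplicative in both factorisations
and `z`, `z'` of comparable sizes, then `z⁻¹ z'` is bounded. In a Cartan frame `u₀, …, u₃` of `y`
the outer vectors are short at one of the two factors by the first representation; the inner ones
are contractions of a wedge with an outer vector, and the second representation bounds the wedges.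
-/

namespace Vale.Agent.P165.SP.Pack

open Finset Matrix
open scoped Matrix.Norms.Frobenius

theorem abs_entry_le {n : Type} [Fintype n] (A : Matrix n n ℝ) (i j : n) : |A i j| ≤ ‖A‖ := by
  rw [frobenius_norm_def, ← Real.sqrt_eq_rpow, ← Real.sqrt_sq_eq_abs]
  refine Real.sqrt_le_sqrt ?_
  simp only [Real.rpow_two, Real.norm_eq_abs, sq_abs]
  exact (single_le_sum (f := fun j => A i j ^ 2) (fun j _ => sq_nonneg _) (mem_univ j)).trans
    (single_le_sum (f := fun i => ∑ j, A i j ^ 2)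
      (fun i _ => sum_nonneg fun j _ => sq_nonneg _) (mem_univ i))

theorem norm_le_of_entries {n : Type} [Fintype n] (A : Matrix n n ℝ) {B : ℝ} (hB : 0 ≤ B)
    (h : ∀ i j, |A i j| ≤ B) : ‖A‖ ≤ (Fintype.card n : ℝ) * B := by
  rw [frobenius_norm_def, ← Real.sqrt_eq_rpow]
  refine (Real.sqrt_le_sqrt (y := ((Fintype.card n : ℝ) * B) ^ 2) ?_).trans_eq
    (Real.sqrt_sq (by positivity))
  simp only [Real.rpow_two, Real.norm_eq_abs, sq_abs]
  refine (sum_le_sum fun i _ => sum_le_sum fun j _ =>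
    (sq_le_sq' (abs_le.1 (h i j)).1 (abs_le.1 (h i j)).2)).trans_eq ?_
  simp; ring

theorem norm_mulVec_le {n : Type} [Fintype n] (A : Matrix n n ℝ) (v : n → ℝ) :
    ‖A *ᵥ v‖ ≤ (Fintype.card n : ℝ) * ‖A‖ * ‖v‖ := by
  refine (pi_norm_le_iff_of_nonneg (by positivity)).2 fun i => ?_
  rw [Real.norm_eq_abs, mulVec, dotProduct, mul_assoc, ← nsmul_eq_mul, ← card_univ]
  refine (abs_sum_le_sum_abs _ _).trans (sum_le_card_nsmul _ _ _ fun j _ => ?_)
  rw [abs_mul]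
  exact mul_le_mul (abs_entry_le A i j) (norm_le_pi_norm v j) (abs_nonneg _) (norm_nonneg _)

/-- The contraction of a bivector with a vector through the form. -/
def contract (B : I2 → ℝ) (v : Fin 4 → ℝ) : Fin 4 → ℝ := fun i => ∑ j, B (i, j) * (J4 *ᵥ v) j

theorem contract_le (B : I2 → ℝ) (v : Fin 4 → ℝ) : ‖contract B v‖ ≤ 4 * (‖B‖ * ‖v‖) := by
  refine (pi_norm_le_iff_of_nonneg (by positivity)).2 fun i => ?_
  rw [Real.norm_eq_abs]
  refine ((abs_sum_le_sum_abs _ _).trans (sum_le_card_nsmul _ _ (‖B‖ * ‖v‖) fun j _ => ?_)).trans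
    (le_of_eq (by simp))
  rw [abs_mul]
  refine mul_le_mul (norm_le_pi_norm B (i, j)) ?_ (abs_nonneg _) (norm_nonneg _)
  have h := fun k => norm_le_pi_norm v k
  simp only [Real.norm_eq_abs] at h
  fin_cases j <;> simp [J4, mulVec, dotProduct, Fin.sum_univ_four, h]

theorem contract_wedge (a b v : Fin 4 → ℝ) :
    contract (wedge a b) v = (b ⬝ᵥ (J4 *ᵥ v)) • a - (a ⬝ᵥ (J4 *ᵥ v)) • b := by
  funext i
  simp only [contract, wedge, dotProduct, Pi.sub_apply, Pi.smul_apply, smul_eq_mul, sum_mul,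
    ← sum_sub_distrib]
  exact sum_congr rfl fun j _ => by ring

/-- A frame vector. -/
def col (k : M4) (i : Fin 4) : Fin 4 → ℝ := k *ᵥ Pi.single i 1

/-- The second frame vector is a contraction of the wedge of the first two with the last. -/
theorem second_le {h k : M4} (hh : IsSymp h) (hk : IsSymp k) :
    ‖h *ᵥ col k 1‖ ≤ 4 * (‖wedge (h *ᵥ col k 0) (h *ᵥ col k 1)‖ * ‖h *ᵥ col k 3‖) := by
  have e : contract (wedge (h *ᵥ col k 0) (h *ᵥ col k 1)) (h *ᵥ col k 3) = -(h *ᵥ col k 1) := by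
    rw [contract_wedge, hh.apply, hh.apply, col, col, col, hk.apply, hk.apply]
    simp [J4]
  rw [← norm_neg, ← e]
  exact contract_le _ _

/-- The third frame vector is a contraction of the wedge of the last two with the first. -/
theorem third_le {h k : M4} (hh : IsSymp h) (hk : IsSymp k) :
    ‖h *ᵥ col k 2‖ ≤ 4 * (‖wedge (h *ᵥ col k 2) (h *ᵥ col k 3)‖ * ‖h *ᵥ col k 0‖) := by
  have e : contract (wedge (h *ᵥ col k 2) (h *ᵥ col k 3)) (h *ᵥ col k 0) = -(h *ᵥ col k 2) := by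
    rw [contract_wedge, hh.apply, hh.apply, col, col, col, hk.apply, hk.apply]
    simp [J4]
  rw [← norm_neg, ← e]
  exact contract_le _ _

theorem abs_isK_le {k : M4} (hk : IsK k) (i j : Fin 4) : |k i j| ≤ 1 := by
  have h := congrFun (congrFun hk.1 j) j
  simp only [mul_apply, transpose_apply, one_apply_eq] at h
  rw [abs_le_one_iff_mul_self_le_one, ← h]
  exact single_le_sum (f := fun x => k x j * k x j) (fun x _ => mul_self_nonneg _) (mem_univ i)

theorem norm_isK_le {k : M4} (hk : IsK k) : ‖k‖ ≤ 4 :=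
  (norm_le_of_entries k zero_le_one (abs_isK_le hk)).trans_eq (by simp)

theorem abs_minors_le {g : M4} {B : ℝ} (h : ∀ i j, |g i j| ≤ B) (r c : I2) :
    |minors g r c| ≤ B ^ 2 := by
  have h1 : |g r.1 c.1 * g r.2 c.2| ≤ B ^ 2 := by
    rw [abs_mul, sq]
    exact mul_le_mul (h _ _) (h _ _) (abs_nonneg _) ((abs_nonneg _).trans (h r.1 c.1))
  have h2 : |g r.1 c.2 * g r.2 c.1| ≤ B ^ 2 := by
    rw [abs_mul, sq]
    exact mul_le_mul (h _ _) (h _ _) (abs_nonneg _) ((abs_nonneg _).trans (h r.1 c.1))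
  simp only [minors, of_apply, abs_div, abs_two]
  linarith [abs_sub (g r.1 c.1 * g r.2 c.2) (g r.1 c.2 * g r.2 c.1)]

theorem abs_omega_le (r : I2) : |omega r| ≤ 1 := by
  obtain ⟨i, j⟩ := r
  fin_cases i <;> fin_cases j <;> simp [omega, J4]

theorem abs_omega2_le (r c : I2) : |(4 : ℝ)⁻¹ * (omega r * omega c)| ≤ 1 / 4 := by
  rw [abs_mul, abs_mul]
  have := mul_le_one₀ (abs_omega_le r) (abs_nonneg _) (abs_omega_le c)
  norm_num
  linarith

theorem norm_rep2_isK_le {k : M4} (hk : IsK k) : ‖rep2 k‖ ≤ 32 := by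
  refine (norm_le_of_entries (rep2 k) (B := 2) zero_le_two fun r c => ?_).trans_eq (by norm_num)
  have h1 := abs_minors_le (abs_isK_le hk) r c
  have h2 := abs_omega2_le r c
  simp only [rep2, Matrix.sub_apply, Matrix.smul_apply, vecMulVec_apply, smul_eq_mul]
  have := abs_sub (minors k r c) ((4 : ℝ)⁻¹ * (omega r * omega c))
  linarith

theorem norm_diag4_le {s₁ s₂ : ℝ} (h2 : 1 ≤ s₂) (h12 : s₂ ≤ s₁) : ‖diag4 s₁ s₂‖ ≤ 4 * s₁ := by
  have h : s₂⁻¹ ≤ 1 ∧ s₁⁻¹ ≤ 1 :=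
    ⟨inv_le_one_of_one_le₀ h2, inv_le_one_of_one_le₀ (h2.trans h12)⟩
  have hp : 0 < s₂⁻¹ ∧ 0 < s₁⁻¹ := ⟨inv_pos.2 (by linarith), inv_pos.2 (by linarith)⟩
  refine (norm_le_of_entries _ (B := s₁) (by linarith) fun i j => ?_).trans_eq (by simp)
  have q : |s₁| = s₁ ∧ |s₂| = s₂ := ⟨abs_of_pos (by linarith), abs_of_pos (by linarith)⟩
  fin_cases i <;> fin_cases j <;> simp [diag4, q.1, q.2] <;> linarith

theorem norm_rep2_diag4_le {s₁ s₂ : ℝ} (h2 : 1 ≤ s₂) (h12 : s₂ ≤ s₁) :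
    ‖rep2 (diag4 s₁ s₂)‖ ≤ 32 * (s₁ * s₂) := by
  have h1 : 1 ≤ s₁ := h2.trans h12
  have h11 : 1 ≤ s₁ * s₂ := one_le_mul_of_one_le_of_one_le h1 h2
  set d : Fin 4 → ℝ := ![s₁, s₂, s₂⁻¹, s₁⁻¹] with hd
  have hb : ∀ i j, i ≠ j → |d i * d j| ≤ s₁ * s₂ := by
    have a := inv_le_one_of_one_le₀ h1
    have b := inv_le_one_of_one_le₀ h2
    have e0 : (0 : ℝ) < s₁⁻¹ := inv_pos.2 (by linarith)
    have e1 : (0 : ℝ) < s₂⁻¹ := inv_pos.2 (by linarith)
    intro i j hij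
    rw [abs_of_nonneg (by fin_cases i <;> fin_cases j <;> simp [hd] <;> positivity)]
    fin_cases i <;> fin_cases j <;> simp [hd] <;>
      first | (exact absurd rfl hij) | nlinarith
  refine (norm_le_of_entries _ (B := 2 * (s₁ * s₂)) (by positivity) fun r c => ?_).trans_eq (by
    simp; ring)
  have hm : |minors (diag4 s₁ s₂) r c| ≤ s₁ * s₂ := by
    obtain ⟨i, j⟩ := r
    obtain ⟨i', j'⟩ := c
    simp only [minors, of_apply, diag4, ← hd, diagonal_apply]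
    rcases eq_or_ne i j with rfl | e
    · rw [show ∀ a b c e : ℝ, a * b = c * e → (a * b - c * e) / 2 = 0 from fun a b c e h => by
        rw [h, sub_self, zero_div]]
      · simp only [abs_zero]; linarith
      · ring
    have hp := abs_le.1 (hb i j e)
    rw [abs_le]
    split_ifs <;> subst_vars <;> first | (exact absurd rfl e) | (constructor <;> linarith [hp.1, hp.2])
  have h2' := abs_omega2_le r c
  simp only [rep2, Matrix.sub_apply, Matrix.smul_apply, vecMulVec_apply, smul_eq_mul]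
  have := abs_sub (minors (diag4 s₁ s₂) r c) ((4 : ℝ)⁻¹ * (omega r * omega c))
  linarith

/-- The hypotheses on one factor. -/
def Fits (C : ℝ) (y z zi x xi : M4) : Prop :=
  IsSymp z ∧ IsSymp zi ∧ IsSymp x ∧ IsSymp xi ∧ zi * y = x ∧ y * xi = z ∧
    ‖z‖ * ‖x‖ ≤ C * ‖y‖ ∧ ‖z‖ * ‖xi‖ ≤ C * ‖y‖ ∧ ‖zi‖ ≤ C * ‖z‖ ∧
    ‖rep2 z‖ * ‖rep2 x‖ ≤ C * ‖rep2 y‖ ∧ ‖rep2 z‖ * ‖rep2 xi‖ ≤ C * ‖rep2 y‖ ∧
    ‖rep2 zi‖ ≤ C * ‖rep2 z‖

theorem norm_wedge_le (a b : Fin 4 → ℝ) : ‖wedge a b‖ ≤ 2 * (‖a‖ * ‖b‖) := by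
  refine (pi_norm_le_iff_of_nonneg (by positivity)).2 fun r => ?_
  have h : ∀ i j, |a i * b j| ≤ ‖a‖ * ‖b‖ := fun i j => by
    rw [abs_mul]
    exact mul_le_mul (norm_le_pi_norm a i) (norm_le_pi_norm b j) (abs_nonneg _) (norm_nonneg _)
  rw [Real.norm_eq_abs, wedge]
  have := h r.1 r.2
  have := h r.2 r.1
  have := abs_sub (a r.1 * b r.2) (b r.1 * a r.2)
  rw [mul_comm (b r.1)] at this
  rw [mul_comm (b r.1)]
  linarith

theorem norm_single_le (i : Fin 4) : ‖(Pi.single i 1 : Fin 4 → ℝ)‖ ≤ 1 :=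
  (pi_norm_le_iff_of_nonneg zero_le_one).2 fun j => by
    rcases eq_or_ne j i with rfl | h <;> simp [*]

theorem norm_col_le {k : M4} (hk : IsK k) (i : Fin 4) : ‖col k i‖ ≤ 1 :=
  (pi_norm_le_iff_of_nonneg zero_le_one).2 fun j => by
    simpa [col, mulVec_single] using abs_isK_le hk j i

/-- What the two representations give at one factor in the Cartan frame of the product. -/
theorem factor_le {C : ℝ} (hC : 0 ≤ C) {y z zi x xi : M4} (h : Fits C y z zi x xi) {k k' : M4} {s₁ s₂ : ℝ}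
    (hk : IsK k) (hk' : IsK k') (h2 : 1 ≤ s₂) (h12 : s₂ ≤ s₁) (hy : y = k * diag4 s₁ s₂ * k') :
    ‖z‖ * ‖zi *ᵥ col k 0‖ ≤ 256 * C ∧ ‖z‖ * ‖zᵀ *ᵥ col k 3‖ ≤ 256 * C ∧
    ‖rep2 z‖ * ‖wedge (zi *ᵥ col k 0) (zi *ᵥ col k 1)‖ ≤ 2 ^ 21 * C ∧
    ‖rep2 z‖ * ‖wedge (zᵀ *ᵥ col k 2) (zᵀ *ᵥ col k 3)‖ ≤ 2 ^ 21 * C := by
  obtain ⟨hz, hzi, hx, hxi, hzy, hyx, a1, a2, -, b1, b2, -⟩ := h
  have hs1 : 0 < s₁ := by linarith
  have hs2 : 0 < s₂ := by linarith
  have hkk : k'ᵀ * k' = 1 := hk'.1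
  have hkk' : k' * k'ᵀ = 1 := mul_eq_one_comm.1 hkk
  have hkt : IsK k'ᵀ := ⟨by rw [transpose_transpose, hkk'], hk'.2.transpose⟩
  have hy0 : y * k'ᵀ = k * diag4 s₁ s₂ := by
    rw [hy, Matrix.mul_assoc, hkk', Matrix.mul_one]
  have hyt : yᵀ * k = k'ᵀ * diag4 s₁ s₂ := by
    rw [hy, transpose_mul, transpose_mul, Matrix.mul_assoc, Matrix.mul_assoc, hk.1, Matrix.mul_one,
      diag4, diagonal_transpose]
  have hyn : ‖y‖ ≤ 64 * s₁ := by
    rw [hy]
    refine (norm_mul_le _ _).trans ((mul_le_mul (norm_mul_le _ _) (norm_isK_le hk') (norm_nonneg _)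
      (by positivity)).trans ?_)
    nlinarith [norm_isK_le hk, norm_diag4_le h2 h12, norm_nonneg k, norm_nonneg (diag4 s₁ s₂)]
  have hyn2 : ‖rep2 y‖ ≤ 2 ^ 15 * (s₁ * s₂) := by
    have hD : IsSymp (diag4 s₁ s₂) := by
      rw [IsSymp]
      ext i j
      fin_cases i <;> fin_cases j <;>
        simp [diag4, J4, mul_apply, Fin.sum_univ_four, hs1.ne', hs2.ne']
    rw [hy, rep2_mul (hk.2.mul hD) hk'.2, rep2_mul hk.2 hD]
    refine (norm_mul_le _ _).trans ((mul_le_mul (norm_mul_le _ _) (norm_rep2_isK_le hk')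
      (norm_nonneg _) (by positivity)).trans ?_)
    nlinarith [norm_rep2_isK_le hk, norm_rep2_diag4_le h2 h12, norm_nonneg (rep2 k),
      norm_nonneg (rep2 (diag4 s₁ s₂))]
  have et : ∀ i : Fin 4, zᵀ *ᵥ col k i = ![s₁, s₂, s₂⁻¹, s₁⁻¹] i • (xiᵀ *ᵥ col k'ᵀ i) := by
    intro i
    rw [← hyx, transpose_mul, col, col, ← mulVec_mulVec, mulVec_mulVec (Pi.single i 1) yᵀ, hyt,
      ← mulVec_mulVec, diag4, diagonal_mulVec_single, mul_one, ← mulVec_smul, ← mulVec_smul]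
    congr 2
    funext j
    simp [Pi.single_apply]
  have ex : ∀ i : Fin 4, ![s₁, s₂, s₂⁻¹, s₁⁻¹] i • (zi *ᵥ col k i) = x *ᵥ col k'ᵀ i := by
    intro i
    rw [← hzy, ← mulVec_smul, col, col, ← mulVec_mulVec, mulVec_mulVec (Pi.single i 1) y, hy0,
      ← mulVec_mulVec, diag4, diagonal_mulVec_single, mul_one, ← mulVec_smul]
    congr 2
    funext j
    simp [Pi.single_apply]
  have b := fun (M : M4) (i : Fin 4) => (norm_mulVec_le M (col k'ᵀ i)).trans
    (mul_le_of_le_one_right (by positivity) (norm_col_le hkt i))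
  simp only [Fintype.card_fin, Nat.cast_ofNat] at b
  have hw : ∀ (M : M4), IsSymp M → ∀ i j : Fin 4, J4 i j = 0 →
      ‖wedge (M *ᵥ col k'ᵀ i) (M *ᵥ col k'ᵀ j)‖ ≤ 32 * ‖rep2 M‖ := by
    intro M _ i j hij
    rw [← rep2_wedge M (by rw [col, col, hkt.2.apply]; simpa [mulVec_single] using hij)]
    refine (norm_mulVec_le _ _).trans ?_
    have hwl := (norm_wedge_le (col k'ᵀ i) (col k'ᵀ j)).trans
      (mul_le_mul_of_nonneg_left
        (mul_le_one₀ (norm_col_le hkt i) (norm_nonneg _) (norm_col_le hkt j)) zero_le_two)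
    refine (mul_le_mul_of_nonneg_left hwl (by positivity)).trans (le_of_eq ?_)
    simp; ring
  have hwx := hw x hx 0 1 (by simp [J4])
  have hwt := hw xiᵀ hxi.transpose 2 3 (by simp [J4])
  rw [← rep2_transpose, frobenius_transpose] at hwt
  rw [← ex 0, ← ex 1] at hwx
  have e3 := et 3
  have e2 := et 2
  have bx := b x 0
  have bt := b xiᵀ 3
  rw [← ex 0] at bx
  rw [frobenius_transpose] at bt
  simp [norm_smul, abs_of_pos hs1] at bx e2 e3 hwx
  have hz0 := norm_nonneg z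
  have hr0 := norm_nonneg (rep2 z)
  refine ⟨le_of_mul_le_mul_left (a := s₁) ?_ hs1, ?_, le_of_mul_le_mul_left (a := s₁ * s₂) ?_
    (by positivity), ?_⟩
  · nlinarith [mul_le_mul_of_nonneg_left bx hz0, mul_le_mul_of_nonneg_left hyn hC]
  · rw [e3, norm_smul, norm_inv, Real.norm_eq_abs, abs_of_pos hs1, ← mul_assoc, mul_comm ‖z‖,
      mul_assoc, inv_mul_le_iff₀ hs1]
    nlinarith [mul_le_mul_of_nonneg_left bt hz0, mul_le_mul_of_nonneg_left hyn hC]
  · have hsm : ∀ (a c : Fin 4 → ℝ) (u v : ℝ), wedge (u • a) (v • c) = (u * v) • wedge a c :=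
      fun a c u v => by funext r; simp [wedge]; ring
    rw [hsm, norm_smul, Real.norm_eq_abs, abs_of_pos (by positivity)] at hwx
    nlinarith [mul_le_mul_of_nonneg_left hwx hr0, mul_le_mul_of_nonneg_left hyn2 hC, mul_nonneg hC (mul_pos hs1 hs2).le]
  · rw [e2, e3]
    have hsm : ∀ (a c : Fin 4 → ℝ) (u v : ℝ), wedge (u • a) (v • c) = (u * v) • wedge a c :=
      fun a c u v => by funext r; simp [wedge]; ring
    rw [hsm, norm_smul, Real.norm_eq_abs, abs_of_pos (by positivity), ← mul_inv, ← mul_assoc,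
      mul_comm ‖rep2 z‖, mul_assoc, mul_comm s₂, inv_mul_le_iff₀ (by positivity)]
    nlinarith [mul_le_mul_of_nonneg_left hwt hr0, mul_le_mul_of_nonneg_left hyn2 hC, mul_nonneg hC (mul_pos hs1 hs2).le]

/-- A product is small when its frame coefficients are small. -/
theorem norm_mul_le_of_frame {A B k : M4} (hk : IsK k) {K : ℝ} (hK : 0 ≤ K)
    (h : ∀ l, ‖A *ᵥ col k l‖ * ‖Bᵀ *ᵥ col k l‖ ≤ K) : ‖A * B‖ ≤ 16 * K := by
  have hid : A * B = (A * k) * (Bᵀ * k)ᵀ := by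
    rw [transpose_mul, transpose_transpose, Matrix.mul_assoc, ← Matrix.mul_assoc k,
      mul_eq_one_comm.1 hk.1, Matrix.one_mul]
  have e : ∀ (M : M4) (i l : Fin 4), |(M * k) i l| ≤ ‖M *ᵥ col k l‖ := fun M i l => by
    have h : (M * k) i l = (M *ᵥ col k l) i := by
      simp [col, mulVec, dotProduct, mul_apply, Pi.single_apply]
    rw [h]
    exact norm_le_pi_norm (M *ᵥ col k l) i
  refine (norm_le_of_entries _ (B := 4 * K) (by positivity) fun i j => ?_).trans_eq (by simp; ring)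
  rw [hid, mul_apply]
  refine ((abs_sum_le_sum_abs _ _).trans (sum_le_card_nsmul _ _ K fun l _ => ?_)).trans_eq (by simp)
  rw [abs_mul, transpose_apply]
  exact (mul_le_mul (e A i l) (e Bᵀ j l) (abs_nonneg _) (norm_nonneg _)).trans (h l)

/-- The frame coefficients from the bounds at the two factors. -/
theorem coeff_le {C D Z Z' R R' : ℝ} (hC : 1 ≤ C) (hD : 1 ≤ D) (hZ : 0 < Z) (hZ' : 0 < Z')
    (hR : 0 < R) (hR' : 0 < R') (r1 : Z' ≤ C * Z) (r1' : Z ≤ C * Z') (r2 : R' ≤ C * R)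
    (r2' : R ≤ C * R') :
    D / Z * (D * Z') ≤ 16 * D ^ 4 * C ^ 2 ∧
      4 * (D / R * (D * Z)) * (4 * (D * R' * (D / Z'))) ≤ 16 * D ^ 4 * C ^ 2 ∧
      4 * (D * R * (D / Z)) * (4 * (D / R' * (D * Z'))) ≤ 16 * D ^ 4 * C ^ 2 ∧
      D * Z * (D / Z') ≤ 16 * D ^ 4 * C ^ 2 := by
  have q1 : Z' / Z ≤ C := by rwa [div_le_iff₀ hZ]
  have q1' : Z / Z' ≤ C := by rwa [div_le_iff₀ hZ']
  have q2 : R' / R ≤ C := by rwa [div_le_iff₀ hR]
  have q2' : R / R' ≤ C := by rwa [div_le_iff₀ hR']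
  have hC2 : C ≤ C ^ 2 := le_self_pow₀ hC two_ne_zero
  have small : ∀ t, 0 ≤ t → t ≤ C → D ^ 2 * t ≤ 16 * D ^ 4 * C ^ 2 := fun t ht h =>
    mul_le_mul ((pow_le_pow_right₀ hD (by norm_num : 2 ≤ 4)).trans (le_mul_of_one_le_left
      (by positivity) (by norm_num))) (h.trans hC2) ht (by positivity)
  have big : ∀ t u, 0 ≤ u → t ≤ C → u ≤ C → 16 * D ^ 4 * (t * u) ≤ 16 * D ^ 4 * C ^ 2 :=
    fun t u hu h h' => mul_le_mul_of_nonneg_left
      (by rw [sq]; exact mul_le_mul h h' hu (by linarith)) (by positivity)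
  refine ⟨?_, ?_, ?_, ?_⟩
  · exact le_of_eq_of_le (by ring) (small _ (by positivity) q1)
  · exact le_of_eq_of_le (by ring) (big _ (Z / Z') (by positivity) q2 q1')
  · exact le_of_eq_of_le (by ring) (big _ (Z' / Z) (by positivity) q2' q1)
  · exact le_of_eq_of_le (by ring) (small _ (by positivity) q1')

/-- An interval of multiplicative sizes is bounded. -/
theorem norm_div_le {C : ℝ} (hC : 1 ≤ C) {y z zi x xi z' zi' x' xi' : M4} (hy : IsSymp y)
    (h : Fits C y z zi x xi) (h' : Fits C y z' zi' x' xi')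
    (c1 : ‖z'‖ ≤ C * ‖z‖) (c1' : ‖z‖ ≤ C * ‖z'‖) (c2 : ‖rep2 z'‖ ≤ C * ‖rep2 z‖)
    (c2' : ‖rep2 z‖ ≤ C * ‖rep2 z'‖) (hz : 0 < ‖z‖) (hz' : 0 < ‖z'‖) (hr : 0 < ‖rep2 z‖)
    (hr' : 0 < ‖rep2 z'‖) : ‖zi * z'‖ ≤ 2 ^ 92 * C ^ 6 := by
  obtain ⟨k, k', s₁, s₂, hk, hk', h2, h12, hyk⟩ := cartan hy
  obtain ⟨f0, -, fw, -⟩ := factor_le (by linarith) h hk hk' h2 h12 hyk
  obtain ⟨-, g3, -, gw⟩ := factor_le (by linarith) h' hk hk' h2 h12 hyk
  obtain ⟨-, hzi, -, -, -, -, -, -, hzin, -, -, hzin2⟩ := h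
  have hz's : IsSymp z'ᵀ := h'.1.transpose
  have hC0 : 0 ≤ C := by linarith
  have b : ∀ (M : M4) (i : Fin 4), ‖M *ᵥ col k i‖ ≤ 4 * ‖M‖ := fun M i =>
    ((norm_mulVec_le M (col k i)).trans
      (mul_le_of_le_one_right (by positivity) (norm_col_le hk i))).trans_eq (by simp)
  have bw : ∀ (M : M4) (i j : Fin 4), J4 i j = 0 →
      ‖wedge (M *ᵥ col k i) (M *ᵥ col k j)‖ ≤ 32 * ‖rep2 M‖ := by
    intro M i j hij
    rw [← rep2_wedge M (by rw [col, col, hk.2.apply]; simpa [mulVec_single] using hij)]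
    refine (norm_mulVec_le _ _).trans ?_
    have hwl := (norm_wedge_le (col k i) (col k j)).trans
      (mul_le_mul_of_nonneg_left
        (mul_le_one₀ (norm_col_le hk i) (norm_nonneg _) (norm_col_le hk j)) zero_le_two)
    refine (mul_le_mul_of_nonneg_left hwl (by positivity)).trans (le_of_eq ?_)
    simp; ring
  have hT : ‖z'ᵀ‖ = ‖z'‖ := frobenius_transpose _
  have hT2 : ‖rep2 z'ᵀ‖ = ‖rep2 z'‖ := by rw [← rep2_transpose, frobenius_transpose]
  set a := fun i => ‖zi *ᵥ col k i‖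
  set c := fun i => ‖z'ᵀ *ᵥ col k i‖
  set Z := ‖z‖
  set Z' := ‖z'‖
  set R := ‖rep2 z‖
  set R' := ‖rep2 z'‖
  set D := 2 ^ 21 * C with hD
  have hD0 : 0 ≤ D := by positivity
  have a0 : a 0 ≤ D / Z := by
    rw [le_div_iff₀ hz, mul_comm]; exact f0.trans (by rw [hD]; linarith)
  have c3 : c 3 ≤ D / Z' := by
    rw [le_div_iff₀ hz', mul_comm]; exact g3.trans (by rw [hD]; linarith)
  have aw : ‖wedge (zi *ᵥ col k 0) (zi *ᵥ col k 1)‖ ≤ D / R := by
    rw [le_div_iff₀ hr, mul_comm]; exact fw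
  have cw : ‖wedge (z'ᵀ *ᵥ col k 2) (z'ᵀ *ᵥ col k 3)‖ ≤ D / R' := by
    rw [le_div_iff₀ hr', mul_comm]; exact gw
  have a3 : a 3 ≤ D * Z := (b zi 3).trans (by rw [hD]; nlinarith)
  have c0 : c 0 ≤ D * Z' := (b z'ᵀ 0).trans (by rw [hT, hD]; nlinarith)
  have aw' : ‖wedge (zi *ᵥ col k 2) (zi *ᵥ col k 3)‖ ≤ D * R :=
    (bw zi 2 3 (by simp [J4])).trans (by rw [hD]; nlinarith)
  have cw' : ‖wedge (z'ᵀ *ᵥ col k 0) (z'ᵀ *ᵥ col k 1)‖ ≤ D * R' :=
    (bw z'ᵀ 0 1 (by simp [J4])).trans (by rw [hT2, hD]; nlinarith)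
  have a1 : a 1 ≤ 4 * (D / R * (D * Z)) := (second_le hzi hk.2).trans
    (mul_le_mul_of_nonneg_left (mul_le_mul aw a3 (norm_nonneg _) (by positivity)) (by norm_num))
  have a2 : a 2 ≤ 4 * (D * R * (D / Z)) := (third_le hzi hk.2).trans
    (mul_le_mul_of_nonneg_left (mul_le_mul aw' a0 (norm_nonneg _) (by positivity)) (by norm_num))
  have c1b : c 1 ≤ 4 * (D * R' * (D / Z')) := (second_le hz's hk.2).trans
    (mul_le_mul_of_nonneg_left (mul_le_mul cw' c3 (norm_nonneg _) (by positivity)) (by norm_num))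
  have c2b : c 2 ≤ 4 * (D / R' * (D * Z')) := (third_le hz's hk.2).trans
    (mul_le_mul_of_nonneg_left (mul_le_mul cw c0 (norm_nonneg _) (by positivity)) (by norm_num))
  have hDC : 1 ≤ D := by rw [hD]; nlinarith
  obtain ⟨q0, q1, q2, q3⟩ := coeff_le hC hDC hz hz' hr hr' c1 c1' c2 c2'
  refine (norm_mul_le_of_frame hk (K := 16 * D ^ 4 * C ^ 2) (by positivity) fun l => ?_).trans ?_
  · fin_cases l
    · exact (mul_le_mul a0 c0 (norm_nonneg _) (by positivity)).trans q0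
    · exact (mul_le_mul a1 c1b (norm_nonneg _) (by positivity)).trans q1
    · exact (mul_le_mul a2 c2b (norm_nonneg _) (by positivity)).trans q2
    · exact (mul_le_mul a3 c3 (norm_nonneg _) (by positivity)).trans q3
  · rw [hD]
    exact le_of_eq (by ring)

end Vale.Agent.P165.SP.Pack
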