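import Vale.Agent.P165.SP.Base

/-!
# Elementary facts about the five-dimensional representation

`rep2` is multiplicative on symplectic matrices, commutes with transposition, acts on Lagrangian
wedges by the matrix on both factors, and its norm at an inverse is comparable with the norm.
-/

namespace Vale.Agent.P165.SP

open Finset Matrix
open scoped Matrix.Norms.Frobenius

/-- The wedge of two vectors, in ordered pairs of coordinates. -/
def wedge (a b : Fin 4 → ℝ) : I2 → ℝ := fun r => a r.1 * b r.2 - b r.1 * a r.2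

theorem isSymp_J4 : IsSymp J4 := by
  rw [IsSymp, J4_transpose, Matrix.neg_mul, J4_mul_J4, neg_neg, Matrix.one_mul]

theorem IsSymp.apply {g : M4} (hg : IsSymp g) (a b : Fin 4 → ℝ) :
    (g *ᵥ a) ⬝ᵥ (J4 *ᵥ (g *ᵥ b)) = a ⬝ᵥ (J4 *ᵥ b) := by
  rw [mulVec_mulVec, ← vecMul_transpose, ← dotProduct_mulVec, mulVec_mulVec, ← Matrix.mul_assoc,
    hg]

theorem minors_mul (g h : M4) : minors g * minors h = minors (g * h) := by
  ext r c
  simp only [minors, mul_apply, of_apply, Fintype.sum_prod_type, Fin.sum_univ_four]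
  ring

theorem minors_transpose (g : M4) : (minors g)ᵀ = minors gᵀ := by
  ext r c
  simp only [minors, transpose_apply, of_apply]
  ring

theorem minors_omega {g : M4} (hg : IsSymp g) : minors g *ᵥ omega = omega := by
  funext r
  have h := hg.transpose
  rw [IsSymp, transpose_transpose] at h
  have h' := congrFun (congrFun h r.1) r.2
  simp [mul_apply, transpose_apply, J4, Fin.sum_univ_four] at h'
  simp [minors, mulVec, dotProduct, omega, J4, Fintype.sum_prod_type, Fin.sum_univ_four]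
  linarith

theorem omega_dot : omega ⬝ᵥ omega = 4 := by
  simp [omega, J4, dotProduct, Fintype.sum_prod_type, Fin.sum_univ_four]
  norm_num

theorem omega_minors {g : M4} (hg : IsSymp g) : omega ᵥ* minors g = omega := by
  rw [← mulVec_transpose, minors_transpose, minors_omega hg.transpose]

/-- The representation is multiplicative on symplectic matrices. -/
theorem rep2_mul {g h : M4} (hg : IsSymp g) (hh : IsSymp h) :
    rep2 (g * h) = rep2 g * rep2 h := by
  have e : vecMulVec omega omega * vecMulVec omega omega = (4 : ℝ) • vecMulVec omega omega := by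
    ext r c
    simp only [mul_apply, vecMulVec_apply, Matrix.smul_apply, smul_eq_mul]
    rw [← omega_dot, dotProduct, sum_mul]
    exact sum_congr rfl fun k _ => by ring
  simp only [rep2, Matrix.sub_mul, Matrix.mul_sub, Matrix.smul_mul, Matrix.mul_smul, minors_mul, e]
  rw [mul_vecMulVec, vecMulVec_mul, minors_omega hg, omega_minors hh]
  module

theorem rep2_transpose (g : M4) : (rep2 g)ᵀ = rep2 gᵀ := by
  simp [rep2, minors_transpose]

theorem rep2_neg (g : M4) : rep2 (-g) = rep2 g := by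
  simp [rep2, minors]

theorem lag_mul {g : M4} (hg : IsSymp g) : lag * rep2 g = rep2 g := by
  rw [lag, ← rep2_mul isSymp_one hg, Matrix.one_mul]

theorem rep2_mul_lag {g : M4} (hg : IsSymp g) : rep2 g * lag = rep2 g := by
  rw [lag, ← rep2_mul hg isSymp_one, Matrix.mul_one]

/-- On a Lagrangian wedge the representation moves both vectors. -/
theorem rep2_wedge (g : M4) {a b : Fin 4 → ℝ} (h : a ⬝ᵥ (J4 *ᵥ b) = 0) :
    rep2 g *ᵥ wedge a b = wedge (g *ᵥ a) (g *ᵥ b) := by
  simp [dotProduct, mulVec, J4, Fin.sum_univ_four] at h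
  funext r
  obtain ⟨i, j⟩ := r
  simp [rep2, minors, wedge, omega, mulVec, dotProduct, Fintype.sum_prod_type,
    Fin.sum_univ_four, vecMulVec_apply]
  fin_cases i <;> fin_cases j <;> simp [J4] <;> linarith

theorem frobenius_transpose {n : Type} [Fintype n] (A : Matrix n n ℝ) : ‖Aᵀ‖ = ‖A‖ := by
  simp only [frobenius_norm_def, transpose_apply]
  rw [sum_comm]

/-- The inverse of a symplectic matrix. -/
theorem IsSymp.eq_inv {g gi : M4} (hg : IsSymp g) (h : g * gi = 1) :
    gi = -(J4 * gᵀ * J4) := by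
  calc gi = -(J4 * gᵀ * J4) * g * gi := by rw [hg.inv_mul, Matrix.one_mul]
    _ = _ := by rw [Matrix.mul_assoc, h, Matrix.mul_one]

theorem norm_inv_le {g gi : M4} (hg : IsSymp g) (h : g * gi = 1) :
    ‖gi‖ ≤ ‖J4‖ ^ 2 * ‖g‖ := by
  rw [hg.eq_inv h, norm_neg]
  calc ‖J4 * gᵀ * J4‖ ≤ ‖J4‖ * ‖gᵀ‖ * ‖J4‖ :=
        (norm_mul_le _ _).trans (mul_le_mul_of_nonneg_right (norm_mul_le _ _) (norm_nonneg _))
    _ = _ := by rw [frobenius_transpose]; ring

theorem norm_rep2_inv_le {g gi : M4} (hg : IsSymp g) (h : g * gi = 1) :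
    ‖rep2 gi‖ ≤ ‖rep2 J4‖ ^ 2 * ‖rep2 g‖ := by
  rw [hg.eq_inv h, rep2_neg, rep2_mul (isSymp_J4.mul hg.transpose) isSymp_J4,
    rep2_mul isSymp_J4 hg.transpose, ← rep2_transpose]
  calc ‖rep2 J4 * (rep2 g)ᵀ * rep2 J4‖ ≤ ‖rep2 J4‖ * ‖(rep2 g)ᵀ‖ * ‖rep2 J4‖ :=
        (norm_mul_le _ _).trans (mul_le_mul_of_nonneg_right (norm_mul_le _ _) (norm_nonneg _))
    _ = _ := by rw [frobenius_transpose]; ring

theorem lag_ne_zero : lag ≠ 0 := fun h => by
  have := congrFun (congrFun h (0, 1)) (0, 1)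
  simp [lag, rep2, minors, omega, J4, vecMulVec_apply] at this

theorem rep2_ne_zero {g gi : M4} (hg : IsSymp g) (hgi : IsSymp gi) (h : g * gi = 1) :
    rep2 g ≠ 0 := fun h0 => lag_ne_zero (by rw [lag, ← h, rep2_mul hg hgi, h0, Matrix.zero_mul])

namespace Env

variable {Γ O ι : Type} [Group Γ] [Fintype ι] (E : Env Γ O ι)

theorem rho_mul_inv (g : Γ) : E.ρ g * E.ρ g⁻¹ = 1 := by
  rw [← map_mul, mul_inv_cancel, map_one]

theorem rho_inv_mul (g : Γ) : E.ρ g⁻¹ * E.ρ g = 1 := by
  rw [← map_mul, inv_mul_cancel, map_one]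

theorem rep2_rho_mul (g h : Γ) : rep2 (E.ρ (g * h)) = rep2 (E.ρ g) * rep2 (E.ρ h) := by
  rw [map_mul, rep2_mul (E.symp g) (E.symp h)]

theorem norm_rho_pos (g : Γ) : 0 < ‖E.ρ g‖ := by
  refine norm_pos_iff.2 fun h => ?_
  have h1 := E.rho_mul_inv g
  rw [h, Matrix.zero_mul] at h1
  exact zero_ne_one h1

theorem norm_rep2_pos (g : Γ) : 0 < ‖rep2 (E.ρ g)‖ :=
  norm_pos_iff.2 (rep2_ne_zero (E.symp g) (E.symp g⁻¹) (E.rho_mul_inv g))

end Env

end Vale.Agent.P165.SP
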