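import Vale.Agent.P165.SP.Main
import Mathlib.LinearAlgebra.SymplecticGroup

/-!
# P165, Sp4 route: the theorem for the standard symplectic group

The theorem in the coordinates `Fin 2 ⊕ Fin 2` of the standard symplectic group, and its integer
points.
-/

namespace Vale.Agent.P165.SP

open Matrix
open scoped Matrix.Norms.Frobenius

/-- The standard coordinates: the form pairs the first with the last and the second with the
third. -/
def coordSp : Fin 2 ⊕ Fin 2 ≃ Fin 4 where
  toFun := Sum.elim ![3, 2] ![0, 1]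
  invFun := ![Sum.inr 0, Sum.inr 1, Sum.inl 1, Sum.inl 0]
  left_inv := by rintro (i | i) <;> fin_cases i <;> rfl
  right_inv := fun i => by fin_cases i <;> rfl

/-- The change of coordinates on the symplectic group. -/
noncomputable def toM4 (R : Type) [CommRing R] :
    symplecticGroup (Fin 2) R →* Matrix (Fin 4) (Fin 4) R :=
  (reindexAlgEquiv R R coordSp).toMonoidHom.comp (symplecticGroup (Fin 2) R).subtype

theorem J_coord : (Matrix.J (Fin 2) ℝ).submatrix coordSp.symm coordSp.symm = J4 := by
  ext i j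
  fin_cases i <;> fin_cases j <;> simp [coordSp, Matrix.J, J4, fromBlocks]

theorem isSymp_submatrix {A : Matrix (Fin 2 ⊕ Fin 2) (Fin 2 ⊕ Fin 2) ℝ}
    (hA : A ∈ symplecticGroup (Fin 2) ℝ) : IsSymp (A.submatrix coordSp.symm coordSp.symm) := by
  rw [IsSymp, ← J_coord, transpose_submatrix, submatrix_mul_equiv, submatrix_mul_equiv,
    SymplecticGroup.mem_iff'.1 hA]

theorem mem_of_isSymp {a : M4} (ha : IsSymp a) :
    a.submatrix coordSp coordSp ∈ symplecticGroup (Fin 2) ℝ := by
  rw [SymplecticGroup.mem_iff']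
  have hJ : Matrix.J (Fin 2) ℝ = J4.submatrix coordSp coordSp := by
    rw [← J_coord, submatrix_submatrix]
    simp
  rw [hJ, transpose_submatrix, submatrix_mul_equiv, submatrix_mul_equiv, ha]

/-- A group with a Zariski dense homomorphism to `Sp₄(ℝ)` sending only finitely many elements into
each box has a nonuniqueness phase. -/
theorem nonuniquePhase_of_symplectic {Γ : Type} [Group Γ] (ρ : Γ →* symplecticGroup (Fin 2) ℝ)
    (hfin : ∀ R : ℝ, {g | ∀ i j, |(ρ g).1 i j| ≤ R}.Finite)
    (hd : ∀ f : MvPolynomial ((Fin 2 ⊕ Fin 2) × (Fin 2 ⊕ Fin 2)) ℝ,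
      (∀ g, MvPolynomial.eval (fun e => (ρ g).1 e.1 e.2) f = 0) →
        ∀ a : symplecticGroup (Fin 2) ℝ, MvPolynomial.eval (fun e => a.1 e.1 e.2) f = 0) :
    SG.NonuniquePhase Γ := by
  refine nonuniquePhase_of_dense ((toM4 ℝ).comp ρ)
    (fun g => isSymp_submatrix (ρ g).2) (fun R => (hfin R).subset fun g hg i j => ?_) ?_
  · have h := hg (coordSp i) (coordSp j)
    simpa [toM4] using h
  · intro f hf a ha
    let f' := MvPolynomial.rename
      (fun e : Fin 4 × Fin 4 => (coordSp.symm e.1, coordSp.symm e.2)) f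
    have h := hd f' (fun g => by
      simp only [f', MvPolynomial.eval_rename]
      exact hf g) ⟨_, mem_of_isSymp ha⟩
    simp only [f', MvPolynomial.eval_rename] at h
    convert h using 3
    funext e
    simp

/-- The integer symplectic group, into the real one. -/
noncomputable def castSp : symplecticGroup (Fin 2) ℤ →* symplecticGroup (Fin 2) ℝ where
  toFun A := ⟨(Int.castRingHom ℝ).mapMatrix A.1, SymplecticGroup.map_mem A.2 (Int.castRingHom ℝ)⟩
  map_one' := Subtype.ext (map_one (Int.castRingHom ℝ).mapMatrix)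
  map_mul' A B := Subtype.ext (map_mul (Int.castRingHom ℝ).mapMatrix A.1 B.1)

theorem nonuniquePhase_symplectic_int : SG.NonuniquePhase (symplecticGroup (Fin 2) ℤ) := by
  refine nonuniquePhase_of_symplectic castSp (fun R => ?_) fun f hf a => ?_
  · have hf : (Set.pi Set.univ fun _ : Fin 2 ⊕ Fin 2 => Set.pi Set.univ
        fun _ : Fin 2 ⊕ Fin 2 => Set.Icc (-⌈R⌉) ⌈R⌉).Finite :=
      Set.Finite.pi fun _ => Set.Finite.pi fun _ => Set.finite_Icc _ _
    refine (hf.preimage (f := fun A : symplecticGroup (Fin 2) ℤ => fun i j => A.1 i j)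
      (fun a _ b _ h => Subtype.ext h)).subset fun A hA i _ j _ => ?_
    have h := abs_le.1 (hA i j)
    have h' : -R ≤ ((A.1 i j : ℤ) : ℝ) ∧ ((A.1 i j : ℤ) : ℝ) ≤ R := by simpa [castSp] using h
    have h2 := Int.le_ceil R
    constructor
    · show -⌈R⌉ ≤ A.1 i j
      refine (Int.cast_le (R := ℝ)).1 ?_
      push_cast
      linarith [h'.1]
    · show A.1 i j ≤ ⌈R⌉
      exact (Int.cast_le (R := ℝ)).1 (h'.2.trans h2)
  · let f' := MvPolynomial.rename
      (fun e : (Fin 2 ⊕ Fin 2) × (Fin 2 ⊕ Fin 2) => (coordSp e.1, coordSp e.2)) f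
    have h := intHom_dense f' (fun u => by
      have hu := mem_of_isSymp (intHom_symp u)
      let A := (u.1 : Matrix (Fin 4) (Fin 4) ℤ).submatrix coordSp coordSp
      have hA : A ∈ symplecticGroup (Fin 2) ℤ := by
        have hinj : Function.Injective ((Int.castRingHom ℝ).mapMatrix :
            Matrix (Fin 2 ⊕ Fin 2) (Fin 2 ⊕ Fin 2) ℤ →+* _) := fun P Q h =>
          Matrix.ext fun i j => by
            have h' := congrFun (congrFun h i) j
            simpa using h'
        rw [SymplecticGroup.mem_iff'] at hu ⊢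
        apply hinj
        simp only [map_mul]
        have hm : (Int.castRingHom ℝ).mapMatrix A = (intHom u).submatrix coordSp coordSp := rfl
        have hmT : (Int.castRingHom ℝ).mapMatrix Aᵀ =
            ((intHom u).submatrix coordSp coordSp)ᵀ := rfl
        have hJ : (Int.castRingHom ℝ).mapMatrix (Matrix.J (Fin 2) ℤ) = Matrix.J (Fin 2) ℝ :=
          map_J (Fin 2) (Int.castRingHom ℝ)
        rw [hm, hmT, hJ]
        exact hu
      simp only [f', MvPolynomial.eval_rename]
      exact hf ⟨A, hA⟩) (a.1.submatrix coordSp.symm coordSp.symm) (isSymp_submatrix a.2)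
    simp only [f', MvPolynomial.eval_rename] at h
    convert h using 3
    funext e
    simp

end Vale.Agent.P165.SP
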